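import Vale.Agent.P218S.Outer

/-! The saddle point block. -/

namespace Vale.Agent.P218S

open Filter Topology MeasureTheory Complex Real

variable {E : Type*} [NormedAddCommGroup E] [NormedSpace ℂ E] {ι : Type*} [Fintype ι]

lemma w1_int {m : ℕ} (hm : 0 < m) (ε : ℝ) :
    Integrable (w1 m ε) ∧ ∃ G : ℝ, 0 < G ∧ ∫ ζ, w1 m ε ζ = G := by
  have h1 : (1 : ℝ) ≤ m := by exact_mod_cast hm
  have h2 : (m : ℂ) ≠ 0 := by exact_mod_cast hm.ne'
  have e : w1 m ε = fun x : ℝ => cexp (((-1 + 1 / (128 * m ^ 2) : ℝ) : ℂ) * x ^ 2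
      + I * (ε / 2 - ε / (128 * m ^ 2) : ℝ) * x
      + (m * l0 m * tb m ε ^ 2 / 4 - ε ^ 2 / (512 * m ^ 2) : ℝ)) := by
    funext x
    rw [w1]
    congr 1
    push_cast
    field_simp
    linear_combination (1024 * (ε : ℂ) ^ 2) * I_sq
  rw [e]
  refine gauss_pos ?_
  have : 1 / (128 * (m : ℝ) ^ 2) < 1 := by rw [div_lt_one (by positivity)]; nlinarith
  linarith

lemma rot {J T e : ℂ} {μ δ : ℝ} (h1 : ‖J * e - T‖ ≤ μ) (h2 : ‖e‖ = 1) (h3 : ‖e - 1‖ ≤ δ) :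
    ‖J - T‖ ≤ μ + ‖T‖ * δ := by
  rw [← mul_one ‖J - T‖, ← h2, ← norm_mul, show (J - T) * e = (J * e - T) - T * (e - 1) by ring]
  exact (norm_sub_le _ _).trans (add_le_add h1 (by rw [norm_mul]; gcongr))

namespace Dat

variable (X : Dat E ι)

open Classical in
/-- Level used for each end. -/
noncomputable def bs (l : ι) : ℝ := if l ∈ X.A then X.bb l else X.bb X.geo.ne.choose

open Classical in
/-- Weight of each end. -/
noncomputable def be (l : ι) : ℝ :=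
  if l ∈ X.A then √2 * (X.F.B l * (√2 * Real.exp (X.bb l / 2) / X.m)) else 0

/-- The derivative along the path. -/
noncomputable def SS (n : ℕ) (y : ℝ) : ℂ := ∑ l, Wd X.A (X.F.p + 4) y l * X.JJ l (X.bs l) n y

lemma be_pos {l : ι} (hl : l ∈ X.A) : 0 < X.be l := by
  have := X.F.B_pos l
  have := X.arc.pos
  rw [be, if_pos hl]; positivity

lemma be_nonneg (l : ι) : 0 ≤ X.be l := by
  by_cases hl : l ∈ X.A
  · exact (X.be_pos hl).le
  · rw [be, if_neg hl]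

variable (hb : ∀ l ∈ X.A, X.Ad (X.bb l))
include hb

lemma bs_ad (l : ι) : X.Ad (X.bs l) := by
  unfold bs
  split_ifs with h
  exacts [hb l h, hb _ X.geo.ne.choose_spec]

lemma SS_bd : ∃ C : ℝ, ∀ᶠ y : ℝ in atTop, ∀ n, 1 ≤ n → 58 / 100 * QQ n ≤ y →
    ‖X.SS n y‖ ≤ C * GZ (2 * X.F.p + 1) (y - QQ n) := by
  have h1 : ∀ l, ∃ C : ℝ, ∀ᶠ y : ℝ in atTop, ∀ n, 1 ≤ n → 58 / 100 * QQ n ≤ y →
      ‖X.JJ l (X.bs l) n y‖ ≤ C * GZ (2 * X.F.p + 1) (y - QQ n) := fun l => by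
    by_cases hl : l ∈ X.A
    · exact X.JJ_bd hl (X.bs_ad hb l)
    · exact ⟨1, X.JJ_off hl (X.bs_ad hb l) one_pos⟩
  choose C hC using h1
  refine ⟨∑ l, 3 * C l, ?_⟩
  filter_upwards [eventually_all.2 hC, hh_ev (X.F.p + 4)] with y h2 ⟨_, _, h3, _⟩ n hn hy
  rw [Finset.sum_mul]
  refine (norm_sum_le _ _).trans (Finset.sum_le_sum fun l _ => ?_)
  rw [norm_mul, norm_real, mul_assoc]
  refine mul_le_mul ?_ (h2 l n hn hy) (norm_nonneg _) (by norm_num)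
  obtain ⟨s4, s5⟩ := sq2_bd
  obtain ⟨s6, s7⟩ := abs_le.1 h3
  unfold Wd
  split_ifs <;> exact abs_le.2 ⟨by linarith, by linarith⟩

lemma SS_lim (hδ : 0 < X.δ) {mj : ℝ → ℝ}
    (m1 : Integrable mj) (m2 : ∀ τ, 0 ≤ mj τ) (m3 : Integrable (HH X.ν))
    (hμ : ∀ (τ : ℝ) (Y d : ℂ), 2 ≤ Y.re → ‖Y - log Y - (sig X.ν - I * τ)‖ ≤ 2 * X.δ →
      ‖d + cexp (-(X.ν : ℂ) * log Y)‖ ≤ X.δ * ‖cexp (-(X.ν : ℂ) * log Y)‖ → ‖d + MM X.ν τ‖ ≤ mj τ)
    (ε₀ ζ : ℝ) {η : ℝ} (hη : 0 < η) : ∀ᶠ n in atTop,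
      (∀ j, ‖cexp (I * (X.ε j / 2 * QQ n : ℝ)) - 1‖ ≤ ε₀) →
      ‖X.SS n (QQ n + ζ) - ∑ l, -(X.be l * ∫ τ, HH X.ν τ) * w1 X.m (X.ε l) ζ‖
      ≤ ∑ l, X.be l * ((∫ τ, mj τ) + ‖∫ τ, HH X.ν τ‖ * ε₀) * ‖w1 X.m (X.ε l) ζ‖ + η := by
  obtain ⟨η', e0, -, e1⟩ := (ev_small (Fintype.card ι * 3) hη).exists
  obtain ⟨s4, s5⟩ := sq2_bd
  have key : ∀ l, ∀ᶠ n in atTop, (∀ j, ‖cexp (I * (X.ε j / 2 * QQ n : ℝ)) - 1‖ ≤ ε₀) →
      ‖Wd X.A (X.F.p + 4) (QQ n + ζ) l * X.JJ l (X.bs l) n (QQ n + ζ)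
        - -(X.be l * ∫ τ, HH X.ν τ) * w1 X.m (X.ε l) ζ‖
      ≤ X.be l * ((∫ τ, mj τ) + ‖∫ τ, HH X.ν τ‖ * ε₀) * ‖w1 X.m (X.ε l) ζ‖ + 3 * η' := by
    intro l
    by_cases hl : l ∈ X.A
    · filter_upwards [X.JJ_lim hl (hb l hl) hδ m1 m2 m3 hμ ζ e0] with n h1 h2
      have h3 := rot h1 (by rw [← norm_eI (X.ε l * QQ n / 2)]; push_cast; rfl)
        (le_of_eq_of_le (by congr 3; push_cast; ring) (h2 l))
      have h4 := X.F.B_pos l
      rw [norm_mul, norm_neg, norm_mul, norm_real, Real.norm_of_nonneg (by positivity)] at h3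
      simp only [Wd, bs, be, hl, if_true, add_zero]
      generalize X.F.B l * (√2 * Real.exp (X.bb l / 2) / X.m) = β at *
      have h5 := mul_le_mul_of_nonneg_left h3 (show 0 ≤ √2 by positivity)
      nth_rw 1 [← Real.norm_of_nonneg (show 0 ≤ √2 by positivity)] at h5
      rw [← norm_real, ← norm_mul] at h5
      refine le_of_eq_of_le (by congr 1; push_cast; ring) (h5.trans ?_)
      nlinarith
    · have hG := GZ_pos (2 * X.F.p + 1) ζ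
      filter_upwards [ev_n (X.JJ_off hl (X.bs_ad hb l) (div_pos e0 hG)) ζ,
        (tendsto_atTop_add_const_right atTop ζ QQ_tendsto).eventually (hh_ev (X.F.p + 4))]
        with n h1 ⟨_, _, h3, _⟩ _
      rw [add_sub_cancel_left, div_mul_cancel₀ _ hG.ne'] at h1
      obtain ⟨s6, s7⟩ := abs_le.1 h3
      simp only [Wd, be, hl, if_false, ofReal_zero, zero_mul, neg_zero, sub_zero, zero_add]
      rw [norm_mul, norm_real]
      exact mul_le_mul (abs_le.2 ⟨by linarith, by linarith⟩) h1 (norm_nonneg _) (by norm_num)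
  filter_upwards [eventually_all.2 key] with n h1 h2
  rw [SS, ← Finset.sum_sub_distrib]
  refine (norm_sum_le _ _).trans ((Finset.sum_le_sum fun l _ => h1 l h2).trans ?_)
  rw [Finset.sum_add_distrib, Finset.sum_const, Finset.card_univ, nsmul_eq_mul]
  linarith

theorem bound (hS : Stat X.F.f X.γ) (hδ : 0 < X.δ) {mj : ℝ → ℝ}
    (m1 : Integrable mj) (m2 : ∀ τ, 0 ≤ mj τ) (m3 : Integrable (HH X.ν))
    (hμ : ∀ (τ : ℝ) (Y d : ℂ), 2 ≤ Y.re → ‖Y - log Y - (sig X.ν - I * τ)‖ ≤ 2 * X.δ →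
      ‖d + cexp (-(X.ν : ℂ) * log Y)‖ ≤ X.δ * ‖cexp (-(X.ν : ℂ) * log Y)‖ → ‖d + MM X.ν τ‖ ≤ mj τ)
    {ε₀ : ℝ} (h0 : 0 < ε₀) :
    ‖∑ l, -(X.be l * ∫ τ, HH X.ν τ) * ∫ ζ, w1 X.m (X.ε l) ζ‖
      ≤ ∑ l, X.be l * ((∫ τ, mj τ) + ‖∫ τ, HH X.ν τ‖ * ε₀) * ∫ ζ, ‖w1 X.m (X.ε l) ζ‖ := by
  have hw := fun l => (w1_int X.arc.pos (X.ε l)).1
  obtain ⟨φ, hφ, hp⟩ := extraction_of_frequently_atTop (phases' (fun j => X.ε j / 2) h0)
  have ht := hφ.tendsto_atTop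
  obtain ⟨C, hC⟩ := X.SS_bd hb
  set ψ : ℕ → ℝ → ℂ := fun n ζ =>
    ((Real.exp (64 * n) * QQ n : ℝ) : ℂ) * X.Phi n (X.W (QQ n + ζ)) with hψ
  have hd : ∀ᶠ n in atTop, ∀ ζ, -(42 / 100 * QQ n) ≤ ζ →
      HasDerivAt (ψ n) (X.SS n (QQ n + ζ)) ζ := by
    filter_upwards [ev_u (X.deriv_eq (hb _ X.geo.ne.choose_spec) (X.bs_ad hb))] with n h ζ hζ
    exact (h _ (by linarith)).comp_const_add (QQ n) ζ
  have hm : 0 ≤ ∫ τ, mj τ := integral_nonneg m2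
  refine le_of_forall_pos_le_add fun η hη => ?_
  have hC' : ∀ ζ, 0 ≤ |C| * GZ (2 * X.F.p + 1) ζ := fun ζ => by
    have := GZ_pos (2 * X.F.p + 1) ζ
    positivity
  have key := limsup_dct (ε₁ := 0) (e := fun _ _ => 0)
    (a := fun k => (Set.Ioi (-(42 / 100 * QQ (φ k)))).indicator (deriv (ψ (φ k))))
    (integrable_finsetSum Finset.univ fun l _ => (hw l).const_mul (-(X.be l * ∫ τ, HH X.ν τ)))
    ((GZ_int (2 * X.F.p + 1)).const_mul |C|)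
    (integrable_finsetSum Finset.univ fun l _ =>
      (hw l).norm.const_mul (X.be l * ((∫ τ, mj τ) + ‖∫ τ, HH X.ν τ‖ * ε₀)))
    (by
      filter_upwards [ht.eventually hd, ht.eventually (ev_u hC)] with k h1 h2
      refine ⟨((measurable_deriv _).indicator measurableSet_Ioi).aestronglyMeasurable,
        integrable_zero _ _ _, fun _ => le_rfl, by simp, fun ζ => ?_⟩
      rw [add_zero]
      by_cases h : ζ ∈ Set.Ioi (-(42 / 100 * QQ (φ k)))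
      · have h3 := h2 (QQ (φ k) + ζ) (by linarith [h.out])
        rw [add_sub_cancel_left] at h3
        rw [Set.indicator_of_mem h, (h1 ζ h.out.le).deriv]
        exact h3.trans (mul_le_mul_of_nonneg_right (le_abs_self C) (GZ_pos _ _).le)
      · rw [Set.indicator_of_notMem h, norm_zero]; exact hC' ζ)
    (fun ζ => Finset.sum_nonneg fun l _ => by have := X.be_nonneg l; positivity)
    (fun ζ ε hε => by
      filter_upwards [ht.eventually hd, ht.eventually (X.SS_lim hb hδ m1 m2 m3 hμ ε₀ ζ hε),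
        ht.eventually (QQ_tendsto.eventually_ge_atTop (3 * |ζ| + 1))] with k h1 h2 h3
      have h : ζ ∈ Set.Ioi (-(42 / 100 * QQ (φ k))) := by
        rw [Set.mem_Ioi]; linarith [neg_abs_le ζ, abs_nonneg ζ]
      rw [Set.indicator_of_mem h, (h1 ζ h.out.le).deriv]
      exact h2 (hp k))
    (half_pos hη)
  obtain ⟨k, ⟨k1, k2⟩, k3, k4, k5⟩ := (key.and ((ht.eventually hd).and ((ht.eventually
    (eventually_ge_atTop 1)).and (ht.eventually ((X.start (hb _ X.geo.ne.choose_spec)).norm.eventually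
      (ge_mem_nhds (show ‖(0 : ℂ)‖ < η / 2 by simpa using hη))))))).exists
  have k6 : Tendsto (ψ (φ k)) atTop (𝓝 0) := by
    have := ((X.fin hS k4).comp (tendsto_atTop_add_const_left atTop (QQ (φ k))
      tendsto_id)).const_mul ((Real.exp (64 * φ k) * QQ (φ k) : ℝ) : ℂ)
    rwa [mul_zero] at this
  rw [integral_indicator measurableSet_Ioi, integral_Ioi_of_hasDerivAt_of_tendsto'
    (fun ζ h => (k3 ζ h).differentiableAt.hasDerivAt)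
    ((integrable_indicator_iff measurableSet_Ioi).1 k1) k6,
    integral_finsetSum _ fun l _ => (hw l).const_mul _,
    integral_finsetSum _ fun l _ => (hw l).norm.const_mul _] at k2
  simp only [integral_const_mul] at k2
  have k7 : ‖ψ (φ k) (-(42 / 100 * QQ (φ k)))‖ ≤ η / 2 := by
    simp only [hψ]
    rwa [show QQ (φ k) + -(42 / 100 * QQ (φ k)) = 58 / 100 * QQ (φ k) by ring]
  have k8 := norm_sub_norm_le (∑ l, -(X.be l * ∫ τ, HH X.ν τ) * ∫ ζ, w1 X.m (X.ε l) ζ)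
    (0 - ψ (φ k) (-(42 / 100 * QQ (φ k))))
  rw [norm_sub_rev (∑ l, _), zero_sub, norm_neg] at k8
  rw [zero_sub] at k2
  linarith

end Dat

theorem saddle : SADDLE E ι := by
  intro c κ m γ h
  have hm := h.pos
  obtain ⟨q, ω, A, ε, a, hg⟩ := h.geo
  obtain ⟨K, hK⟩ := hg.dom hm κ
  choose G hG hG' using fun l => (w1_int hm (ε l)).2
  obtain ⟨ε₀, h0, h1⟩ := ((ev_small 0 one_pos).and (eventually_all.2 fun l =>
    ev_small (4 * ∫ ζ, ‖w1 m (ε l) ζ‖) (hG l))).exists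
  obtain ⟨δ, hδ, ν₀, h6, hν⟩ := exp_main h0.1
  obtain ⟨L, hL⟩ : ∃ L : ℝ, ∀ l, K - κ l + (m * l0 m * tb m (ε l) ^ 2 / 2 + a l) ≤ L :=
    (Finite.bddAbove_range fun l => K - κ l + (m * l0 m * tb m (ε l) ^ 2 / 2 + a l)).imp
      fun B h j => h ⟨j, rfl⟩
  refine ⟨δ, hδ, max ν₀ (4 * (L + 8)), fun ν hν' F hS => ?_⟩
  have n1 := (le_max_left _ _).trans hν'
  have n2 := (le_max_right _ _).trans hν'
  obtain ⟨mj, m1, m2, m3, m4, m5, m6⟩ := hν ν n1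
  let X : Dat E ι := ⟨c, κ, m, γ, q, ω, A, ε, a, ν, δ, F, h, hg, by linarith⟩
  have hb : ∀ l ∈ X.A, X.Ad (X.bb l) := fun l _ => hK ν _ (by linarith) (by
    have e : Real.log (2 * ν) = Real.log (ν / 4) + Real.log 8 := by
      rw [← Real.log_mul (by linarith) (by norm_num)]; congr 1; ring
    have l1 := Real.log_le_sub_one_of_pos (show 0 < ν / 4 by linarith)
    have l2 := Real.log_le_sub_one_of_pos (show (0 : ℝ) < 8 by norm_num)
    have l3 := hL l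
    show _ ≤ sig ν + κ l - (m * l0 m * tb m (ε l) ^ 2 / 2 + a l)
    rw [sig]; linarith)
  have key : ‖∑ l, -(X.be l * ∫ τ, HH ν τ) * ∫ ζ, w1 m (ε l) ζ‖
      ≤ ∑ l, X.be l * ((∫ τ, mj τ) + ‖∫ τ, HH ν τ‖ * ε₀) * ∫ ζ, ‖w1 m (ε l) ζ‖ :=
    X.bound hb hS hδ m1 m2 m3 m6 h0.1
  obtain ⟨l₀, hl₀⟩ := hg.ne
  have p1 : 0 < ∑ l, X.be l * G l := Finset.sum_pos' (fun l _ => mul_nonneg (X.be_nonneg l)
    (hG l).le) ⟨l₀, Finset.mem_univ _, mul_pos (X.be_pos hl₀) (hG l₀)⟩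
  have p2 : ∑ l, -(X.be l * ∫ τ, HH ν τ) * ∫ ζ, w1 m (ε l) ζ
      = -(((∑ l, X.be l * G l : ℝ) : ℂ) * ∫ τ, HH ν τ) := by
    simp only [hG']
    push_cast
    rw [Finset.sum_mul, ← Finset.sum_neg_distrib]
    exact Finset.sum_congr rfl fun l _ => by ring
  have p3 : ∑ l, X.be l * ((∫ τ, mj τ) + ‖∫ τ, HH ν τ‖ * ε₀) * ∫ ζ, ‖w1 m (ε l) ζ‖
      ≤ (∑ l, X.be l * G l) * (‖∫ τ, HH ν τ‖ / 2) := by
    rw [Finset.sum_mul]
    refine Finset.sum_le_sum fun l _ => ?_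
    rw [mul_assoc, mul_assoc]
    refine mul_le_mul_of_nonneg_left ?_ (X.be_nonneg l)
    have q1 : 0 ≤ ∫ ζ, ‖w1 m (ε l) ζ‖ := integral_nonneg fun _ => norm_nonneg _
    nlinarith [mul_le_mul_of_nonneg_right m4 q1, mul_le_mul_of_nonneg_left (h1 l).2.2 m5.le]
  rw [p2, norm_neg, norm_mul, norm_real, Real.norm_of_nonneg p1.le] at key
  nlinarith [mul_pos p1 m5]

end Vale.Agent.P218S
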