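import Mathlib

/-! Elementary analysis used by the saddle point block. -/

namespace Vale.Agent.P218S

open Filter Topology MeasureTheory Complex

/-- Second order remainder of the exponential. -/
noncomputable def E2 (z : ℂ) : ℂ := if z = 0 then 1 / 2 else (exp z - 1 - z) / z ^ 2

lemma E2_eq (z : ℂ) : exp z = 1 + z + z ^ 2 * E2 z := by
  unfold E2
  split_ifs with h
  · simp [h]
  · field_simp
    ring

lemma E2_sub (z : ℂ) : ‖E2 z - 1 / 2‖ ≤ ‖z‖ * Real.exp ‖z‖ := by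
  unfold E2
  split_ifs with h
  · simp [h]
  · have h3 := norm_exp_sub_sum_le_norm_mul_exp z 3
    have hz : 0 < ‖z‖ := norm_pos_iff.2 h
    have e : (exp z - 1 - z) / z ^ 2 - 1 / 2
        = (exp z - ∑ m ∈ Finset.range 3, z ^ m / m.factorial) / z ^ 2 := by
      simp only [Finset.sum_range_succ, Finset.range_zero, Finset.sum_empty, Nat.factorial]
      field_simp
      push_cast
      ring
    rw [e, norm_div, norm_pow, div_le_iff₀ (by positivity)]
    calc _ ≤ _ := h3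
      _ = _ := by ring

lemma E2_le (z : ℂ) : ‖E2 z‖ ≤ Real.exp ‖z‖ := by
  unfold E2
  split_ifs with h
  · simp [h]; norm_num
  · have h3 := norm_exp_sub_sum_le_norm_mul_exp z 2
    have hz : 0 < ‖z‖ := norm_pos_iff.2 h
    have e : (exp z - 1 - z) = (exp z - ∑ m ∈ Finset.range 2, z ^ m / m.factorial) := by
      simp [Finset.sum_range_succ]
      ring
    rw [e, norm_div, norm_pow, div_le_iff₀ (by positivity)]
    calc _ ≤ _ := h3
      _ = _ := by ring

lemma exp_sub_le (z : ℂ) : ‖exp z - 1‖ ≤ ‖z‖ * Real.exp ‖z‖ := by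
  simpa using norm_exp_sub_sum_le_norm_mul_exp z 1

lemma E2_tendsto {α : Type*} {l : Filter α} {z : α → ℂ} (h : Tendsto z l (𝓝 0)) :
    Tendsto (fun a => E2 (z a)) l (𝓝 (1 / 2)) := by
  rw [tendsto_iff_norm_sub_tendsto_zero]
  have h1 : Tendsto (fun a => ‖z a‖) l (𝓝 0) := by simpa using h.norm
  have h2 : Tendsto (fun a => ‖z a‖ * Real.exp ‖z a‖) l (𝓝 (0 * Real.exp 0)) :=
    h1.mul ((Real.continuous_exp.tendsto 0).comp h1)
  rw [zero_mul] at h2
  exact squeeze_zero (fun _ => norm_nonneg _) (fun a => E2_sub _) h2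

/-- A Gaussian beats every polynomial. -/
lemma poly_gauss (k : ℕ) {c : ℝ} (hc : 0 < c) :
    ∃ C : ℝ, 0 < C ∧ ∀ u : ℝ, (2 + |u|) ^ k * Real.exp (-(c * u ^ 2)) ≤ C * (1 + u ^ 2)⁻¹ := by
  refine ⟨(k + 2).factorial * Real.exp (2 + 1 / (4 * c)), by positivity, fun u => ?_⟩
  have ha := abs_nonneg u
  have h1 : (2 + |u|) ^ (k + 2) / (k + 2).factorial ≤ Real.exp (2 + |u|) :=
    Real.pow_div_factorial_le_exp _ (by positivity) _
  rw [div_le_iff₀ (by positivity)] at h1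
  have h2 : 1 + u ^ 2 ≤ (2 + |u|) ^ 2 := by nlinarith [sq_abs u]
  have h3 : |u| - c * u ^ 2 ≤ 1 / (4 * c) := by
    rw [le_div_iff₀ (by positivity), ← sq_abs u]
    nlinarith [sq_nonneg (2 * c * |u| - 1)]
  rw [← div_eq_mul_inv, le_div_iff₀ (by positivity)]
  calc (2 + |u|) ^ k * Real.exp (-(c * u ^ 2)) * (1 + u ^ 2)
      ≤ (2 + |u|) ^ k * Real.exp (-(c * u ^ 2)) * (2 + |u|) ^ 2 := by gcongr
    _ = (2 + |u|) ^ (k + 2) * Real.exp (-(c * u ^ 2)) := by ring
    _ ≤ Real.exp (2 + |u|) * (k + 2).factorial * Real.exp (-(c * u ^ 2)) := by gcongr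
    _ = (k + 2).factorial * Real.exp (2 + (|u| - c * u ^ 2)) := by
        rw [show 2 + (|u| - c * u ^ 2) = (2 + |u|) + -(c * u ^ 2) by ring,
          Real.exp_add (2 + |u|)]; ring
    _ ≤ _ := by gcongr

/-- Dominated convergence with an error term. -/
lemma limsup_dct {a : ℕ → ℝ → ℂ} {b : ℝ → ℂ} {g mj : ℝ → ℝ} {e : ℕ → ℝ → ℝ} {ε₁ : ℝ}
    (hb : Integrable b) (hg : Integrable g) (hm : Integrable mj)
    (ha : ∀ᶠ n in atTop, AEStronglyMeasurable (a n) volume ∧ Integrable (e n) ∧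
      (∀ x, 0 ≤ e n x) ∧ ∫ x, e n x ≤ ε₁ ∧ ∀ x, ‖a n x‖ ≤ g x + e n x)
    (hm0 : ∀ x, 0 ≤ mj x)
    (hl : ∀ x, ∀ ε : ℝ, 0 < ε → ∀ᶠ n in atTop, ‖a n x - b x‖ ≤ mj x + ε)
    {ε : ℝ} (hε : 0 < ε) :
    ∀ᶠ n in atTop, Integrable (a n) ∧ ‖(∫ x, a n x) - ∫ x, b x‖ ≤ (∫ x, mj x) + ε₁ + ε := by
  set F : ℕ → ℝ → ℝ := fun n x => max (‖a n x - b x‖ - e n x - mj x) 0 with hF
  have hai : ∀ᶠ n in atTop, Integrable (a n) := by
    filter_upwards [ha] with n ⟨h1, h2, _, _, h5⟩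
    exact Integrable.mono' (hg.add h2) h1 (Eventually.of_forall h5)
  have hFi : ∀ᶠ n in atTop, Integrable (F n) := by
    filter_upwards [ha, hai] with n ⟨_, h2, _⟩ h
    exact (((h.sub hb).norm.sub h2).sub hm).pos_part
  have ht : Tendsto (fun n => ∫ x, F n x) atTop (𝓝 (∫ _ : ℝ, (0 : ℝ))) := by
    refine tendsto_integral_filter_of_dominated_convergence (fun x => |g x| + ‖b x‖) ?_ ?_
      (hg.abs.add hb.norm) ?_
    · filter_upwards [hFi] with n h using h.aestronglyMeasurable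
    · filter_upwards [ha] with n ⟨_, _, h3, _, h5⟩
      refine Eventually.of_forall fun x => ?_
      rw [Real.norm_eq_abs, abs_of_nonneg (le_max_right _ _)]
      refine max_le ?_ (by positivity)
      have := norm_sub_le (a n x) (b x)
      have := h5 x
      have := hm0 x
      have := le_abs_self (g x)
      linarith
    · refine Eventually.of_forall fun x => ?_
      rw [Metric.tendsto_nhds]
      intro δ hδ
      filter_upwards [hl x (δ / 2) (by positivity), ha] with n h ⟨_, _, h3, _⟩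
      rw [Real.dist_eq, sub_zero, abs_of_nonneg (le_max_right _ _)]
      have := h3 x
      exact max_lt (by linarith) hδ
  simp only [integral_zero] at ht
  filter_upwards [ha, hai, hFi, ht.eventually (gt_mem_nhds hε)] with n ⟨_, h2, _, h4, _⟩ h h6 h7
  refine ⟨h, ?_⟩
  rw [← integral_sub h hb]
  calc _ ≤ ∫ x, ‖a n x - b x‖ := norm_integral_le_integral_norm _
    _ ≤ ∫ x, (mj x + e n x + F n x) := by
        refine integral_mono (h.sub hb).norm ((hm.add h2).add h6) fun x => ?_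
        have := le_max_left (‖a n x - b x‖ - e n x - mj x) 0
        simp only [hF]
        linarith
    _ = (∫ x, mj x) + (∫ x, e n x) + ∫ x, F n x := by
        rw [integral_add (f := fun x => mj x + e n x) (hm.add h2) h6, integral_add hm h2]
    _ ≤ _ := by linarith

/-- Simultaneous recurrence of finitely many rotations. -/
lemma recur {ι : Type*} [Fintype ι] (β : ι → ℝ) {δ : ℝ} (hδ : 0 < δ) (N : ℕ) :
    ∃ n : ℕ, N ≤ n ∧ ∀ j, ‖exp (I * (β j * n : ℝ)) - 1‖ < δ := by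
  set x : ℕ → (ι → ℂ) := fun n j => exp (I * (β j * ((N + 1) * n : ℕ) : ℝ)) with hx
  have hmem : ∀ n, x n ∈ Metric.closedBall (0 : ι → ℂ) 1 := fun n => by
    rw [mem_closedBall_zero_iff, pi_norm_le_iff_of_nonneg zero_le_one]
    intro j
    simp only [hx]
    rw [mul_comm, norm_exp_ofReal_mul_I]
  obtain ⟨y, -, φ, hφ, hy⟩ := (isCompact_closedBall (0 : ι → ℂ) 1).tendsto_subseq hmem
  obtain ⟨M, hM⟩ := Metric.tendsto_atTop.1 hy (δ / 2) (by positivity)
  have hlt : φ M < φ (M + 1) := hφ (Nat.lt_succ_self M)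
  refine ⟨(N + 1) * (φ (M + 1) - φ M), ?_, fun j => ?_⟩
  · have : 1 ≤ φ (M + 1) - φ M := by omega
    nlinarith
  · have h1 := hM M le_rfl
    have h2 := hM (M + 1) (Nat.le_succ M)
    have h3 : dist (x (φ (M + 1))) (x (φ M)) < δ := by
      have := dist_triangle_right (x (φ (M + 1))) (x (φ M)) y
      simp only [Function.comp] at h1 h2
      linarith
    have h4 := (dist_le_pi_dist _ _ j).trans_lt h3
    rw [dist_eq_norm] at h4
    have e : x (φ (M + 1)) j - x (φ M) j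
        = x (φ M) j * (exp (I * (β j * ((N + 1) * (φ (M + 1) - φ M) : ℕ) : ℝ)) - 1) := by
      simp only [hx]
      rw [mul_sub, mul_one, ← Complex.exp_add]
      congr 2
      push_cast [Nat.cast_sub hlt.le]
      ring
    rw [e, norm_mul] at h4
    have h5 : ‖x (φ M) j‖ = 1 := by
      simp only [hx]
      rw [mul_comm, norm_exp_ofReal_mul_I]
    rwa [h5, one_mul] at h4

/-- The scale. -/
noncomputable def QQ (n : ℕ) : ℝ := √(128 * n)

lemma QQ_tendsto : Tendsto QQ atTop atTop :=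
  Real.tendsto_sqrt_atTop.comp (tendsto_natCast_atTop_atTop.const_mul_atTop (by norm_num))

lemma QQ_sq (n : ℕ) : QQ n ^ 2 = 128 * n := Real.sq_sqrt (by positivity)

lemma QQ_nonneg (n : ℕ) : 0 ≤ QQ n := Real.sqrt_nonneg _

/-- Frequently all phases are close to one. -/
lemma phases {ι : Type*} [Fintype ι] (β : ι → ℝ) :
    ∃ᶠ n in atTop, ∀ j, ‖exp (I * (β j * QQ n : ℝ)) - 1‖ ≤ 1 / 4 := by
  rw [frequently_atTop]
  intro a
  obtain ⟨B, hB⟩ : ∃ B : ℝ, ∀ j, |β j| ≤ B := (Finite.bddAbove_range fun j => |β j|).imp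
    fun B h j => h ⟨j, rfl⟩
  obtain ⟨N, hN⟩ := exists_nat_ge (max (128 * (a + 1 : ℝ)) (1024 * |B|))
  obtain ⟨s, hs, h⟩ := recur β (δ := 1 / 8) (by norm_num) N
  have hs1 : 128 * (a + 1 : ℝ) ≤ s := (le_max_left _ _).trans (hN.trans (by exact_mod_cast hs))
  have hs2 : 1024 * |B| ≤ s := (le_max_right _ _).trans (hN.trans (by exact_mod_cast hs))
  have ha : (0 : ℝ) ≤ a := Nat.cast_nonneg a
  have hs0 : (128 : ℝ) ≤ s := by linarith
  have hd1 : ((s ^ 2 / 128 : ℕ) : ℝ) * 128 ≤ (s : ℝ) ^ 2 := by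
    exact_mod_cast Nat.div_mul_le_self (s ^ 2) 128
  have hd2 : (s : ℝ) ^ 2 < ((s ^ 2 / 128 : ℕ) : ℝ) * 128 + 128 := by
    have := Nat.lt_div_mul_add (a := s ^ 2) (b := 128) (by norm_num)
    exact_mod_cast this
  refine ⟨s ^ 2 / 128, ?_, fun j => ?_⟩
  · have : (a : ℝ) ≤ ((s ^ 2 / 128 : ℕ) : ℝ) := by nlinarith
    exact_mod_cast this
  · set Q := QQ (s ^ 2 / 128) with hQ
    have hQ2 : Q ^ 2 = 128 * ((s ^ 2 / 128 : ℕ) : ℝ) := QQ_sq _
    have hQ0 : 0 ≤ Q := QQ_nonneg _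
    have h1 : Q ≤ s := by nlinarith
    have h2 : (s - Q) * s ≤ 128 := by nlinarith
    have h3 : |β j * (Q - s)| ≤ 1 / 8 := by
      rw [abs_mul, abs_sub_comm, abs_of_nonneg (by linarith : (0 : ℝ) ≤ s - Q)]
      have h4 : |β j| ≤ |B| := (hB j).trans (le_abs_self B)
      have h5 : |β j| * (s - Q) * s ≤ 1 / 8 * s := by
        have := abs_nonneg (β j)
        nlinarith [mul_le_mul_of_nonneg_left h2 (abs_nonneg (β j))]
      exact le_of_mul_le_mul_right h5 (by linarith)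
    have e : exp (I * (β j * Q : ℝ)) - 1 = exp (I * (β j * (Q - s) : ℝ))
        * (exp (I * (β j * s : ℝ)) - 1) + (exp (I * (β j * (Q - s) : ℝ)) - 1) := by
      rw [mul_sub (exp _), ← Complex.exp_add]
      have : I * ((β j * (Q - s) : ℝ) : ℂ) + I * ((β j * s : ℝ) : ℂ) = I * (β j * Q : ℝ) := by
        push_cast; ring
      rw [this]; ring
    rw [e]
    have h6 : ‖exp (I * (β j * (Q - s) : ℝ))‖ = 1 := by rw [mul_comm, norm_exp_ofReal_mul_I]
    have h7 : ‖exp (I * (β j * (Q - s) : ℝ)) - 1‖ ≤ 1 / 8 :=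
      (Real.norm_exp_I_mul_ofReal_sub_one_le).trans (by simpa using h3)
    have h8 := h j
    calc _ ≤ _ := norm_add_le _ _
      _ ≤ 1 / 8 + 1 / 8 := by rw [norm_mul, h6, one_mul]; exact add_le_add h8.le h7
      _ = 1 / 4 := by norm_num

/-- Fourier transform of a Gaussian is positive. -/
lemma gauss_pos {b c d : ℝ} (hb : b < 0) :
    Integrable (fun x : ℝ => exp ((b : ℂ) * x ^ 2 + I * c * x + d)) ∧
    ∃ G : ℝ, 0 < G ∧ ∫ x : ℝ, exp ((b : ℂ) * x ^ 2 + I * c * x + d) = G := by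
  refine ⟨integrable_cexp_quadratic' (by simpa using hb) _ _,
    (Real.pi / -b) ^ (1 / 2 : ℝ) * Real.exp (d + c ^ 2 / (4 * b)), ?_, ?_⟩
  · have : 0 < Real.pi / -b := div_pos Real.pi_pos (by linarith)
    positivity
  · rw [integral_cexp_quadratic (by simpa using hb)]
    have : 0 ≤ Real.pi / -b := (div_pos Real.pi_pos (by linarith)).le
    push_cast [Complex.ofReal_cpow this]
    congr 2
    rw [mul_pow, I_sq]
    ring

end Vale.Agent.P218S
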