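import Vale.Agent.P218S.Path

/-! Domination of the contributions of the ends. -/

namespace Vale.Agent.P218S

open Filter Topology MeasureTheory Complex Real

variable {E : Type*} [NormedAddCommGroup E] [NormedSpace ℂ E] {ι : Type*} [Fintype ι]

lemma aff {F : Type*} [NormedAddCommGroup F] [NormedSpace ℝ F] {g : ℝ → F} (hg : Integrable g)
    (c : ℝ) {k : ℝ} (hk : 0 < k) :
    Integrable (fun τ => g (c + τ / k)) ∧ ∫ τ, g (c + τ / k) = k • ∫ θ, g θ :=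
  ⟨(hg.comp_add_left c).comp_div hk.ne', by
    rw [Measure.integral_comp_div (fun x => g (c + x)), integral_add_left_eq_self, abs_of_pos hk]⟩

/-- Dominating profile. -/
noncomputable def GZ (k : ℕ) (ζ : ℝ) : ℝ := (2 + |ζ|) ^ k * Real.exp (-(1 / 16 * ζ ^ 2))

lemma GZ_pos (k : ℕ) (ζ : ℝ) : 0 < GZ k ζ := by unfold GZ; positivity

lemma GZ_int (k : ℕ) : Integrable (GZ k) := by
  obtain ⟨C, -, hC⟩ := poly_gauss k (c := 1 / 16) (by norm_num)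
  exact (integrable_inv_one_add_sq.const_mul C).mono' (by unfold GZ; fun_prop)
    (Eventually.of_forall fun u => by rw [Real.norm_of_nonneg (GZ_pos k u).le]; exact hC u)

lemma nrm_eq {b y : ℝ} {n : ℕ} (hn : 1 ≤ n) (hy : 0 < y) (hv : 0 < vv b y) :
    Real.exp (64 * n) = Real.exp ((√2 * y) ^ 2 / 4) * (√2 * y) ^ 2
      * Real.exp (64 * n * (1 - Real.exp (lm b n y) ^ 2)) * Real.exp (b / 2) := by
  have h1 := congrArg (· ^ 2) (exp_lm hn hv)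
  simp only [mul_pow, QQ_sq, Real.sq_sqrt hv.le] at h1
  have h2 : (√2 * y) ^ 2 = Real.exp (Real.log ((√2 * y) ^ 2)) :=
    (Real.exp_log (by positivity)).symm
  nth_rw 2 [h2]
  rw [← Real.exp_add, ← Real.exp_add, ← Real.exp_add]
  congr 1
  rw [vv, tipv] at h1
  linarith

lemma K_bd {m : ℕ} (hm : 0 < m) {b y θ : ℝ} {n : ℕ} (hn : 1 ≤ n) (hy : 58 / 100 * QQ n ≤ y)
    (h1 : y ^ 2 ≤ vv b y) (h2 : √(vv b y) ≤ y + 1) (hθ : |θ| ≤ π) :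
    1 / 2 ≤ Real.exp (lm b n y) ∧ Real.exp (lm b n y) ≤ 2 + |y - QQ n| ∧
    ‖kk m n (lm b n y) θ‖ * Real.exp (64 * n * (1 - Real.exp (lm b n y) ^ 2)) ≤
      Real.exp 1 * Real.exp (-(1 / 16 * (y - QQ n) ^ 2))
        * Real.exp (-(1 / 12800 * (QQ n * θ) ^ 2)) := by
  have hQ := QQ_ge hn
  have hv : 0 < vv b y := by nlinarith
  have h3 := exp_lm hn hv
  have h4 := Real.le_sqrt_of_sq_le h1
  have h5 : 1 / 2 ≤ Real.exp (lm b n y) := le_of_mul_le_mul_left (by linarith) (show 0 < QQ n by linarith)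
  refine ⟨h5, le_of_mul_le_mul_left ?_ (show 0 < QQ n by linarith), (kk_gauss hm n h5 hθ).trans ?_⟩
  · nlinarith [le_abs_self (y - QQ n), abs_nonneg (y - QQ n)]
  · rw [← Real.exp_add, ← Real.exp_add, mul_sub, h3, mul_one]
    refine Real.exp_le_exp.2 ?_
    nlinarith [sq_nonneg (y - QQ n + 2 * (√(vv b y) - y))]

lemma jj_le {m : ℕ} (hm : 0 < m) (θ : ℝ) : ‖jj (l0 m) θ‖ ≤ 2 := by
  obtain ⟨h1, h2, -⟩ := l0_bd hm
  refine (norm_add_le _ _).trans ?_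
  rw [norm_one, norm_mul, norm_eI, norm_real, Real.norm_of_nonneg h1.le]; linarith

lemma M_ge {m : ℕ} (hm : 0 < m) : 1 ≤ m * (1 + l0 m) := by
  have : (1 : ℝ) ≤ m := by exact_mod_cast hm
  nlinarith [(l0_bd hm).1]

lemma norm_e64 (n : ℕ) (x : ℝ) :
    ‖cexp (64 * n * (1 - (x : ℂ) ^ 2))‖ = Real.exp (64 * n * (1 - x ^ 2)) := by
  rw [← Complex.norm_exp_ofReal]; push_cast; rfl

lemma alg3 {Q y C C₂ ε P₁ P₂ M K j e₁ e₂ e₃ s x u t d : ℝ} {p : ℕ} (hQ : 1 ≤ Q)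
    (hy : 58 / 100 * Q ≤ y) (k2 : 0 < C₂) (e0 : 0 < ε) (p1 : 0 < P₁) (hM : 1 ≤ M) (hK : 0 ≤ K)
    (ht : 0 ≤ t) (h1 : 0 < e₁) (h2 : 0 < e₂) (h3 : 0 < e₃) (hj : 0 ≤ j) (hs : 0 ≤ s) (hx : 0 ≤ x)
    (c2 : x ≤ 2 + |y - Q|) (c3 : K ≤ Real.exp 1 * e₁ * e₂) (j1 : j ≤ 2)
    (d1 : (s ^ 2)⁻¹ ≤ C₂ * (2 + |u|) ^ 4 * t) (d2 : s ≤ C₂ * Q * (1 + x) ^ 2 * (2 + |u|) ^ 2)
    (d3 : d ≤ C / s ^ 2 + ε / (√2 * y) * (1 + s / (√2 * y)) ^ p)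
    (q3 : (2 + |u|) ^ 4 * e₂ ≤ P₁ * (1 + u ^ 2)⁻¹)
    (q4 : (2 + |u|) ^ (2 * p) * e₂ ≤ P₂ * (1 + u ^ 2)⁻¹) :
    d * (K * j * (√2 * y / Q * e₃ / M)) ≤ (2 + |y - Q|) ^ (2 * p + 1) * e₁ *
      (Real.exp 1 * 4 * e₃ * (|C| * C₂ * P₁) * t +
        Real.exp 1 * 4 * e₃ * (2 * ε * (1 + 8 * C₂) ^ p * P₂) * (Q⁻¹ * (1 + u ^ 2)⁻¹)) := by
  obtain ⟨s1, s2⟩ := sq2_bd
  have g0 := abs_nonneg (y - Q)
  have hy0 : 0 < y := by linarith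
  have z1 : √2 * y / Q ≤ 2 * (2 + |y - Q|) := by
    rw [div_le_iff₀ (by linarith)]
    nlinarith [le_abs_self (y - Q)]
  have z2 : (√2 * y)⁻¹ ≤ 2 * Q⁻¹ := by
    rw [← div_eq_mul_inv, le_div_iff₀ (by linarith), inv_mul_le_iff₀ (by positivity)]
    nlinarith
  have z3 : (1 + u ^ 2)⁻¹ ≤ 1 := inv_le_one_of_one_le₀ (by nlinarith [sq_nonneg u])
  have hg : 2 ≤ 2 + |y - Q| := by linarith
  have hw : 2 ≤ 2 + |u| := by linarith [abs_nonneg u]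
  generalize 2 + |y - Q| = g at *
  generalize 2 + |u| = w at *
  have f1 : 1 + s / (√2 * y) ≤ (1 + 8 * C₂) * (g ^ 2 * w ^ 2) := by
    have f2 : s / (√2 * y) ≤ C₂ * Q * (2 * g) ^ 2 * w ^ 2 * (2 * Q⁻¹) := by
      rw [div_eq_mul_inv]; gcongr; exact d2.trans (by gcongr; linarith)
    have f3 : C₂ * Q * (2 * g) ^ 2 * w ^ 2 * (2 * Q⁻¹) = 8 * C₂ * (g ^ 2 * w ^ 2) := by
      field_simp; ring
    have f4 : 1 ≤ g ^ 2 * w ^ 2 :=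
      one_le_mul_of_one_le_of_one_le (one_le_pow₀ (by linarith)) (one_le_pow₀ (by linarith))
    linarith
  have f5 : 1 ≤ g ^ (2 * p) := one_le_pow₀ (by linarith)
  have f6 : d ≤ g ^ (2 * p) * (|C| * C₂ * t * w ^ 4
      + 2 * ε * (1 + 8 * C₂) ^ p * Q⁻¹ * w ^ (2 * p)) := by
    refine d3.trans ?_
    rw [mul_add]
    refine add_le_add (le_trans ?_ (le_mul_of_one_le_left (by positivity) f5)) ?_
    · calc _ ≤ |C| * (s ^ 2)⁻¹ := by rw [div_eq_mul_inv]; gcongr; exact le_abs_self _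
        _ ≤ |C| * (C₂ * w ^ 4 * t) := by gcongr
        _ = _ := by ring
    · calc _ ≤ ε * (2 * Q⁻¹) * ((1 + 8 * C₂) * (g ^ 2 * w ^ 2)) ^ p := by
            rw [div_eq_mul_inv]; gcongr
        _ = _ := by rw [mul_pow, mul_pow, ← pow_mul, ← pow_mul]; ring
  have f7 : √2 * y / Q * e₃ / M ≤ 2 * g * e₃ := (div_le_self (by positivity) hM).trans (by gcongr)
  calc _ ≤ g ^ (2 * p) * (|C| * C₂ * t * w ^ 4 + 2 * ε * (1 + 8 * C₂) ^ p * Q⁻¹ * w ^ (2 * p))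
        * (Real.exp 1 * e₁ * e₂ * 2 * (2 * g * e₃)) := by gcongr
    _ = g ^ (2 * p + 1) * e₁ * (Real.exp 1 * 4 * e₃ * (|C| * C₂ * t * (w ^ 4 * e₂))
          + Real.exp 1 * 4 * e₃ * (2 * ε * (1 + 8 * C₂) ^ p * Q⁻¹ * (w ^ (2 * p) * e₂))) := by ring
    _ ≤ g ^ (2 * p + 1) * e₁ * (Real.exp 1 * 4 * e₃ * (|C| * C₂ * t * (P₁ * 1))
          + Real.exp 1 * 4 * e₃ * (2 * ε * (1 + 8 * C₂) ^ p * Q⁻¹ * (P₂ * (1 + u ^ 2)⁻¹))) := by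
        have q5 : w ^ 4 * e₂ ≤ P₁ * 1 := q3.trans (by gcongr)
        generalize w ^ 4 * e₂ = A at *
        generalize w ^ (2 * p) * e₂ = B at *
        generalize P₂ * (1 + u ^ 2)⁻¹ = D at *
        generalize P₁ * 1 = F at *
        gcongr
    _ = _ := by ring

namespace Dat

variable (X : Dat E ι)

lemma W_A {l : ι} (hl : l ∈ X.A) (y : ℝ) : X.W y l = √2 * y := by simp [W, WW, hl]

lemma W_cut : ∀ᶠ y : ℝ in atTop, X.W y ∈ (Cut (√2 * y) : Set (ι → ℝ)) := by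
  filter_upwards [hh_ev (X.F.p + 4)] with y ⟨h1, h2, _⟩ l
  by_cases hl : l ∈ X.A <;> simp only [W, WW, hl, if_true, if_false] <;>
    constructor <;> linarith

lemma pt_mem {b : ℝ} (hb : X.Ad b) : ∃ C : ℝ, ∀ᶠ y : ℝ in atTop, ∀ n, 1 ≤ n →
    58 / 100 * QQ n ≤ y → ∀ θ, X.pt b n y θ ∈ Dom X.c X.κ X.ν X.F.r (X.W y) ∧
      ‖X.pt b n y θ‖ ≤ C * rr X.m (vv b y) ∧
      ∀ l ∈ X.A, 1 ≤ ‖sv X.c X.κ l (X.W y) (X.pt b n y θ)‖ := by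
  obtain ⟨C, hC⟩ := X.geo.g0
  refine ⟨C, ?_⟩
  filter_upwards [hb _ X.F.r_pos (X.F.p + 4), vv_ev b one_pos, (rr_tend X.arc.pos b).eventually hC,
    eventually_all.2 fun l => vv_ev (X.κ l) one_pos] with y h1 ⟨b1, b2, _⟩ h2 h3 n hn hy θ
  have ok := ok_of X.arc.pos hn hy b2
  obtain ⟨t1, t2⟩ := (h1 _ ok (X.W y) fun l => by
    simp only [W, sub_self, abs_zero]; positivity).2 _ (norm_eI θ).le
  have t3 := h2 _ ok _ (norm_eI θ).le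
  rw [sg_exp] at t1 t2 t3
  refine ⟨t1, t3, fun l hl => ?_⟩
  have t4 : ‖X.c l (X.pt b n y θ)‖ * (tipv (X.κ l) (X.W y l) + 3 * X.ν / 2) < 1 := t2 l hl
  have t5 : y ^ 2 ≤ tipv (X.κ l) (X.W y l) := by rw [X.W_A hl]; exact (h3 l).2.1
  have t6 : 1 ≤ tipv (X.κ l) (X.W y l) := by nlinarith
  have := X.hν
  rw [sv]
  generalize X.c l (X.pt b n y θ) = x at *
  generalize tipv (X.κ l) (X.W y l) = T at *
  have t7 : ‖(T : ℂ)‖ = T := by rw [norm_real, Real.norm_of_nonneg (by linarith)]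
  by_cases hx : x = 0
  · rw [hx, inv_zero, neg_zero, zero_sub, norm_neg, t7]; exact t6
  · have t8 := norm_sub_norm_le (-x⁻¹) T
    have t9 : 0 < ‖x‖ := norm_pos_iff.2 hx
    rw [norm_neg, norm_inv, t7] at t8
    rw [← lt_div_iff₀' t9, one_div] at t4
    linarith

lemma sv_eq {l : ι} (hl : l ∈ X.A) (b : ℝ) : ∃ C : ℝ, ∀ᶠ y : ℝ in atTop, ∀ n, 1 ≤ n →
    58 / 100 * QQ n ≤ y → ∀ θ, ∃ e : ℂ,
      (QQ n * Real.exp (lm b n y)) ^ 2 * ‖e‖ ≤ C * rr X.m (vv b y) ∧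
      sv X.c X.κ l (X.W y) (X.pt b n y θ) = ((b - X.κ l : ℝ) : ℂ)
        + sF X.m (X.ε l) (X.a l) (QQ n) (lm b n y) (uu (l0 X.m) θ) e := by
  obtain ⟨C, hC⟩ := X.geo.g3 l hl
  refine ⟨C, ?_⟩
  filter_upwards [vv_ev b one_pos, (rr_tend X.arc.pos b).eventually hC]
    with y ⟨b1, b2, _⟩ h2 n hn hy θ
  have hv : 0 < vv b y := by nlinarith
  have h3 := exp_lm hn hv
  have h4 : (QQ n * Real.exp (lm b n y)) ^ 2 = vv b y := by rw [h3, Real.sq_sqrt hv.le]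
  obtain ⟨e, e1, e2⟩ := h2 _ (ok_of X.arc.pos hn hy b2) θ (QQ n * Real.exp (lm b n y))
    (by rw [h3]; positivity) (by rw [h4, rr_pow X.arc.pos hv])
  refine ⟨e, e1, ?_⟩
  have h5 : tipv (X.κ l) (√2 * y) = (QQ n * Real.exp (lm b n y)) ^ 2 - b + X.κ l := by
    rw [h4, vv, tipv, tipv]; ring
  rw [sv, pt, e2, X.W_A hl, h5, sF]
  push_cast
  ring

/-- Normalised amplitude. -/
noncomputable def dd (l : ι) (b : ℝ) (n : ℕ) (y θ : ℝ) : ℂ :=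
  X.F.D l (X.W y) (X.pt b n y θ) * (Real.exp ((X.W y l) ^ 2 / 4) * X.W y l : ℝ)

lemma gg_eq {l : ι} (hl : l ∈ X.A) {b y : ℝ} {n : ℕ} (hn : 1 ≤ n) (hy : 0 < y) (hv : 0 < vv b y)
    (θ : ℝ) : X.gg l b n y θ * (Real.exp (64 * n) / (QQ n * (X.m * (1 + l0 X.m))) : ℝ)
      = X.dd l b n y θ * (kk X.m n (lm b n y) θ * cexp (64 * n * (1 - Real.exp (lm b n y) ^ 2))
        * jj (l0 X.m) θ * (√2 * y / QQ n * Real.exp (b / 2) / (X.m * (1 + l0 X.m)) : ℝ)) := by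
  rw [nrm_eq hn hy hv, gg, dd, X.W_A hl, ← div_div]
  push_cast
  ring

theorem gg_bd {l : ι} (hl : l ∈ X.A) {b : ℝ} (hb : X.Ad b) : ∃ C : ℝ, 0 ≤ C ∧ ∀ η : ℝ, 0 < η →
    ∀ᶠ y : ℝ in atTop, ∀ n, 1 ≤ n → 58 / 100 * QQ n ≤ y → ∀ τ θ : ℝ,
      θ = th X.m (X.ε l) (QQ n) (lm b n y) τ → |θ| ≤ π →
      ‖X.gg l b n y θ * (Real.exp (64 * n) / (QQ n * (X.m * (1 + l0 X.m))) : ℝ)‖ ≤
        GZ (2 * X.F.p + 1) (y - QQ n) *
          (C * (1 + τ ^ 2)⁻¹ + η * ((QQ n)⁻¹ * (1 + (QQ n * θ) ^ 2)⁻¹)) := by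
  have hm := X.arc.pos
  obtain ⟨C₀, h0⟩ := X.pt_mem hb
  obtain ⟨C₁, h1⟩ := X.sv_eq hl b
  obtain ⟨C₂, k2, h2⟩ := sF_bd hm (X.ε l) (X.a l) (b - X.κ l)
  obtain ⟨P₁, p1, q1⟩ := poly_gauss 4 (c := 1 / 12800) (by norm_num)
  obtain ⟨P₂, p2, q2⟩ := poly_gauss (2 * X.F.p) (c := 1 / 12800) (by norm_num)
  obtain ⟨R, r0, hR⟩ : ∃ R : ℝ, 0 < R ∧ R = Real.exp 1 * 4 * Real.exp (b / 2) :=
    ⟨_, by positivity, rfl⟩
  refine ⟨R * (|X.F.C| * C₂ * P₁), by positivity, fun η hη => ?_⟩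
  obtain ⟨ε, e0, hε⟩ : ∃ ε : ℝ, 0 < ε ∧ R * (2 * ε * (1 + 8 * C₂) ^ X.F.p * P₂) = η :=
    ⟨η / (R * 2 * (1 + 8 * C₂) ^ X.F.p * P₂), by positivity, by field_simp⟩
  filter_upwards [h0, h1, vv_ev b one_pos, X.W_cut, (rr_tend hm b).eventually (ev_small C₁ one_pos),
    (tendsto_id.const_mul_atTop (show 0 < √2 by positivity)).eventually (X.F.tip ε e0)]
    with y h0 h1 ⟨b1, b2, b3⟩ h3 ⟨_, _, h4⟩ h5 n hn hy τ θ hθ hπ
  obtain ⟨a1, -, a2⟩ := h0 n hn hy θ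
  obtain ⟨e, a3, a4⟩ := h1 n hn hy θ
  obtain ⟨c1, c2, c3⟩ := K_bd hm hn hy b2 b3 hπ
  have hQ := QQ_ge hn
  obtain ⟨d1, d2⟩ := h2 _ _ τ θ e _ hQ c1 hπ hθ (a3.trans h4) a4 (a2 l hl)
  have d3 := h5 _ h3 _ a1 l
  have hM := M_ge hm
  have d4 : ‖X.dd l b n y θ‖ = ‖X.F.D l (X.W y) (X.pt b n y θ)‖ * Real.exp (X.W y l ^ 2 / 4)
      * X.W y l := by
    rw [dd, norm_mul, norm_real, Real.norm_of_nonneg (by rw [X.W_A hl]; positivity), mul_assoc]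
  rw [← d4, id] at d3
  rw [X.gg_eq hl hn (by linarith) (lt_of_lt_of_le (by positivity) b2), norm_mul, norm_mul, norm_mul,
    norm_mul, norm_e64, norm_real, Real.norm_of_nonneg (by positivity), GZ, ← hε, hR]
  exact alg3 hQ hy k2 e0 p1 hM (by positivity) (by positivity) (Real.exp_pos _) (Real.exp_pos _)
    (Real.exp_pos _) (norm_nonneg _) (norm_nonneg _) (Real.exp_pos _).le c2 c3 (jj_le hm θ) d1 d2 d3
    (q1 _) (q2 _)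

end Dat

end Vale.Agent.P218S
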