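import Mathlib

/-! Interface of the saddle point block: a family of reduced functionals indexed by the cut
heights of the cylindrical ends cannot be stationary along a real Gevrey arc. -/

namespace Vale.Agent.P218S

open Filter Topology

variable {E : Type*} [NormedAddCommGroup E] [NormedSpace ℂ E] {ι : Type*} [Fintype ι]

/-- Truncation of the formal arc with coefficients `γ i`. -/
noncomputable def arc (γ : ℕ → E) (n : ℕ) (t : ℂ) : E := ∑ i ∈ Finset.range (n + 1), t ^ i • γ i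

/-- A formal arc through `0` whose `c` components are real, of order `m`, normalised, and of
Gevrey type. -/
structure Arc (c : ι → E →L[ℂ] ℂ) (m : ℕ) (γ : ℕ → E) : Prop where
  pos : 0 < m
  zero : γ 0 = 0
  real : ∀ j i, (c j (γ i)).im = 0
  low : ∀ j i, i < m → c j (γ i) = 0
  le_one : ∀ j, ‖c j (γ m)‖ ≤ 1
  one : ∃ j, ‖c j (γ m)‖ = 1
  gev : ∃ C : ℝ, ∀ i : ℕ, ‖γ i‖ ^ m ≤ C * (5 / 2 / (m : ℝ)) ^ i * (i.factorial : ℝ)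

/-- Position of the tip in the variable `-1 / c`. -/
noncomputable def tipv (κ Z : ℝ) : ℝ := Z ^ 2 / 2 + 2 * Real.log (Z ^ 2) + κ

/-- Admissible vectors of cut heights. -/
def Cut (Z : ℝ) : Set (ι → ℝ) := {W | ∀ l, W l ∈ Set.Icc Z (Z + 1)}

/-- Domain of the member with cut heights `W`. -/
def Dom (c : ι → E →L[ℂ] ℂ) (κ : ι → ℝ) (ν r : ℝ) (W : ι → ℝ) : Set E :=
  {x | ‖x‖ < r ∧ ∀ l, ‖c l x * ((tipv (κ l) (W l) + 3 * ν / 2 : ℝ) : ℂ) - 1 / 4‖ < 5 / 4}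

/-- Distance to the tip of end `j`. -/
noncomputable def sv (c : ι → E →L[ℂ] ℂ) (κ : ι → ℝ) (j : ι) (W : ι → ℝ) (x : E) : ℂ :=
  -(c j x)⁻¹ - (tipv (κ j) (W j) : ℂ)

/-- The family of reduced functionals with its envelope formula. -/
structure Fam (c : ι → E →L[ℂ] ℂ) (κ : ι → ℝ) (ν δ : ℝ) where
  r : ℝ
  p : ℕ
  C : ℝ
  B : ι → ℝ
  f : (ι → ℝ) → E → ℂ
  D : ι → (ι → ℝ) → E → ℂ
  r_pos : 0 < r
  B_pos : ∀ j, 0 < B j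
  hol : ∀ᶠ Z : ℝ in atTop, ∀ W ∈ (Cut Z : Set (ι → ℝ)),
    DifferentiableOn ℂ (f W) (Dom c κ ν r W) ∧ ∀ x ∈ Dom c κ ν r W,
      ‖f W x‖ ≤ Real.exp Z ∧
      HasFDerivAt (fun W' => f W' x)
        (∑ j, (ContinuousLinearMap.proj j : (ι → ℝ) →L[ℝ] ℝ).smulRight (D j W x)) W ∧
      ∀ j, ‖D j W x‖ ≤ Z ^ p * Real.exp (-(W j) ^ 2 / 4)
  tip : ∀ ε : ℝ, 0 < ε → ∀ᶠ Z : ℝ in atTop, ∀ W ∈ (Cut Z : Set (ι → ℝ)),
    ∀ x ∈ Dom c κ ν r W, ∀ j,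
      ‖D j W x‖ * Real.exp ((W j) ^ 2 / 4) * W j
        ≤ C / ‖sv c κ j W x‖ ^ 2 + ε / Z * (1 + ‖sv c κ j W x‖ / Z) ^ p
  main : ∀ R : ℝ, ∃ r' : ℝ, 0 < r' ∧ ∀ᶠ Z : ℝ in atTop, ∀ W ∈ (Cut Z : Set (ι → ℝ)),
    ∀ x ∈ Dom c κ ν r W, ‖x‖ < r' → ∀ j, ‖sv c κ j W x‖ ≤ R →
      ∃ Y : ℂ, 2 ≤ Y.re ∧ ‖Y - Complex.log Y - sv c κ j W x‖ ≤ δ ∧
        ‖D j W x * (Real.exp ((W j) ^ 2 / 4) * W j : ℝ)
            + B j * Complex.exp (-(ν : ℂ) * Complex.log Y)‖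
          ≤ δ * B j * ‖Complex.exp (-(ν : ℂ) * Complex.log Y)‖

/-- Stationarity of the limit jets along the arc. -/
def Stat (f : (ι → ℝ) → E → ℂ) (γ : ℕ → E) : Prop :=
  ∀ n i : ℕ, 1 ≤ i → i ≤ 2 * n + 1 → ∀ ε : ℝ, 0 < ε → ∀ᶠ Z : ℝ in atTop,
    ∀ W ∈ (Cut Z : Set (ι → ℝ)), ‖iteratedDeriv i (fun t => f W (arc γ n t)) 0‖ ≤ ε

/-- The same, in terms of the gradient. -/
def StatG (f : (ι → ℝ) → E → ℂ) (γ : ℕ → E) : Prop :=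
  ∀ (n i : ℕ) (v : E), i ≤ n → ∀ ε : ℝ, 0 < ε → ∀ᶠ Z : ℝ in atTop,
    ∀ W ∈ (Cut Z : Set (ι → ℝ)),
      ‖iteratedDeriv i (fun t => fderiv ℂ (f W) (arc γ n t) v) 0‖ ≤ ε

/-- Statement of the block. -/
def SADDLE (E : Type*) [NormedAddCommGroup E] [NormedSpace ℂ E] (ι : Type*) [Fintype ι] : Prop :=
  ∀ (c : ι → E →L[ℂ] ℂ) (κ : ι → ℝ) (m : ℕ) (γ : ℕ → E), Arc c m γ →
    ∃ δ : ℝ, 0 < δ ∧ ∃ ν₀ : ℝ, ∀ ν : ℝ, ν₀ ≤ ν → ∀ F : Fam c κ ν δ, ¬ Stat F.f γ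

end Vale.Agent.P218S
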