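import Vale.Agent.P218S.Ana

/-! The one dimensional model integral along the vertical line through the saddle. -/

namespace Vale.Agent.P218S

open Filter Topology MeasureTheory Complex

/-- Abscissa of the contour. -/
noncomputable def sig (ν : ℝ) : ℝ := 2 * ν - Real.log (2 * ν)

/-- Model amplitude. -/
noncomputable def MM (ν τ : ℝ) : ℂ := exp (-(ν : ℂ) * log (((2 * ν : ℝ) : ℂ) - I * τ))

/-- Model integrand. -/
noncomputable def HH (ν τ : ℝ) : ℂ := MM ν τ * exp (-(I * τ / 2))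

lemma log_lip {s : Set ℂ} (hs : Convex ℝ s) {C : ℝ} (h : ∀ z ∈ s, 0 < z.re ∧ ‖z‖⁻¹ ≤ C)
    {x y : ℂ} (hx : x ∈ s) (hy : y ∈ s) : ‖log y - log x‖ ≤ C * ‖y - x‖ :=
  hs.norm_image_sub_le_of_norm_hasDerivWithin_le (𝕜 := ℂ) (f' := fun z => z⁻¹)
    (fun z hz => (Complex.hasDerivAt_log (Or.inl (h z hz).1)).hasDerivWithinAt)
    (fun z hz => by simpa using (h z hz).2) hx hy

lemma log_half {a : ℝ} (ha : 0 < a) {x y : ℂ} (hx : a ≤ x.re) (hy : a ≤ y.re) :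
    ‖log y - log x‖ ≤ a⁻¹ * ‖y - x‖ :=
  log_lip (convex_halfSpace_re_ge a) (fun z hz => ⟨ha.trans_le hz,
    inv_anti₀ ha (le_trans hz (re_le_norm z))⟩) hx hy

lemma MM_close {ν δ τ : ℝ} (hν : 2 ≤ ν) (hδ : 0 ≤ δ) (hδ1 : δ ≤ 1 / 4) {Y d : ℂ} (hY : 2 ≤ Y.re)
    (h1 : ‖Y - log Y - (sig ν - I * τ)‖ ≤ 2 * δ)
    (h2 : ‖d + exp (-(ν : ℂ) * log Y)‖ ≤ δ * ‖exp (-(ν : ℂ) * log Y)‖) :
    ‖d + MM ν τ‖ ≤ Real.exp 6 * (9 * δ + 2 * (|τ| / ν)) * ‖MM ν τ‖ := by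
  set Y' : ℂ := ((2 * ν : ℝ) : ℂ) - I * τ with hY'
  have hre : Y'.re = 2 * ν := by simp [hY']
  have him : Y'.im = -τ := by simp [hY']
  have hn1 : 2 * ν ≤ ‖Y'‖ := hre ▸ re_le_norm Y'
  have hn2 : |τ| ≤ ‖Y'‖ := by simpa [him] using abs_im_le_norm Y'
  have ht := abs_nonneg τ
  have ha : ‖log Y' - log ((2 * ν : ℝ) : ℂ)‖ ≤ (2 * ν)⁻¹ * |τ| := by
    have := log_half (a := 2 * ν) (by linarith) (x := ((2 * ν : ℝ) : ℂ)) (y := Y') (by simp)
      hre.ge
    simpa [hY'] using this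
  have hb : ‖log Y - log Y'‖ ≤ (2 : ℝ)⁻¹ * ‖Y - Y'‖ :=
    log_half (by norm_num) (by rw [hre]; linarith) hY
  have hc : ‖Y - Y'‖ ≤ 4 * δ + |τ| / ν := by
    have e : Y - Y' = (Y - log Y - (sig ν - I * τ)) + (log Y - log Y')
        + (log Y' - log ((2 * ν : ℝ) : ℂ)) := by
      rw [hY', sig, ← ofReal_log (by linarith)]
      push_cast; ring
    have h3 : ‖Y - Y'‖ ≤ 2 * δ + (2 : ℝ)⁻¹ * ‖Y - Y'‖ + (2 * ν)⁻¹ * |τ| := by
      calc ‖Y - Y'‖ = _ := by rw [e]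
        _ ≤ _ := norm_add₃_le
        _ ≤ _ := by gcongr
    have h4 : (2 * ν)⁻¹ * |τ| = |τ| / ν / 2 := by field_simp
    linarith
  have hd : |τ| / ν ≤ ‖Y'‖ / 2 / 2 + ‖Y'‖ / 4 := by
    rw [div_le_iff₀ (by linarith)]; nlinarith
  have hc2 : ‖Y - Y'‖ ≤ 3 / 4 * ‖Y'‖ := by linarith
  have hpos : 0 < ‖Y'‖ := by linarith
  have he : ‖log Y - log Y'‖ ≤ 4 / ‖Y'‖ * ‖Y - Y'‖ := by
    refine log_lip ((convex_halfSpace_re_ge 2).inter (convex_closedBall Y' (3 / 4 * ‖Y'‖)))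
      (fun z hz => ⟨by have : 2 ≤ z.re := hz.1; linarith, ?_⟩)
      ⟨by show 2 ≤ Y'.re; rw [hre]; linarith, by simp⟩
      ⟨hY, by rwa [mem_closedBall_iff_norm]⟩
    have h5 : ‖z - Y'‖ ≤ 3 / 4 * ‖Y'‖ := mem_closedBall_iff_norm.1 hz.2
    have h6 : ‖Y'‖ ≤ ‖z‖ + ‖z - Y'‖ := by
      calc ‖Y'‖ = ‖z - (z - Y')‖ := by ring_nf
        _ ≤ _ := norm_sub_le _ _
    rw [← inv_div]
    exact inv_anti₀ (by positivity) (by linarith)
  set w : ℂ := -(ν : ℂ) * (log Y - log Y') with hw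
  have hw0 : ‖w‖ ≤ ν * (4 / ‖Y'‖ * (4 * δ + |τ| / ν)) := by
    rw [hw, norm_mul, norm_neg, norm_real, Real.norm_eq_abs, abs_of_nonneg (by linarith)]
    gcongr
    exact he.trans (by gcongr)
  have e1 : ν * (4 / ‖Y'‖ * (4 * δ + |τ| / ν)) = 8 * δ * (2 * ν / ‖Y'‖) + 4 * (|τ| / ‖Y'‖) := by
    field_simp; ring
  have k1 : 2 * ν / ‖Y'‖ ≤ 1 := (div_le_one hpos).2 hn1
  have k2 : |τ| / ‖Y'‖ ≤ 1 := (div_le_one hpos).2 hn2
  have k3 : |τ| / ‖Y'‖ ≤ |τ| / ν / 2 := by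
    rw [div_div]; gcongr; linarith
  have hw1 : ‖w‖ ≤ 8 * δ + 2 * (|τ| / ν) := by nlinarith
  have hw2 : ‖w‖ ≤ 6 := by nlinarith
  have e2 : exp (-(ν : ℂ) * log Y) = MM ν τ * exp w := by
    rw [MM, ← Complex.exp_add, hw]; congr 1; ring
  have k4 : ‖exp w‖ ≤ Real.exp 6 :=
    (norm_exp_le_exp_norm w).trans (Real.exp_le_exp.2 hw2)
  have k5 : ‖exp w - 1‖ ≤ (8 * δ + 2 * (|τ| / ν)) * Real.exp 6 :=
    (exp_sub_le w).trans (by gcongr)
  rw [e2] at h2
  have e3 : d + MM ν τ = (d + MM ν τ * exp w) - MM ν τ * (exp w - 1) := by ring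
  rw [e3]
  calc _ ≤ _ := norm_sub_le _ _
    _ ≤ δ * (‖MM ν τ‖ * Real.exp 6) + ‖MM ν τ‖ * ((8 * δ + 2 * (|τ| / ν)) * Real.exp 6) := by
        refine add_le_add (h2.trans ?_) ?_ <;> rw [norm_mul] <;> gcongr
    _ = _ := by ring

/-- Modulus of the model amplitude, normalised. -/
noncomputable def ww (ν τ : ℝ) : ℝ := Real.exp (-(ν / 2 * Real.log (1 + (τ / (2 * ν)) ^ 2)))

lemma HH_eq {ν : ℝ} (hν : 1 ≤ ν) (τ : ℝ) : ∃ φ : ℝ,
    HH ν τ = (Real.exp (-(ν * Real.log (2 * ν))) * ww ν τ : ℝ) * exp (I * φ) ∧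
    ‖exp (I * φ) - 1‖ ≤ 16 * ν * |τ / (2 * ν)| ^ 3 := by
  set x := τ / (2 * ν) with hx
  set z : ℂ := -(I * x) with hz
  have hzn : ‖z‖ = |x| := by simp [hz]
  have h1 : (1 + z) ≠ 0 := fun h => by simpa [hz] using congrArg Complex.re h
  have e1 : ((2 * ν : ℝ) : ℂ) - I * τ = ((2 * ν : ℝ) : ℂ) * (1 + z) := by
    have : (ν : ℂ) ≠ 0 := by exact_mod_cast (by linarith : ν ≠ 0)
    rw [hz, hx]; push_cast; field_simp; ring
  have e2 : (log (1 + z)).re = Real.log (1 + x ^ 2) / 2 := by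
    rw [log_re, ← Real.log_sqrt (by positivity), norm_eq_sqrt_sq_add_sq]
    simp [hz]
  refine ⟨-(ν * ((log (1 + z)).im + x)), ?_, ?_⟩
  · rw [HH, MM, e1, log_ofReal_mul (by linarith) h1, ww, ← hx]
    push_cast
    simp only [← Complex.exp_add]
    congr 1
    have e3 : (τ : ℂ) = 2 * ν * x := by
      have : τ = 2 * ν * x := by rw [hx]; field_simp
      exact_mod_cast this
    conv_lhs => rw [← re_add_im (log (1 + z)), e2, e3]
    push_cast
    ring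
  · have ha := abs_nonneg x
    rcases le_or_gt |x| (1 / 2) with h | h
    · refine Real.norm_exp_I_mul_ofReal_sub_one_le.trans ?_
      have h2 := norm_log_sub_logTaylor_le 2 (z := z) (by rw [hzn]; linarith)
      have h3 : (log (1 + z) - logTaylor (2 + 1) z).im = (log (1 + z)).im + x := by
        simp [logTaylor, Finset.sum_range_succ, hz, pow_succ]
      have h4 : |(log (1 + z)).im + x| ≤ |x| ^ 3 := by
        rw [← h3]
        refine (abs_im_le_norm _).trans (h2.trans ?_)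
        rw [hzn]
        have : (1 - |x|)⁻¹ ≤ 2 := by
          rw [inv_le_comm₀ (by linarith) (by norm_num)]; linarith
        have h5 : 0 ≤ |x| ^ 3 := by positivity
        norm_num
        nlinarith
      rw [Real.norm_eq_abs, abs_neg, abs_mul, abs_of_nonneg (by linarith : 0 ≤ ν)]
      have h5 : 0 ≤ |x| ^ 3 := by positivity
      nlinarith
    · have h2 : (1 / 2 : ℝ) ^ 3 ≤ |x| ^ 3 := by gcongr
      calc _ ≤ ‖exp (I * _)‖ + ‖(1 : ℂ)‖ := norm_sub_le _ _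
        _ = 2 := by rw [mul_comm, norm_exp_ofReal_mul_I]; norm_num
        _ ≤ _ := by nlinarith

lemma ww_bd {ν : ℝ} (hν : 6 ≤ ν) (τ : ℝ) :
    Real.exp (-(1 / 2) * (τ / (2 * √ν)) ^ 2) ≤ ww ν τ ∧
    ww ν τ ≤ 216 * ((1 + (τ / (2 * √ν)) ^ 2) ^ 3)⁻¹ := by
  have hs : √ν ^ 2 = ν := Real.sq_sqrt (by linarith)
  have hs0 : 0 < √ν := Real.sqrt_pos.2 (by linarith)
  set u := τ / (2 * √ν) with hu
  have e : (τ / (2 * ν)) ^ 2 = u ^ 2 / ν := by
    rw [hu, div_pow, div_pow, mul_pow, mul_pow, hs]; field_simp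
  have hu2 : 0 ≤ u ^ 2 / ν := by positivity
  rw [ww, e]
  constructor
  · refine Real.exp_le_exp.2 ?_
    have h1 : Real.log (1 + u ^ 2 / ν) ≤ u ^ 2 / ν := by
      have := Real.log_le_sub_one_of_pos (x := 1 + u ^ 2 / ν) (by linarith)
      linarith
    have h2 : ν / 2 * (u ^ 2 / ν) = u ^ 2 / 2 := by field_simp
    nlinarith
  · have h1 := one_add_mul_self_le_rpow_one_add (s := u ^ 2 / ν) (by linarith) (p := ν / 6)
      (by linarith)
    have h2 : ν / 6 * (u ^ 2 / ν) = u ^ 2 / 6 := by field_simp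
    rw [h2, Real.rpow_def_of_pos (by linarith)] at h1
    have h3 : ((1 + u ^ 2) / 6) ^ 3 ≤ Real.exp (ν / 2 * Real.log (1 + u ^ 2 / ν)) := by
      rw [show ν / 2 * Real.log (1 + u ^ 2 / ν) = (3 : ℕ) * (Real.log (1 + u ^ 2 / ν) * (ν / 6))
        by push_cast; ring, Real.exp_nat_mul]
      gcongr
      linarith
    rw [Real.exp_neg]
    refine (inv_anti₀ (by positivity) h3).trans (le_of_eq ?_)
    field_simp
    norm_num

theorem exp_main {ε : ℝ} (hε : 0 < ε) : ∃ δ : ℝ, 0 < δ ∧ ∃ ν₀ : ℝ, 6 ≤ ν₀ ∧ ∀ ν : ℝ, ν₀ ≤ ν →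
    ∃ mj : ℝ → ℝ, Integrable mj ∧ (∀ τ, 0 ≤ mj τ) ∧ Integrable (HH ν) ∧
      (∫ τ, mj τ) ≤ ε * ‖∫ τ, HH ν τ‖ ∧ 0 < ‖∫ τ, HH ν τ‖ ∧
      ∀ (τ : ℝ) (Y d : ℂ), 2 ≤ Y.re → ‖Y - log Y - (sig ν - I * τ)‖ ≤ 2 * δ →
        ‖d + exp (-(ν : ℂ) * log Y)‖ ≤ δ * ‖exp (-(ν : ℂ) * log Y)‖ → ‖d + MM ν τ‖ ≤ mj τ := by
  set e6 := Real.exp 6 with he6
  have he : 0 < e6 := Real.exp_pos _
  set T := max 16 (8 * e6 / ε) * (216 * 4) with hT
  have hT1 : 16 * (216 * 4) ≤ T := by rw [hT]; gcongr; exact le_max_left _ _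
  have hT2 : 8 * e6 / ε * (216 * 4) ≤ T := by rw [hT]; gcongr; exact le_max_right _ _
  refine ⟨min (1 / 4) (ε / (36 * e6)), by positivity, T ^ 2, by nlinarith, fun ν hν => ?_⟩
  set δ := min (1 / 4) (ε / (36 * e6)) with hδ
  have hδ0 : 0 ≤ δ := by positivity
  have hν6 : 6 ≤ ν := by nlinarith
  have hs : √ν ^ 2 = ν := Real.sq_sqrt (by linarith)
  have hsT : T ≤ √ν := Real.le_sqrt_of_sq_le hν
  have hs0 : 0 < √ν := by linarith
  set N0 := Real.exp (-(ν * Real.log (2 * ν))) with hN0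
  have hN : 0 < N0 := Real.exp_pos _
  have hw0 : ∀ τ, 0 < ww ν τ := fun τ => Real.exp_pos _
  have hnH : ∀ τ, ‖HH ν τ‖ = N0 * ww ν τ := fun τ => by
    obtain ⟨φ, h, -⟩ := HH_eq (ν := ν) (by linarith) τ
    rw [h, norm_mul, mul_comm I, norm_exp_ofReal_mul_I, mul_one, norm_real, Real.norm_eq_abs,
      abs_of_pos (mul_pos hN (hw0 τ))]
  have hnM : ∀ τ, ‖MM ν τ‖ = N0 * ww ν τ := fun τ => by
    rw [← hnH, HH, norm_mul, norm_exp]; simp
  set g : ℝ → ℝ := fun τ => (1 + (τ / (2 * √ν)) ^ 2)⁻¹ with hg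
  have hgi : Integrable g := integrable_inv_one_add_sq.comp_div (by positivity)
  have hgv : ∫ τ, g τ = 2 * √ν * Real.pi := by
    rw [hg, Measure.integral_comp_div (fun x : ℝ => (1 + x ^ 2)⁻¹), integral_univ_inv_one_add_sq,
      abs_of_pos (by positivity), smul_eq_mul]
  have key : ∀ τ, ww ν τ ≤ 216 * g τ ∧ |τ| / ν * ww ν τ ≤ 2 * 216 / √ν * g τ ∧
      16 * ν * |τ / (2 * ν)| ^ 3 * ww ν τ ≤ 16 * 216 / √ν * g τ := fun τ => by
    have h := (ww_bd hν6 τ).2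
    set u := τ / (2 * √ν) with hu
    have hg1 : g τ = (1 + |u| ^ 2)⁻¹ := by rw [sq_abs]
    rw [← sq_abs u] at h
    have e1 : |τ| / ν = 2 / √ν * |u| := by
      rw [hu, abs_div, abs_of_pos (by positivity : 0 < 2 * √ν)]
      field_simp
      rw [hs]
    have e2 : ν * |τ / (2 * ν)| ^ 3 = |u| ^ 3 / √ν := by
      rw [abs_div, abs_of_pos (by positivity : 0 < 2 * ν), mul_comm 2 ν, ← div_div, e1]
      nth_rw 1 [← hs]
      field_simp
    have ha := abs_nonneg u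
    generalize |u| = a at *
    have hp : 0 < 1 + a ^ 2 := by positivity
    have k : ∀ b : ℝ, 0 ≤ b → b ≤ (1 + a ^ 2) ^ 2 → b * ww ν τ ≤ 216 * g τ := fun b hb hb2 => by
      calc b * ww ν τ ≤ (1 + a ^ 2) ^ 2 * (216 * ((1 + a ^ 2) ^ 3)⁻¹) :=
            mul_le_mul hb2 h (hw0 τ).le (by positivity)
        _ = _ := by rw [hg1]; field_simp
    have k1 := k 1 zero_le_one (by nlinarith [sq_nonneg (a ^ 2)])
    have k2 := k a ha (by nlinarith [sq_nonneg (a ^ 2), sq_nonneg (a - 1)])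
    have k3 := k (a ^ 3) (by positivity) (by nlinarith [sq_nonneg (a ^ 2 - a), sq_nonneg a])
    refine ⟨by linarith, ?_, ?_⟩
    · rw [e1]
      calc _ = 2 / √ν * (a * ww ν τ) := by ring
        _ ≤ 2 / √ν * (216 * g τ) := by gcongr
        _ = _ := by ring
    · rw [mul_assoc 16, e2]
      calc _ = 16 / √ν * (a ^ 3 * ww ν τ) := by ring
        _ ≤ 16 / √ν * (216 * g τ) := by gcongr
        _ = _ := by ring
  have hwc : Continuous (ww ν) := by
    unfold ww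
    refine Real.continuous_exp.comp (Continuous.neg (continuous_const.mul ?_))
    exact Continuous.log (by fun_prop) (fun x => by positivity)
  have hwi : Integrable (ww ν) := Integrable.mono' (hgi.const_mul 216) hwc.aestronglyMeasurable
    (Eventually.of_forall fun τ => by rw [Real.norm_eq_abs, abs_of_pos (hw0 τ)]; exact (key τ).1)
  have hHc : Continuous (HH ν) := by
    unfold HH MM
    refine Continuous.mul (Continuous.cexp (continuous_const.mul ?_)) (by fun_prop)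
    exact Continuous.clog (by fun_prop) fun τ => Or.inl (by simp; linarith)
  have hHi : Integrable (HH ν) := Integrable.mono' (hwi.const_mul N0) hHc.aestronglyMeasurable
    (Eventually.of_forall fun τ => (hnH τ).le)
  set J := ∫ τ, ww ν τ with hJ
  have hJ1 : 4 * √ν ≤ J := by
    have h1 : Integrable fun τ : ℝ => Real.exp (-(1 / 2) * (τ / (2 * √ν)) ^ 2) :=
      (integrable_exp_neg_mul_sq (b := 1 / 2) (by norm_num)).comp_div (by positivity)
    refine le_trans ?_ (integral_mono h1 hwi fun τ => (ww_bd hν6 τ).1)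
    rw [Measure.integral_comp_div (fun x : ℝ => Real.exp (-(1 / 2) * x ^ 2)), integral_gaussian,
      abs_of_pos (by positivity), smul_eq_mul]
    have : 2 ≤ √(Real.pi / (1 / 2)) := Real.le_sqrt_of_sq_le (by linarith [Real.pi_gt_three])
    nlinarith
  have hpi := Real.pi_le_four
  have hA : ‖(∫ τ, HH ν τ) - ((N0 * J : ℝ) : ℂ)‖ ≤ N0 * (16 * 216 * 8) := by
    rw [hJ, ← integral_const_mul, ← integral_complex_ofReal,
      ← integral_sub (g := fun τ => ((N0 * ww ν τ : ℝ) : ℂ)) hHi (hwi.const_mul N0).ofReal]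
    refine (norm_integral_le_of_norm_le ((hgi.const_mul (16 * 216 / √ν)).const_mul N0)
      (Eventually.of_forall fun τ => ?_)).trans ?_
    · obtain ⟨φ, h, h'⟩ := HH_eq (ν := ν) (by linarith) τ
      rw [h, ← hN0, ← mul_sub_one, norm_mul, norm_real, Real.norm_eq_abs,
        abs_of_pos (mul_pos hN (hw0 τ)), mul_assoc]
      refine mul_le_mul_of_nonneg_left (le_trans ?_ (key τ).2.2) hN.le
      rw [mul_comm]
      exact mul_le_mul_of_nonneg_right h' (hw0 τ).le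
    · rw [integral_const_mul, integral_const_mul, hgv]
      refine mul_le_mul_of_nonneg_left ?_ hN.le
      field_simp
      linarith
  have hB : N0 * J / 2 ≤ ‖∫ τ, HH ν τ‖ := by
    have h1 := norm_sub_norm_le ((N0 * J : ℝ) : ℂ) (∫ τ, HH ν τ)
    rw [norm_sub_rev, norm_real, Real.norm_eq_abs, abs_of_pos (by nlinarith)] at h1
    nlinarith
  have hm1 : Integrable fun τ => |τ| / ν * ww ν τ :=
    Integrable.mono' (hgi.const_mul (2 * 216 / √ν))
      (Continuous.aestronglyMeasurable (by fun_prop)) (Eventually.of_forall fun τ => by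
        rw [Real.norm_eq_abs, abs_of_nonneg (mul_nonneg (by positivity) (hw0 τ).le)]
        exact (key τ).2.1)
  have hm2 : ∫ τ, |τ| / ν * ww ν τ ≤ 2 * 216 * 8 := by
    refine (integral_mono hm1 (hgi.const_mul _) fun τ => (key τ).2.1).trans ?_
    rw [integral_const_mul, hgv]
    field_simp
    linarith
  refine ⟨fun τ => e6 * N0 * (9 * δ * ww ν τ + 2 * (|τ| / ν * ww ν τ)),
    ((hwi.const_mul _).add (hm1.const_mul _)).const_mul _, fun τ => ?_, hHi, ?_,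
    lt_of_lt_of_le (by nlinarith) hB, fun τ Y d hY h1 h2 => ?_⟩
  · have := hw0 τ
    positivity
  · rw [integral_const_mul, integral_add (hwi.const_mul _) (hm1.const_mul _), integral_const_mul,
      integral_const_mul, ← hJ]
    have h1 : e6 * (9 * δ) ≤ ε / 4 := by
      have : δ ≤ ε / (36 * e6) := min_le_right _ _
      rw [le_div_iff₀ (by positivity)] at this
      linarith
    have h2 : e6 * (2 * (2 * 216 * 8)) ≤ ε / 4 * J := by
      have h3 : 8 * e6 / ε * (216 * 4) ≤ J / 4 := by linarith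
      rw [div_mul_eq_mul_div, div_le_iff₀ hε] at h3
      linarith
    have h4 : e6 * (9 * δ * J + 2 * ∫ τ, |τ| / ν * ww ν τ) ≤ ε * (J / 2) := by
      nlinarith
    calc _ = N0 * (e6 * (9 * δ * J + 2 * ∫ τ, |τ| / ν * ww ν τ)) := by ring
      _ ≤ N0 * (ε * (J / 2)) := by gcongr
      _ = ε * (N0 * J / 2) := by ring
      _ ≤ _ := by gcongr
  · refine (MM_close (by linarith) hδ0 (min_le_left _ _) hY h1 h2).trans (le_of_eq ?_)
    rw [hnM]; ring

end Vale.Agent.P218S
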