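import Vale.Agent.P218S.Ana

/-! Choice of the coordinate adapted to the dominant ends. -/

namespace Vale.Agent.P218S

open Filter Topology Complex Asymptotics

/-- Vanishing to order `k` at the origin. -/
def Od (k : ℕ) (φ : ℂ → ℂ) : Prop := AnalyticAt ℂ φ 0 ∧ φ =O[𝓝 0] fun z : ℂ => z ^ k

/-- Real on the real axis near the origin. -/
def Rl (φ : ℂ → ℂ) : Prop := ∀ᶠ x : ℝ in 𝓝 0, (φ x).im = 0

lemma Od.add {k : ℕ} {φ ψ : ℂ → ℂ} (h : Od k φ) (h' : Od k ψ) : Od k fun z => φ z + ψ z :=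
  ⟨h.1.add h'.1, h.2.add h'.2⟩

lemma Od.sub {k : ℕ} {φ ψ : ℂ → ℂ} (h : Od k φ) (h' : Od k ψ) : Od k fun z => φ z - ψ z :=
  ⟨h.1.sub h'.1, h.2.sub h'.2⟩

lemma Od.mul {k j : ℕ} {φ ψ : ℂ → ℂ} (h : Od k φ) (h' : Od j ψ) :
    Od (k + j) fun z => φ z * ψ z :=
  ⟨h.1.mul h'.1, by simpa [pow_add] using h.2.mul h'.2⟩

lemma od_zero {φ : ℂ → ℂ} (h : AnalyticAt ℂ φ 0) : Od 0 φ :=
  ⟨h, by simpa using h.continuousAt.tendsto.isBigO_one ℂ⟩

lemma od_pow (a : ℂ) (k : ℕ) : Od k fun z => a * z ^ k :=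
  ⟨by fun_prop, (isBigO_refl _ _).const_mul_left a⟩

lemma Od.mono {k j : ℕ} {φ : ℂ → ℂ} (h : Od k φ) (hj : j ≤ k) : Od j φ := by
  refine ⟨h.1, h.2.trans ?_⟩
  simpa [Nat.sub_add_cancel hj] using ((od_zero (φ := fun z : ℂ => z ^ (k - j))
    (by fun_prop)).mul (od_pow 1 j)).2.congr_left (f₂ := fun z => z ^ k) fun z => by
      rw [one_mul, ← pow_add, Nat.sub_add_cancel hj]

lemma Od.congr {k : ℕ} {φ ψ : ℂ → ℂ} (h : Od k φ) (e : ∀ z, φ z = ψ z) : Od k ψ :=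
  funext e ▸ h

lemma Od.amul {k : ℕ} {φ ψ : ℂ → ℂ} (h : Od k φ) (h' : AnalyticAt ℂ ψ 0) :
    Od k fun z => ψ z * φ z := by simpa using (od_zero h').mul h

lemma Od.zero {k : ℕ} {φ : ℂ → ℂ} (h : Od (k + 1) φ) : φ 0 = 0 := by
  have := h.2.eq_zero_imp.self_of_nhds
  simpa using this

lemma od_one {φ : ℂ → ℂ} (h : AnalyticAt ℂ φ 0) (h0 : φ 0 = 0) : Od 1 φ :=
  ⟨h, by simpa [h0] using h.differentiableAt.isBigO_sub⟩

lemma Od.fac {k : ℕ} {φ : ℂ → ℂ} (h : Od k φ) :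
    ∃ F, AnalyticAt ℂ F 0 ∧ ∀ᶠ z in 𝓝 0, φ z = z ^ k * F z := by
  induction k with
  | zero => exact ⟨φ, h.1, by simp⟩
  | succ k ih =>
    obtain ⟨F, hF, e⟩ := ih (h.mono (Nat.le_succ k))
    have h1 : F =O[𝓝[≠] 0] fun z : ℂ => z := by
      obtain ⟨C, hC⟩ := h.2.bound
      refine IsBigO.of_bound C ?_
      filter_upwards [nhdsWithin_le_nhds e, nhdsWithin_le_nhds hC, self_mem_nhdsWithin]
        with z h1 h2 h3
      have h4 : 0 < ‖z‖ ^ k := pow_pos (norm_pos_iff.2 h3) k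
      rw [h1, norm_mul, norm_pow, norm_pow, pow_succ] at h2
      refine le_of_mul_le_mul_left (h2.trans (le_of_eq ?_)) h4
      ring
    have h0 : F 0 = 0 := tendsto_nhds_unique
      (hF.continuousAt.tendsto.mono_left nhdsWithin_le_nhds)
      (h1.trans_tendsto (tendsto_id.mono_left nhdsWithin_le_nhds))
    obtain ⟨p, hp⟩ := hF
    refine ⟨dslope F 0, ⟨_, hp.has_fpower_series_dslope_fslope⟩, ?_⟩
    filter_upwards [e] with z hz
    have := sub_smul_dslope F 0 z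
    rw [sub_zero, smul_eq_mul, h0, sub_zero] at this
    rw [hz, ← this]; ring

lemma Od.step {k : ℕ} {φ : ℂ → ℂ} (h : Od k φ) (hr : Rl φ) :
    ∃ a : ℝ, Od (k + 1) fun z => φ z - a * z ^ k := by
  obtain ⟨F, hF, e⟩ := h.fac
  have ht : Tendsto (fun x : ℝ => (x : ℂ)) (𝓝 0) (𝓝 0) := by
    simpa using continuous_ofReal.tendsto 0
  have h0 : (F 0).im = 0 := by
    have h1 : Tendsto (fun x : ℝ => (F x).im) (𝓝[≠] 0) (𝓝 (F 0).im) :=
      ((continuous_im.tendsto _).comp (hF.continuousAt.tendsto.comp ht)).mono_left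
        nhdsWithin_le_nhds
    refine tendsto_nhds_unique h1 (tendsto_const_nhds.congr' ?_)
    filter_upwards [nhdsWithin_le_nhds (ht.eventually e), nhdsWithin_le_nhds hr,
      self_mem_nhdsWithin] with x h2 h3 h4
    rw [h2, ← ofReal_pow, im_ofReal_mul] at h3
    exact ((mul_eq_zero.1 h3).resolve_left (pow_ne_zero _ h4)).symm
  have h1 : ((F 0).re : ℂ) = F 0 := Complex.ext (by simp) (by simp [h0])
  refine ⟨(F 0).re, h.1.sub (by fun_prop), ?_⟩
  have h2 := (od_pow 1 k).mul (od_one (φ := fun z => F z - F 0) (by fun_prop) (by simp))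
  refine h2.2.congr' ?_ EventuallyEq.rfl
  filter_upwards [e] with z hz
  rw [hz, h1]; ring

lemma Od.bound {k : ℕ} {φ : ℂ → ℂ} (h : Od k φ) :
    ∃ C : ℝ, 0 ≤ C ∧ ∃ r₁ : ℝ, 0 < r₁ ∧ ∀ r ≤ r₁, ∀ z : ℂ, ‖z‖ ≤ r → ‖φ z‖ ≤ C * r ^ k := by
  obtain ⟨C, hC0, hC⟩ := h.2.exists_pos
  obtain ⟨ε, hε, h1⟩ := Metric.eventually_nhds_iff.1 hC.bound
  refine ⟨C, hC0.le, ε / 2, by positivity, fun r hr z hz => ?_⟩
  refine (h1 (by rw [dist_zero_right]; linarith)).trans ?_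
  rw [norm_pow]
  gcongr

lemma Od.exp2 {k : ℕ} {g : ℂ → ℂ} (h : Od (k + 1) g) :
    Od (k + 2) fun z => exp (g z) - 1 - g z := by
  have h0 : Tendsto g (𝓝 0) (𝓝 0) := by simpa [h.zero] using h.1.continuousAt.tendsto
  refine Od.mono (k := (k + 1) + (k + 1)) ⟨by have := h.1; fun_prop, ?_⟩ (by omega)
  have := (h.mul h).2.mul ((E2_tendsto h0).isBigO_one ℂ)
  refine (this.congr_left fun z => ?_).congr_right fun z => mul_one _
  rw [E2_eq (g z)]; ring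

lemma Od.comp_sub {k : ℕ} {T g g' : ℂ → ℂ} (hT : AnalyticAt ℂ T 0) (hg : Od 1 g) (hg' : Od 1 g')
    (h : Od k fun z => g z - g' z) : Od k fun z => T (g z) - T (g' z) := by
  have a1 : AnalyticAt ℂ (fun z => T (g z)) 0 := AnalyticAt.fun_comp (by rwa [hg.zero]) hg.1
  have a2 : AnalyticAt ℂ (fun z => T (g' z)) 0 := AnalyticAt.fun_comp (by rwa [hg'.zero]) hg'.1
  refine ⟨a1.sub a2, IsBigO.trans ?_ h.2⟩
  have h0 : Tendsto (fun z => (g z, g' z)) (𝓝 0) (𝓝 (0, 0)) := by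
    simpa [hg.zero, hg'.zero] using hg.1.continuousAt.tendsto.prodMk_nhds hg'.1.continuousAt.tendsto
  exact hT.hasStrictFDerivAt.isBigO_sub.comp_tendsto h0

/-- The function `T` in the coordinate `t = ξ exp (q ξ)`. -/
noncomputable def SS (m : ℕ) (q T : ℂ → ℂ) (ξ : ℂ) : ℂ := exp (-(m * q ξ)) * T (ξ * exp (q ξ))

/-- Admissible coordinate change. -/
structure Co (q : ℂ → ℂ) : Prop where
  diff : Differentiable ℂ q
  zero : q 0 = 0
  real : ∀ x : ℝ, (q x).im = 0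

lemma Co.od {q : ℂ → ℂ} (h : Co q) : Od 1 fun ξ => ξ * exp (q ξ) :=
  od_one (by have := h.diff.analyticAt 0; fun_prop) (by simp)

lemma Co.ss {q T : ℂ → ℂ} (h : Co q) (m : ℕ) (hT : AnalyticAt ℂ T 0) (h1 : T 0 = 1) :
    Od 1 fun ξ => SS m q T ξ - 1 := by
  have := h.diff.analyticAt 0
  have a1 : AnalyticAt ℂ (fun ξ => T (ξ * exp (q ξ))) 0 :=
    AnalyticAt.fun_comp (by simpa using hT) h.od.1
  exact od_one ((AnalyticAt.mul (by fun_prop) a1).sub analyticAt_const) (by simp [SS, h.zero, h1])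

lemma Co.rl {q T : ℂ → ℂ} (h : Co q) (m : ℕ) (hr : Rl T) : Rl (SS m q T) := by
  have e : ∀ x : ℝ, q x = ((q x).re : ℂ) := fun x => Complex.ext (by simp) (by simp [h.real])
  have ht : Tendsto (fun x : ℝ => x * Real.exp (q x).re) (𝓝 0) (𝓝 0) := by
    have := h.diff.continuous
    have h2 : Continuous fun x : ℝ => x * Real.exp (q x).re := by fun_prop
    simpa using h2.tendsto 0
  filter_upwards [ht.eventually hr] with x hx
  rw [SS, e x]
  push_cast at hx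
  have h3 : exp (-(m * ((q x).re : ℂ))) = (Real.exp (-(m * (q x).re)) : ℝ) := by push_cast; rfl
  rw [h3, im_ofReal_mul, hx, mul_zero]

lemma Co.shift {q T : ℂ → ℂ} (h : Co q) {m : ℕ} (hm : 0 < m) (hT : AnalyticAt ℂ T 0)
    (h1 : T 0 = 1) (a : ℝ) (i : ℕ) :
    Co (fun ξ => q ξ + (a / m : ℝ) * ξ ^ (i + 1)) ∧
    Od (i + 2) fun ξ => SS m (fun ξ => q ξ + (a / m : ℝ) * ξ ^ (i + 1)) T ξ - SS m q T ξ
      + a * ξ ^ (i + 1) := by
  have hc : Co (fun ξ => q ξ + (a / m : ℝ) * ξ ^ (i + 1)) :=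
    ⟨by have := h.diff; fun_prop, by simp [h.zero], fun x => by
      rw [add_im, h.real, ← ofReal_pow, ← ofReal_mul, ofReal_im, add_zero]⟩
  refine ⟨hc, ?_⟩
  have hq := h.diff.analyticAt 0
  have hm' : (m : ℂ) ≠ 0 := by exact_mod_cast hm.ne'
  have p1 := od_pow ((a / m : ℝ) : ℂ) (i + 1)
  have d1 : Od (i + 2) fun ξ => ξ * exp (q ξ + (a / m : ℝ) * ξ ^ (i + 1)) - ξ * exp (q ξ) :=
    ((h.od.mul ((p1.exp2.mono (Nat.le_succ _)).add p1)).mono (by omega)).congr fun z => by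
      rw [Complex.exp_add]; ring
  have d2 := Od.comp_sub hT hc.od h.od d1
  have p2 := od_pow (-(a : ℂ)) (i + 1)
  have s1 := h.ss m hT h1
  have t1 := p2.exp2.amul (s1.1.add (analyticAt_const (v := (1 : ℂ))))
  have t2 := p2.mul s1
  have t3 := d2.amul (ψ := fun ξ => exp (-(a : ℂ) * ξ ^ (i + 1)) * exp (-(m * q ξ))) (by fun_prop)
  refine ((t1.add t2).add t3).congr fun z => ?_
  have e : exp (-(m * (q z + (a / m : ℝ) * z ^ (i + 1))))
      = exp (-(a : ℂ) * z ^ (i + 1)) * exp (-(m * q z)) := by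
    rw [← Complex.exp_add]; congr 1; push_cast; field_simp; ring
  simp only [SS, e, Pi.add_apply]
  ring

theorem sel {ι : Type*} {J : Finset ι} (hJ : J.Nonempty) {T : ι → ℂ → ℂ}
    (hT : ∀ l ∈ J, AnalyticAt ℂ (T l) 0 ∧ Rl (T l) ∧ T l 0 = 1) {m : ℕ} (hm : 0 < m) {cs : ℕ → ℝ}
    (hcs : ∀ i, i < m → cs i = 0 → 2 * i = m) (i : ℕ) (hi : i + 1 ≤ m) :
    ∃ (q : ℂ → ℂ) (A : Finset ι) (ε : ι → ℝ), Co q ∧ A ⊆ J ∧ A.Nonempty ∧
      (∀ l, ε l ≠ 0 → 2 * (m / 2) = m ∧ cs (m / 2) = 0) ∧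
      (∀ l ∈ A, Od (i + 1) fun ξ => SS m q (T l) ξ - 1 - ε l * ξ ^ (m / 2)) ∧
      ∀ l ∈ J, l ∉ A → ∃ (j : ℕ) (a : ℝ), (1 ≤ j ∧ j < i + 1) ∧ 0 < a * cs j ∧
        Od (j + 1) fun ξ => SS m q (T l) ξ - 1 - ε l * ξ ^ (m / 2) - a * ξ ^ j := by
  classical
  induction i with
  | zero =>
    have hc : Co fun _ => 0 := ⟨by fun_prop, rfl, fun _ => rfl⟩
    refine ⟨_, J, 0, hc, subset_rfl, hJ, by simp, fun l hl => ?_, fun l hl h => absurd hl h⟩
    simpa using hc.ss m (hT l hl).1 (hT l hl).2.2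
  | succ i ih =>
    obtain ⟨q, A, ε, hq, hA, hne, hε, h1, h2⟩ := ih (by omega)
    have h3 : ∀ l, ∃ a : ℝ, l ∈ A → Od (i + 2) fun ξ =>
        SS m q (T l) ξ - 1 - ε l * ξ ^ (m / 2) - a * ξ ^ (i + 1) := fun l => by
      by_cases hl : l ∈ A
      · refine ((h1 l hl).step ?_).imp fun a ha _ => ha
        filter_upwards [hq.rl m (hT l (hA hl)).2.1] with x hx
        rw [sub_im, sub_im, hx, ← ofReal_pow, ← ofReal_mul, ofReal_im]; simp
      · exact ⟨0, fun h => absurd h hl⟩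
    choose a ha using h3
    by_cases hc : cs (i + 1) = 0
    · have e1 := hcs (i + 1) (by omega) hc
      have e2 : m / 2 = i + 1 := by omega
      refine ⟨q, A, fun l => if l ∈ A then ε l + a l else ε l, hq, hA, hne,
        fun l _ => ⟨by omega, e2 ▸ hc⟩, fun l hl => ?_, fun l hl hl' => ?_⟩
      · refine (ha l hl).congr fun z => ?_
        simp only [hl, if_true, e2]
        push_cast; ring
      · obtain ⟨j, b, k1, k2, k3⟩ := h2 l hl hl'
        exact ⟨j, b, by omega, k2, by simpa only [hl', if_false] using k3⟩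
    · obtain ⟨l₀, hl₀, hmin⟩ := A.exists_min_image (fun l => a l * cs (i + 1)) hne
      have hs := fun l (hl : l ∈ J) => hq.shift hm (hT l hl).1 (hT l hl).2.2 (a l₀) i
      refine ⟨_, A.filter fun l => a l = a l₀, ε, (hs l₀ (hA hl₀)).1,
        (Finset.filter_subset _ _).trans hA, ⟨l₀, by simp [hl₀]⟩, hε, fun l hl => ?_,
        fun l hl hl' => ?_⟩
      · obtain ⟨k1, k2⟩ := Finset.mem_filter.1 hl
        exact ((ha l k1).add (hs l (hA k1)).2).congr fun z => by rw [k2]; ring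
      · by_cases hlA : l ∈ A
        · have k1 : a l ≠ a l₀ := fun h => hl' (Finset.mem_filter.2 ⟨hlA, h⟩)
          refine ⟨i + 1, a l - a l₀, by omega, ?_,
            ((ha l hlA).add (hs l hl).2).congr fun z => by push_cast; ring⟩
          have k2 := hmin l hlA
          refine lt_of_le_of_ne (by linarith) (mul_ne_zero (sub_ne_zero.2 k1) hc).symm
        · obtain ⟨j, b, k1, k2, k3⟩ := h2 l hl hlA
          refine ⟨j, b, by omega, k2, ?_⟩
          exact (k3.add ((((hs l hl).2.mono (Nat.le_succ _)).sub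
            (od_pow (a l₀) (i + 1))).mono (by omega))).congr fun z => by ring

end Vale.Agent.P218S
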