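import Vale.Agent.P218S.Tail
import Vale.Agent.P218S.Sel

/-! Geometry of the arc along the contour. -/

namespace Vale.Agent.P218S

open Filter Topology Complex Real

variable {E : Type*} [NormedAddCommGroup E] [NormedSpace ℂ E] {ι : Type*}

/-- The arc in the adapted coordinate. -/
noncomputable def XX (γ : ℕ → E) (n : ℕ) (q : ℂ → ℂ) (ξ : ℂ) : E := arc γ n (ξ * cexp (q ξ))

/-- Admissible truncation order. -/
def OK (m n : ℕ) (r : ℝ) : Prop := 2 * m ≤ n ∧ n * r ^ m ≤ 78 / 100 * m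

/-- The normalised component in the adapted coordinate. -/
noncomputable def GG (L : E →L[ℂ] ℂ) (m : ℕ) (γ : ℕ → E) (q : ℂ → ℂ) (ξ : ℂ) : ℂ :=
  cexp (m * q ξ) * bl L m γ (ξ * cexp (q ξ))

lemma ev_ball {P : ℂ → Prop} (h : ∀ᶠ ξ in 𝓝 0, P ξ) :
    ∀ᶠ r : ℝ in 𝓝[>] 0, ∀ ξ : ℂ, ‖ξ‖ ≤ r → P ξ := by
  obtain ⟨ε, hε, h1⟩ := Metric.eventually_nhds_iff.1 h
  filter_upwards [nhdsWithin_le_nhds (gt_mem_nhds hε)] with r hr ξ hξ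
  exact h1 (by rw [dist_zero_right]; exact hξ.trans_lt hr)

lemma Od.ev {k : ℕ} {φ : ℂ → ℂ} (h : Od k φ) :
    ∃ C : ℝ, 0 ≤ C ∧ ∀ᶠ r : ℝ in 𝓝[>] 0, ∀ z : ℂ, ‖z‖ ≤ r → ‖φ z‖ ≤ C * r ^ k := by
  obtain ⟨C, h0, r₁, h1, h2⟩ := h.bound
  exact ⟨C, h0, by filter_upwards [nhdsWithin_le_nhds (ge_mem_nhds h1)] with r hr using h2 r hr⟩

lemma ev_small (C : ℝ) {δ : ℝ} (hδ : 0 < δ) : ∀ᶠ r : ℝ in 𝓝[>] 0, 0 < r ∧ r ≤ 1 ∧ C * r ≤ δ := by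
  have : Tendsto (fun r : ℝ => C * r) (𝓝 0) (𝓝 0) := by
    simpa using (show Continuous fun r : ℝ => C * r by fun_prop).tendsto 0
  filter_upwards [self_mem_nhdsWithin, nhdsWithin_le_nhds (ge_mem_nhds one_pos),
    nhdsWithin_le_nhds (this.eventually (ge_mem_nhds hδ))] with r h1 h2 h3 using ⟨h1, h2, h3⟩

variable {c : ι → E →L[ℂ] ℂ} {m : ℕ} {γ : ℕ → E} {q : ℂ → ℂ}

lemma Arc.base (h : Arc c m γ) (hq : Co q) (l : ι) : ∃ C : ℝ, 0 ≤ C ∧ ∀ᶠ r : ℝ in 𝓝[>] 0,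
    ∀ n, OK m n r → ∀ ξ : ℂ, ‖ξ‖ ≤ r → ‖XX γ n q ξ‖ ≤ C * r ∧
      ‖c l (XX γ n q ξ) - ξ ^ m * GG (c l) m γ q ξ‖ ≤ C * r ^ (2 * m + 1) := by
  obtain ⟨C₁, k1, h1⟩ := h.tail le_rfl
  obtain ⟨C₂, k2, h2⟩ := h.tail (k := 2 * m + 1) (by omega)
  have ht : Tendsto (fun ξ => ‖cexp (q ξ)‖) (𝓝 0) (𝓝 1) := by
    have := hq.diff.continuous
    simpa [hq.zero] using (show Continuous fun ξ => ‖cexp (q ξ)‖ by fun_prop).tendsto 0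
  have ht2 := ht.pow m
  rw [one_pow] at ht2
  refine ⟨2 * C₁ + ‖c l‖ * C₂ * 2 ^ (2 * m + 1), by positivity, ?_⟩
  filter_upwards [ev_ball ((ht.eventually (ge_mem_nhds one_lt_two)).and
    (ht2.eventually (ge_mem_nhds (show (1 : ℝ) < 80 / 78 by norm_num))))] with r hr n hn ξ hξ
  obtain ⟨a1, a2⟩ := hr ξ hξ
  have hr0 : 0 ≤ r := (norm_nonneg _).trans hξ
  have b1 : ‖ξ * cexp (q ξ)‖ ≤ r * 2 := by rw [norm_mul]; gcongr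
  have b2 : n * ‖ξ * cexp (q ξ)‖ ^ m ≤ 4 / 5 * m := by
    rw [norm_mul, mul_pow]
    calc _ ≤ n * (r ^ m * (80 / 78)) := by gcongr
      _ ≤ _ := by linarith [hn.2]
  have b3 : 0 ≤ ‖c l‖ * C₂ * 2 ^ (2 * m + 1) := by positivity
  constructor
  · rw [XX, h.arc_eq]
    refine (h1 n _ b2).trans ?_
    rw [pow_one]
    nlinarith [mul_le_mul_of_nonneg_left b1 k1, mul_nonneg b3 hr0]
  · have e : ξ ^ m * GG (c l) m γ q ξ = (ξ * cexp (q ξ)) ^ m * bl (c l) m γ (ξ * cexp (q ξ)) := by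
      rw [GG, mul_pow, Complex.exp_nat_mul]; ring
    rw [XX, h.c_eq l hn.1, e, add_sub_cancel_left]
    calc _ ≤ ‖c l‖ * (C₂ * (r * 2) ^ (2 * m + 1)) :=
          ((c l).le_opNorm _).trans (by gcongr; exact (h2 n _ b2).trans (by gcongr))
      _ = ‖c l‖ * C₂ * 2 ^ (2 * m + 1) * r ^ (2 * m + 1) := by ring
      _ ≤ _ := by gcongr; linarith

lemma sg_mul (l : ℝ) (a z : ℂ) : sg l a z = a * sg l 1 z := by simp [sg]

lemma sg_r (hm : 0 < m) {ω z : ℂ} (hω : ‖ω‖ = 1) (hz : ‖z‖ ≤ 1) {r : ℝ} (hr : 0 < r) :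
    ‖sg (l0 m) (r * ω) z‖ ≤ r ∧
    ‖sg (l0 m) (r * ω) z‖ ^ m ≤ r ^ m * Real.exp (-(‖1 - z‖ ^ 2 / 12800)) ∧
    ∀ k : ℕ, ‖sg (l0 m) (r * ω) z ^ k - (r * ω) ^ k‖ ≤ k * r ^ k * (2 * ‖1 - z‖) := by
  obtain ⟨h1, h2, h3, -⟩ := sg_bd hm hz
  have e : ‖(r : ℂ) * ω‖ = r := by simp [hω, abs_of_pos hr]
  have h4 : ‖sg (l0 m) (r * ω) z‖ ≤ r := by
    rw [sg_mul, norm_mul, e]; exact mul_le_of_le_one_right hr.le h1
  refine ⟨h4, by rw [sg_mul, norm_mul, e, mul_pow]; gcongr, pow_diff h4 e.le ?_⟩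
  rw [sg_mul, ← mul_sub_one, norm_mul, e]; gcongr

lemma re_low {ω ξ : ℂ} {r d a : ℝ} {j m : ℕ} (hj : j ≤ m) (hr : 0 < r) (hd : 0 ≤ d)
    (h : ‖ξ ^ j - (r * ω) ^ j‖ ≤ j * r ^ j * (2 * d)) :
    a * (ω ^ j).re * r ^ j - 2 * m * (|a| * r ^ j * d) ≤ ((a : ℂ) * ξ ^ j).re := by
  have e : (a : ℂ) * ξ ^ j = ((a * r ^ j : ℝ) : ℂ) * ω ^ j + a * (ξ ^ j - (r * ω) ^ j) := by
    push_cast; ring
  rw [e, add_re, re_ofReal_mul, sub_eq_add_neg, mul_right_comm a]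
  refine add_le_add le_rfl (neg_le_of_abs_le ((abs_re_le_norm _).trans ?_))
  rw [norm_mul, norm_real, Real.norm_eq_abs]
  have : (j : ℝ) ≤ m := by exact_mod_cast hj
  calc _ ≤ |a| * (m * r ^ j * (2 * d)) := by gcongr; exact h.trans (by gcongr)
    _ = _ := by ring

lemma core_real {B ε p r u w w' ρ ρ' d X g x : ℝ} (hB : 0 ≤ B) (r2 : 8 * B * (ε + 1) * r ≤ 1)
    (hu : 0 ≤ u) (hu1 : u ≤ ε * r) (hu2 : u ^ 2 ≤ ε ^ 2 * ρ) (hρ : 0 < ρ)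
    (hw : 0 < w') (hw1 : w ≤ r) (hw2 : w' ≤ w) (hw3 : w ^ 2 ≤ w') (hp : |p| ≤ B * w)
    (hd : 0 ≤ d) (hd' : d ≤ 2) (hX : p - B * (u + w) * d - B * w' ≤ X - 1)
    (hg : 1 / 2 ≤ X → g ≤ ρ * Real.exp (-(d ^ 2 / 12800)) * X⁻¹)
    (hρ' : ρ' ≤ ρ * (1 / 12801 * (B * w'))) (hx : x ≤ g + ρ') :
    x ≤ ρ * (1 - p + (12864 * B ^ 2 * (ε ^ 2 + 1) + 2 * B) * (ρ + w')) := by
  have key := dom_real (y := u + w) (e := B * w') hB (by linarith)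
    (le_trans (by nlinarith [mul_le_mul_of_nonneg_left (add_le_add hu1 hw1) hB]) r2)
    (hp.trans (by gcongr; linarith)) (by positivity) (by gcongr; linarith) hd hd' hX
  rw [add_sub_cancel] at key
  have hex : 1 / 12801 ≤ Real.exp (-(d ^ 2 / 12800)) := by
    have := Real.add_one_le_exp (-(d ^ 2 / 12800)); nlinarith
  have h8 : ρ * (1 / 12801 * (B * w')) ≤ ρ * (Real.exp (-(d ^ 2 / 12800)) * (B * w')) := by gcongr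
  have hc : x ≤ ρ * (Real.exp (-(d ^ 2 / 12800)) * (X⁻¹ + B * w')) := by linarith [hg key.1]
  refine hc.trans (mul_le_mul_of_nonneg_left (key.2.trans ?_) hρ.le)
  have v1 : (u + w) ^ 2 ≤ 2 * ((ε ^ 2 + 1) * (ρ + w')) := by
    nlinarith [sq_nonneg (u - w), mul_nonneg (sq_nonneg ε) hw.le]
  rw [mul_pow]
  nlinarith [mul_le_mul_of_nonneg_left v1 (sq_nonneg B), mul_nonneg hB hρ.le]

lemma Arc.core (h : Arc c m γ) (hq : Co q) (l : ι) {α ω : ℂ} (hα : ‖α‖ = 1) (hω : ‖ω‖ = 1)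
    {S : ℂ → ℂ} (hS : ∀ᶠ ξ in 𝓝 0, GG (c l) m γ q ξ * S ξ = α) {ε a : ℝ} {j : ℕ} (hj : 1 ≤ j)
    (hj' : j ≤ m) (hε : ε ≠ 0 → 2 * (m / 2) = m ∧ ω ^ (m / 2) = I)
    (hO : Od (j + 1) fun ξ => S ξ - 1 - ε * ξ ^ (m / 2) - a * ξ ^ j) :
    ∃ C : ℝ, 0 ≤ C ∧ ∀ᶠ r : ℝ in 𝓝[>] 0, ∀ n, OK m n r → ∀ z : ℂ, ‖z‖ ≤ 1 →
      ‖c l (XX γ n q (sg (l0 m) (r * ω) z))‖
        ≤ r ^ m * (1 - a * (ω ^ j).re * r ^ j + C * (r ^ m + r ^ (j + 1))) := by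
  obtain ⟨C₁, k1, h1⟩ := h.base hq l
  obtain ⟨C₂, k2, h2⟩ := hO.ev
  have hm := h.pos
  have ha := abs_nonneg a
  have hm1 : (1 : ℝ) ≤ m := by exact_mod_cast hm
  obtain ⟨B, B0, B1, B2, B3, B4, B5⟩ : ∃ B : ℝ, 0 ≤ B ∧ 2 * m ≤ B ∧ 2 * m * |a| ≤ B ∧
      12801 * C₁ ≤ B ∧ C₂ ≤ B ∧ |a| ≤ B := by
    have hma : |a| ≤ m * |a| := le_mul_of_one_le_left ha hm1
    exact ⟨2 * m + 2 * m * |a| + 12801 * C₁ + C₂, by positivity, by linarith, by linarith,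
      by linarith, by linarith, by linarith⟩
  refine ⟨12864 * B ^ 2 * (|ε| ^ 2 + 1) + 2 * B, by positivity, ?_⟩
  filter_upwards [h1, h2, ev_ball hS, ev_small (8 * B * (|ε| + 1)) one_pos]
    with r h1 h2 h3 ⟨r0, r1, r2⟩ n hn z hz
  obtain ⟨s1, s2, s3⟩ := sg_r hm hω hz r0
  have s4 := (sg_bd hm hz).2.2.2
  generalize sg (l0 m) (r * ω) z = ξ at *
  have hd := norm_nonneg (1 - z)
  generalize ‖1 - z‖ = d at *
  have q1 : |ε| * r ^ (m / 2) ≤ |ε| * r ∧ (|ε| * r ^ (m / 2)) ^ 2 ≤ |ε| ^ 2 * r ^ m ∧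
      ε * (ω ^ (m / 2)).re = 0 := by
    by_cases h0 : ε = 0
    · simp [h0]
    · obtain ⟨e1, e2⟩ := hε h0
      refine ⟨by gcongr; exact pow_le_of_le_one r0.le r1 (by omega), ?_, by simp [e2]⟩
      rw [mul_pow, ← pow_mul, mul_comm (m / 2), e1]
  have t1 := re_low (a := ε) (Nat.div_le_self m 2) r0 hd (s3 (m / 2))
  have t2 := re_low (a := a) hj' r0 hd (s3 j)
  have t3 := neg_le_of_abs_le ((abs_re_le_norm _).trans (h2 ξ s1))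
  simp only [sub_re, one_re] at t3
  rw [q1.2.2] at t1
  have hrj : 0 < r ^ j := by positivity
  refine core_real (X := (S ξ).re) (g := ‖ξ ^ m * GG (c l) m γ q ξ‖)
    (ρ' := C₁ * r ^ (2 * m + 1)) B0 r2 (by positivity) q1.1 q1.2.1 (by positivity) (by positivity)
    (pow_le_of_le_one r0.le r1 (show j ≠ 0 by omega)) (pow_le_pow_of_le_one r0.le r1 (by omega))
    (by rw [← pow_mul]; exact pow_le_pow_of_le_one r0.le r1 (by omega)) ?_ hd s4 ?_ (fun hX => ?_)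
    ?_ ((norm_le_insert' _ _).trans (add_le_add le_rfl (h1 n hn ξ s1).2))
  · rw [abs_mul, abs_mul, abs_of_pos hrj]
    have q2 : |(ω ^ j).re| ≤ 1 := (abs_re_le_norm _).trans (by simp [hω])
    exact mul_le_mul_of_nonneg_right ((mul_le_of_le_one_right ha q2).trans B5) hrj.le
  · have u1 : 2 * m * (|ε| * r ^ (m / 2) * d) ≤ B * (|ε| * r ^ (m / 2) * d) := by gcongr
    have u2 : 2 * m * |a| * (r ^ j * d) ≤ B * (r ^ j * d) := by gcongr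
    have u3 : C₂ * r ^ (j + 1) ≤ B * r ^ (j + 1) := by gcongr
    linarith
  · have h4 := congrArg norm (h3 ξ s1)
    rw [norm_mul, hα] at h4
    rw [norm_mul, norm_pow, eq_inv_of_mul_eq_one_left h4]
    exact mul_le_mul s2 (inv_anti₀ (by linarith) (re_le_norm _)) (by positivity) (by positivity)
  · rw [show 2 * m + 1 = m + (m + 1) by ring, pow_add, mul_left_comm]
    refine mul_le_mul_of_nonneg_left ?_ (by positivity)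
    have := mul_le_mul B3 (pow_le_pow_of_le_one r0.le r1 (show j + 1 ≤ m + 1 by omega))
      (by positivity) B0
    linarith

/-- Output of the geometric analysis. -/
structure Geo (c : ι → E →L[ℂ] ℂ) (m : ℕ) (γ : ℕ → E) (q : ℂ → ℂ) (ω : ℂ) (A : Finset ι)
    (ε a : ι → ℝ) : Prop where
  diff : Differentiable ℂ q
  om : ‖ω‖ = 1
  ne : A.Nonempty
  g0 : ∃ C : ℝ, ∀ᶠ r : ℝ in 𝓝[>] 0, ∀ n, OK m n r → ∀ z : ℂ, ‖z‖ ≤ 1 →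
    ‖XX γ n q (sg (l0 m) (r * ω) z)‖ ≤ C * r
  g1 : ∀ l ∈ A, ∃ C : ℝ, ∀ᶠ r : ℝ in 𝓝[>] 0, ∀ n, OK m n r → ∀ z : ℂ, ‖z‖ ≤ 1 →
    ‖c l (XX γ n q (sg (l0 m) (r * ω) z))‖ ≤ r ^ m * (1 + C * r ^ m)
  g2 : ∀ l, l ∉ A → ∃ δ : ℝ, 0 < δ ∧ ∀ᶠ r : ℝ in 𝓝[>] 0, ∀ n, OK m n r → ∀ z : ℂ, ‖z‖ ≤ 1 →
    ∀ v : ℝ, |v * r ^ m - 1| ≤ δ * r ^ (m - 1) →
      ‖c l (XX γ n q (sg (l0 m) (r * ω) z)) * v - 1 / 4‖ < 5 / 4
  g3 : ∀ l ∈ A, ∃ C : ℝ, ∀ᶠ r : ℝ in 𝓝[>] 0, ∀ n, OK m n r → ∀ θ V : ℝ, 0 < V →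
    V ^ 2 * r ^ m = 1 → ∃ e : ℂ, V ^ 2 * ‖e‖ ≤ C * r ∧
      -(c l (XX γ n q (r * ω * cexp (uu (l0 m) θ))))⁻¹ = (V : ℂ) ^ 2 * (cexp (-(m * uu (l0 m) θ)) *
        (1 + I * ε l * (V : ℂ)⁻¹ * cexp (m / 2 * uu (l0 m) θ)
          + a l * (V : ℂ)⁻¹ ^ 2 * cexp (m * uu (l0 m) θ) + e))

lemma Arc.tip (h : Arc c m γ) (hq : Co q) (l : ι) {α : ℝ} {ω : ℂ} (hα : α ^ 2 = 1) (hω : ‖ω‖ = 1)
    (hωm : ω ^ m = -α) {S : ℂ → ℂ} (hS : ∀ᶠ ξ in 𝓝 0, GG (c l) m γ q ξ * S ξ = α) {ε a : ℝ}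
    (hε : ε ≠ 0 → 2 * (m / 2) = m ∧ ω ^ (m / 2) = I) (hS1 : Od 1 fun ξ => S ξ - 1)
    (hO : Od (m + 1) fun ξ => S ξ - 1 - ε * ξ ^ (m / 2) - a * ξ ^ m) :
    ∃ C : ℝ, ∀ᶠ r : ℝ in 𝓝[>] 0, ∀ n, OK m n r → ∀ θ V : ℝ, 0 < V →
    V ^ 2 * r ^ m = 1 → ∃ e : ℂ, V ^ 2 * ‖e‖ ≤ C * r ∧
      -(c l (XX γ n q (r * ω * cexp (uu (l0 m) θ))))⁻¹ = (V : ℂ) ^ 2 * (cexp (-(m * uu (l0 m) θ)) *
        (1 + I * ε * (V : ℂ)⁻¹ * cexp (m / 2 * uu (l0 m) θ)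
          + (-(α * a) : ℝ) * (V : ℂ)⁻¹ ^ 2 * cexp (m * uu (l0 m) θ) + e)) := by
  obtain ⟨C₁, k1, h1⟩ := h.base hq l
  obtain ⟨C₂, k2, h2⟩ := hO.ev
  obtain ⟨C₃, k3, h3⟩ := hS1.ev
  have hm := h.pos
  refine ⟨C₂ + 16 * C₁, ?_⟩
  filter_upwards [h1, h2, h3, ev_ball hS, ev_small (8 * C₁ + C₃) one_pos]
    with r h1 h2 h3 h4 ⟨r0, r1, r2⟩ n hn θ V hV hVr
  have s1 := (sg_r hm hω (norm_eI θ).le r0).1
  rw [sg_exp] at s1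
  have hα' : (α : ℂ) ^ 2 = 1 := by exact_mod_cast hα
  have hV' : (V : ℂ) ≠ 0 := by exact_mod_cast hV.ne'
  have hVr' : (r : ℂ) ^ m = (V : ℂ)⁻¹ ^ 2 := by
    have : (V : ℂ) ^ 2 * r ^ m = 1 := by exact_mod_cast hVr
    field_simp; linear_combination this
  have hu : ‖cexp (-(m * uu (l0 m) θ))‖ ≤ 2 := by
    rw [norm_exp]
    have e : (-(m * uu (l0 m) θ)).re = m * l0 m * (1 - Real.cos θ) := by
      simp [uu, mul_comm I, exp_ofReal_mul_I_re, mul_assoc]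
    rw [e, (l0_bd hm).2.2]
    refine (Real.exp_le_exp.2 (show _ ≤ 1 / 2 by linarith [Real.neg_one_le_cos θ])).trans ?_
    refine le_of_sq_le_sq ?_ (by norm_num) |> fun h => h
    rw [← Real.exp_nat_mul]; norm_num; linarith [Real.exp_one_lt_d9]
  generalize uu (l0 m) θ = u at *
  have e1 : (r * ω * cexp u) ^ m = -α * (V : ℂ)⁻¹ ^ 2 * cexp (m * u) := by
    rw [mul_pow, mul_pow, hωm, hVr', Complex.exp_nat_mul]; ring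
  have e2 : ε * (r * ω * cexp u) ^ (m / 2) = I * ε * (V : ℂ)⁻¹ * cexp (m / 2 * u) := by
    by_cases h0 : ε = 0
    · simp [h0]
    · obtain ⟨a1, a2⟩ := hε h0
      have a3 : r ^ (m / 2) = V⁻¹ := by
        refine (pow_left_inj₀ (by positivity) (by positivity) two_ne_zero).1 ?_
        rw [← pow_mul, mul_comm (m / 2), a1]; field_simp; linarith
      have a4 : ((m / 2 : ℕ) : ℂ) = m / 2 := by
        have : (2 * (m / 2 : ℕ) : ℂ) = m := by exact_mod_cast a1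
        linear_combination this / 2
      rw [mul_pow, mul_pow, a2, ← ofReal_pow, a3, ← Complex.exp_nat_mul, a4]; push_cast; ring
  have e3 : cexp (-(m * u)) * cexp (m * u) = 1 := by rw [← Complex.exp_add]; simp
  have b1 := (h1 n hn _ s1).2
  have b2 := h2 _ s1
  have b3 := h3 _ s1
  have b4 := h4 _ s1
  rw [e1] at b1 b2
  rw [e2] at b2
  generalize r * ω * cexp u = ξ at *
  generalize c l (XX γ n q ξ) = x at *
  generalize GG (c l) m γ q ξ = G at *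
  have hSn : ‖S ξ‖ ≤ 2 := by
    have := norm_le_insert' (S ξ) 1
    rw [norm_one] at this; nlinarith
  have hrm : r ^ (m + 1) ≤ r := pow_le_of_le_one r0.le r1 (by omega)
  set β := -(x - -α * (V : ℂ)⁻¹ ^ 2 * cexp (m * u) * G) * (V ^ 2 * cexp (-(m * u)) * S ξ) with hβ
  have hβ1 : ‖β‖ ≤ 4 * C₁ * r ^ (m + 1) := by
    rw [hβ, norm_mul, norm_neg, norm_mul, norm_mul, norm_pow, norm_real, Real.norm_eq_abs, sq_abs]
    calc _ ≤ C₁ * r ^ (2 * m + 1) * (V ^ 2 * 2 * 2) := by gcongr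
      _ = 4 * C₁ * r ^ (m + 1) * (V ^ 2 * r ^ m) := by ring
      _ = _ := by rw [hVr, mul_one]
  have hβ2 : 1 / 2 ≤ ‖1 + β‖ := by
    have := norm_sub_le (1 + β) β
    rw [add_sub_cancel_right, norm_one] at this
    nlinarith
  have hβ3 : 1 + β ≠ 0 := norm_pos_iff.1 (by linarith)
  have e4 : -x * (V ^ 2 * cexp (-(m * u)) * S ξ) = 1 + β := by
    rw [hβ]; field_simp
    linear_combination (α * cexp (-(m * u)) * cexp (m * u)) * b4 + α ^ 2 * e3 + hα'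
  refine ⟨S ξ - 1 - I * ε * (V : ℂ)⁻¹ * cexp (m / 2 * u) - a * (-α * (V : ℂ)⁻¹ ^ 2 * cexp (m * u))
    - S ξ * β / (1 + β), ?_, ?_⟩
  · have t : ‖S ξ * β / (1 + β)‖ ≤ 16 * C₁ * r ^ (m + 1) := by
      rw [norm_div, norm_mul, div_le_iff₀ (by linarith)]
      have : 0 ≤ C₁ * r ^ (m + 1) := by positivity
      nlinarith [mul_le_mul hSn hβ1 (norm_nonneg _) (by norm_num)]
    calc _ ≤ V ^ 2 * (C₂ * r ^ (m + 1) + 16 * C₁ * r ^ (m + 1)) := by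
          gcongr; exact (norm_sub_le _ _).trans (add_le_add b2 t)
      _ = (C₂ + 16 * C₁) * r * (V ^ 2 * r ^ m) := by ring
      _ = _ := by rw [hVr, mul_one]
  · have hx : x ≠ 0 := fun h0 => hβ3 (by rw [← e4, h0]; simp)
    have e5 : -x⁻¹ = V ^ 2 * cexp (-(m * u)) * S ξ / (1 + β) := by
      rw [eq_div_iff hβ3, ← e4]; field_simp
    rw [e5]
    push_cast
    field_simp
    ring

end Vale.Agent.P218S
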