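import Vale.Agent.P218S.Geo

/-! Existence of the adapted coordinate. -/

namespace Vale.Agent.P218S

open Filter Topology Complex Real

variable {E : Type*} [NormedAddCommGroup E] [NormedSpace ℂ E] {ι : Type*}
  {c : ι → E →L[ℂ] ℂ} {m : ℕ} {γ : ℕ → E} {q : ℂ → ℂ}

lemma Arc.other (h : Arc c m γ) (hq : Co q) (l : ι) {ω : ℂ} (hω : ‖ω‖ = 1)
    (hl : ω ^ m * c l (γ m) ≠ -1) : ∃ δ : ℝ, 0 < δ ∧ ∀ᶠ r : ℝ in 𝓝[>] 0, ∀ n, OK m n r →
      ∀ z : ℂ, ‖z‖ ≤ 1 → ∀ v : ℝ, |v * r ^ m - 1| ≤ δ * r ^ (m - 1) →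
        ‖c l (XX γ n q (sg (l0 m) (r * ω) z)) * v - 1 / 4‖ < 5 / 4 := by
  have hm := h.pos
  have ha : ‖ω ^ m * c l (γ m)‖ ≤ 1 := by simpa [hω] using h.le_one l
  obtain ⟨δ, hδ, hd⟩ := other_end hm ha hl
  obtain ⟨C, k1, h1⟩ := h.base hq l
  have hG : Od 1 fun ξ => GG (c l) m γ q ξ - c l (γ m) := by
    have := hq.diff
    have := bl_diff (c l) m γ
    refine od_one (Differentiable.analyticAt (by unfold GG; fun_prop) 0) ?_
    simp [GG, hq.zero, bl_zero]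
  obtain ⟨C', k2, h2⟩ := hG.ev
  refine ⟨min 1 (δ / 4), by positivity, ?_⟩
  filter_upwards [h1, h2, ev_small (C + C') (show 0 < δ / 4 by positivity)]
    with r h1 h2 ⟨r0, r1, r2⟩ n hn z hz v hv
  have s1 := (sg_r hm hω hz r0).1
  have b1 := (h1 n hn _ s1).2
  have b2 := h2 _ s1
  have b3 := hd z hz
  have b4 : ‖sg (l0 m) 1 z ^ m‖ ≤ 1 := by
    rw [norm_pow]; exact pow_le_one₀ (norm_nonneg _) (sg_bd hm hz).1
  have e1 : sg (l0 m) (r * ω) z ^ m = (r ^ m : ℝ) * (ω ^ m * sg (l0 m) 1 z ^ m) := by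
    rw [sg_mul]; push_cast; ring
  rw [e1] at b1
  generalize sg (l0 m) (r * ω) z = ξ at *
  generalize sg (l0 m) 1 z ^ m = w at *
  generalize c l (XX γ n q ξ) = x at *
  generalize GG (c l) m γ q ξ = G at *
  have hv1 : |v * r ^ m - 1| ≤ min 1 (δ / 4) :=
    hv.trans (mul_le_of_le_one_right (by positivity) (pow_le_one₀ r0.le r1))
  have hv2 : |v * r ^ m| ≤ 2 := by
    have := abs_le.1 (hv1.trans (min_le_left _ _))
    exact abs_le.2 ⟨by linarith, by linarith⟩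
  have hrm : 0 < r ^ m := by positivity
  have e2 : x * v - 1 / 4 = (ω ^ m * c l (γ m) * w - 1 / 4)
      + ((v * r ^ m - 1 : ℝ) * (ω ^ m * c l (γ m) * w)
      + (v * r ^ m : ℝ) * (ω ^ m * w * (G - c l (γ m)))
      + v * (x - (r ^ m : ℝ) * (ω ^ m * w) * G)) := by push_cast; ring
  have t1 : ‖((v * r ^ m - 1 : ℝ) : ℂ) * (ω ^ m * c l (γ m) * w)‖ ≤ δ / 4 * (1 * 1) := by
    rw [norm_mul, norm_mul _ w, norm_real, Real.norm_eq_abs]
    gcongr; exact hv1.trans (min_le_right _ _)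
  have t2 : ‖((v * r ^ m : ℝ) : ℂ) * (ω ^ m * w * (G - c l (γ m)))‖ ≤ 2 * (1 * (C' * r ^ 1)) := by
    rw [norm_mul, norm_mul, norm_mul, norm_real, Real.norm_eq_abs, norm_pow, hω, one_pow, one_mul]
    gcongr
  have t3 : ‖(v : ℂ) * (x - (r ^ m : ℝ) * (ω ^ m * w) * G)‖ ≤ 2 * (C * r) := by
    rw [norm_mul, norm_real, Real.norm_eq_abs]
    rw [abs_mul, abs_of_pos hrm] at hv2
    calc _ ≤ |v| * (C * r ^ (2 * m + 1)) := by gcongr
      _ = |v| * r ^ m * (C * r * r ^ m) := by ring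
      _ ≤ 2 * (C * r * 1) := by gcongr; exact pow_le_one₀ r0.le r1
      _ = _ := by ring
  rw [e2]
  refine (norm_add_le_of_le b3 (norm_add_le_of_le (norm_add_le_of_le t1 t2) t3)).trans_lt ?_
  linarith

theorem Arc.geo [Fintype ι] (h : Arc c m γ) : ∃ q ω A ε a, Geo c m γ q ω A ε a := by
  classical
  have hm := h.pos
  obtain ⟨j₀, hj₀⟩ := h.one
  obtain ⟨α, hα⟩ : ∃ α : ℝ, c j₀ (γ m) = α := ⟨_, Complex.ext rfl (by simp [h.real])⟩
  have hα1 : |α| = 1 := by simpa [hα] using hj₀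
  have hα2 : α ^ 2 = 1 := by rw [← sq_abs, hα1]; norm_num
  have hα3 : ‖(α : ℂ)‖ = 1 := by simpa using hα1
  have hα0 : (α : ℂ) ≠ 0 := norm_pos_iff.1 (by rw [hα3]; norm_num)
  obtain ⟨ω, w1, w2, w3, w4⟩ := omega_ex hm (α := α) (by
    rcases (abs_eq zero_le_one).1 hα1 with h | h <;> simp [h])
  set J := Finset.univ.filter fun l => c l (γ m) = α with hJ
  have hJ' : ∀ l, l ∈ J ↔ c l (γ m) = α := fun l => by simp [hJ]
  have hb : ∀ l ∈ J, bl (c l) m γ 0 ≠ 0 := fun l hl => by rwa [bl_zero, (hJ' l).1 hl]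
  have hT : ∀ l ∈ J, AnalyticAt ℂ (fun t => α / bl (c l) m γ t) 0 ∧
      Rl (fun t => α / bl (c l) m γ t) ∧ α / bl (c l) m γ 0 = 1 := fun l hl => by
    refine ⟨analyticAt_const.div ((bl_diff _ _ _).analyticAt 0) (hb l hl),
      Eventually.of_forall fun x => ?_, by rw [bl_zero, (hJ' l).1 hl, div_self hα0]⟩
    have : (bl (c l) m γ x).im = 0 := by
      rw [bl, im_sum]
      exact Finset.sum_eq_zero fun i _ => by rw [← ofReal_pow, im_ofReal_mul, h.real, mul_zero]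
    simp [div_im, this]
  obtain ⟨q, A, ε, hq, hA, hne, hε, h1, h2⟩ := sel ⟨j₀, (hJ' j₀).2 hα⟩ hT hm w3 (m - 1) (by omega)
  rw [Nat.sub_add_cancel hm] at h1 h2
  have hε' : ∀ l, ε l ≠ 0 → 2 * (m / 2) = m ∧ ω ^ (m / 2) = I := fun l h0 =>
    ⟨(hε l h0).1, w4 (hε l h0).1 (hε l h0).2⟩
  have hS : ∀ l ∈ J, ∀ᶠ ξ in 𝓝 0,
      GG (c l) m γ q ξ * SS m q (fun t => α / bl (c l) m γ t) ξ = α := fun l hl => by
    have hc : Continuous fun ξ => bl (c l) m γ (ξ * cexp (q ξ)) := by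
      have := hq.diff.continuous
      have := (bl_diff (c l) m γ).continuous
      fun_prop
    filter_upwards [(hc.tendsto 0).eventually_ne (show _ ≠ 0 by simpa using hb l hl)] with ξ hξ
    have := Complex.exp_ne_zero (m * q ξ)
    rw [GG, SS, Complex.exp_neg]; field_simp
  have h3 : ∀ l, ∃ a : ℝ, l ∈ A → Od (m + 1) fun ξ =>
      SS m q (fun t => α / bl (c l) m γ t) ξ - 1 - ε l * ξ ^ (m / 2) - a * ξ ^ m := fun l => by
    by_cases hl : l ∈ A
    · refine ((h1 l hl).step ?_).imp fun a ha _ => ha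
      filter_upwards [hq.rl m (hT l (hA hl)).2.1] with x hx
      rw [sub_im, sub_im, hx, ← ofReal_pow, ← ofReal_mul, ofReal_im]; simp
    · exact ⟨0, fun h => absurd h hl⟩
  choose a ha using h3
  refine ⟨q, ω, A, ε, fun l => -(α * a l), hq.diff, w1, hne, ?_, fun l hl => ?_, fun l hl => ?_,
    fun l hl => h.tip hq l hα2 w1 w2 (hS l (hA hl)) (hε' l)
      (hq.ss m (hT l (hA hl)).1 (hT l (hA hl)).2.2) (ha l hl)⟩
  · obtain ⟨C, -, hC⟩ := h.base hq j₀
    refine ⟨C, ?_⟩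
    filter_upwards [hC, self_mem_nhdsWithin] with r hr r0 n hn z hz
    exact (hr n hn _ (sg_r hm w1 hz r0).1).1
  · obtain ⟨C, k, hC⟩ := h.core hq l hα3 w1 (hS l (hA hl)) hm le_rfl (hε' l) (ha l hl)
    refine ⟨|a l * (ω ^ m).re| + 2 * C, ?_⟩
    filter_upwards [hC, ev_small 0 one_pos] with r hr ⟨r0, r1, _⟩ n hn z hz
    refine (hr n hn z hz).trans (mul_le_mul_of_nonneg_left ?_ (by positivity))
    have p1 : r ^ (m + 1) ≤ r ^ m := pow_le_pow_of_le_one r0.le r1 (by omega)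
    have p2 : 0 < r ^ m := by positivity
    nlinarith [neg_abs_le (a l * (ω ^ m).re)]
  · by_cases hlJ : l ∈ J
    · obtain ⟨j, b, ⟨j1, j2⟩, hb, hO⟩ := h2 l hlJ hl
      obtain ⟨C, k, hC⟩ := h.core hq l hα3 w1 (hS l hlJ) j1 j2.le (hε' l) hO
      generalize b * (ω ^ j).re = p at *
      refine ⟨p / 2, by positivity, ?_⟩
      filter_upwards [hC, ev_small (2 * C) (show 0 < p / 2 by positivity)]
        with r hr ⟨r0, r1, r2⟩ n hn z hz v hv
      have p1 : r ^ m ≤ r ^ (j + 1) := pow_le_pow_of_le_one r0.le r1 (by omega)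
      have p2 : r ^ (m - 1) ≤ r ^ j := pow_le_pow_of_le_one r0.le r1 (by omega)
      have p3 : 0 < r ^ (m - 1) := by positivity
      have p4 : 0 < r ^ m := by positivity
      have p5 : 0 < r ^ j := by positivity
      have b1 : ‖c l (XX γ n q (sg (l0 m) (r * ω) z))‖ ≤ r ^ m * (1 - p / 2 * r ^ (m - 1)) := by
        refine (hr n hn z hz).trans (mul_le_mul_of_nonneg_left ?_ p4.le)
        rw [pow_succ] at p1 ⊢
        nlinarith [mul_le_mul_of_nonneg_left p1 k, mul_le_mul_of_nonneg_left r2 p5.le]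
      have b2 : |v| * r ^ m ≤ 1 + p / 2 * r ^ (m - 1) := by
        rw [← abs_of_pos p4, ← abs_mul]
        have := abs_le.1 hv
        exact abs_le.2 ⟨by nlinarith, by linarith⟩
      have p6 : 0 < p / 2 * r ^ (m - 1) := by positivity
      refine (norm_sub_le _ _).trans_lt ?_
      rw [norm_mul, norm_real, Real.norm_eq_abs, show ‖(1 / 4 : ℂ)‖ = 1 / 4 by simp]
      generalize p / 2 * r ^ (m - 1) = y at *
      have b3 : 0 ≤ 1 - y := nonneg_of_mul_nonneg_right ((norm_nonneg _).trans b1) p4 |> fun h => h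
      nlinarith [mul_le_mul_of_nonneg_right b1 (abs_nonneg v), mul_le_mul_of_nonneg_left b2 b3]
    · refine h.other hq l w1 fun h0 => hlJ ((hJ' l).2 ?_)
      have : (α : ℂ) ^ 2 = 1 := by exact_mod_cast hα2
      rw [w2] at h0
      linear_combination (-α) * h0 - c l (γ m) * this

end Vale.Agent.P218S
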