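import Vale.Agent.P218S.Bd
import Vale.Agent.P218S.Exp

/-! The integral along the contour for an active end. -/

namespace Vale.Agent.P218S

open Filter Topology MeasureTheory Complex Real

variable {E : Type*} [NormedAddCommGroup E] [NormedSpace ℂ E] {ι : Type*} [Fintype ι]

lemma ev_u {P : ℝ → ℕ → Prop} (h : ∀ᶠ y in atTop, ∀ n, 1 ≤ n → 58 / 100 * QQ n ≤ y → P y n) :
    ∀ᶠ n in atTop, ∀ y, 58 / 100 * QQ n ≤ y → P y n := by
  obtain ⟨a, ha⟩ := eventually_atTop.1 h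
  filter_upwards [eventually_ge_atTop 1, (QQ_tendsto.const_mul_atTop
    (show (0 : ℝ) < 58 / 100 by norm_num)).eventually_ge_atTop a] with n h1 h2 y hy
  exact ha y (h2.trans hy) n h1 hy

lemma ev_n {P : ℝ → ℕ → Prop} (h : ∀ᶠ y in atTop, ∀ n, 1 ≤ n → 58 / 100 * QQ n ≤ y → P y n)
    (ζ : ℝ) : ∀ᶠ n in atTop, P (QQ n + ζ) n := by
  filter_upwards [ev_u h, QQ_tendsto.eventually_ge_atTop (3 * |ζ|)] with n h1 h2
  exact h1 _ (by linarith [neg_abs_le ζ, abs_nonneg ζ])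

lemma lim_mul {d k : ℕ → ℂ} {d' k' : ℂ} {μ η : ℝ} (hd : ∀ᶠ n in atTop, ‖d n - d'‖ ≤ μ)
    (hk : Tendsto k atTop (𝓝 k')) (hη : 0 < η) :
    ∀ᶠ n in atTop, ‖d n * k n - d' * k'‖ ≤ μ * ‖k'‖ + η := by
  have h1 := (tendsto_iff_norm_sub_tendsto_zero.1 hk).const_mul (‖d'‖ + μ)
  rw [mul_zero] at h1
  filter_upwards [hd, h1.eventually (ge_mem_nhds hη)] with n h2 h3
  rw [show d n * k n - d' * k' = (d n - d') * k' + d n * (k n - k') by ring]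
  refine norm_add_le_of_le (by rw [norm_mul]; gcongr) (le_trans ?_ h3)
  rw [norm_mul]
  gcongr
  linarith [norm_le_insert' (d n) d']

lemma ee_int {m : ℕ} (hm : 0 < m) (ε lam : ℝ) {Q : ℝ} (hQ : 1 ≤ Q) :
    Integrable (fun τ => Q⁻¹ * (1 + (Q * th m ε Q lam τ) ^ 2)⁻¹) ∧
      ∫ τ, Q⁻¹ * (1 + (Q * th m ε Q lam τ) ^ 2)⁻¹ = m * (1 + l0 m) * π := by
  have hM := M_ge hm
  have e : ∀ τ, Q * th m ε Q lam τ
      = ε * Real.exp (-lam) / (m * (1 + l0 m)) + τ / (Q * (m * (1 + l0 m))) := fun τ => by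
    rw [th]; generalize (m : ℝ) * (1 + l0 m) = M at *; field_simp
  obtain ⟨h1, h2⟩ := aff (integrable_inv_one_add_sq.const_mul Q⁻¹)
    (ε * Real.exp (-lam) / (m * (1 + l0 m))) (show 0 < Q * (m * (1 + l0 m)) by positivity)
  simp only [e]
  refine ⟨h1, h2.trans ?_⟩
  rw [integral_const_mul, integral_univ_inv_one_add_sq, smul_eq_mul]
  field_simp

/-- Limit profile in the height variable. -/
noncomputable def w1 (m : ℕ) (ε ζ : ℝ) : ℂ :=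
  cexp (-ζ ^ 2 + I * ε * ζ / 2 + m * l0 m * tb m ε ^ 2 / 4 + (2 / m * ζ - I * ε / m) ^ 2 / 512)

namespace Dat

variable (X : Dat E ι)

/-- Normalised contribution of one end. -/
noncomputable def JJ (l : ι) (b : ℝ) (n : ℕ) (y : ℝ) : ℂ :=
  (Real.exp (64 * n) * QQ n : ℝ) * ∫ θ in (-π)..π, X.gg l b n y θ

/-- The same in the rescaled variable. -/
noncomputable def aa (l : ι) (b : ℝ) (n : ℕ) (y τ : ℝ) : ℂ :=
  (Set.Ioc (-π) π).indicator (fun θ => X.gg l b n y θ *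
    (Real.exp (64 * n) / (QQ n * (X.m * (1 + l0 X.m))) : ℝ)) (th X.m (X.ε l) (QQ n) (lm b n y) τ)

/-- Level adapted to an end. -/
noncomputable def bb (l : ι) : ℝ := sig X.ν + X.κ l - (X.m * l0 X.m * tb X.m (X.ε l) ^ 2 / 2 + X.a l)

lemma aa_int {l : ι} {b y : ℝ} {n : ℕ} (hn : 1 ≤ n)
    (h : IntervalIntegrable (X.gg l b n y) volume (-π) π) :
    Integrable (X.aa l b n y) ∧ ∫ τ, X.aa l b n y τ = X.JJ l b n y := by
  have hM := M_ge X.arc.pos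
  have hQ := QQ_ge hn
  have hπ : -π ≤ π := by linarith [pi_pos]
  obtain ⟨h1, h2⟩ := aff ((integrable_indicator_iff measurableSet_Ioc).2
    ((h.mul_const ((Real.exp (64 * n) / (QQ n * (X.m * (1 + l0 X.m))) : ℝ) : ℂ)).1))
    (X.ε l * Real.exp (-lm b n y) / (QQ n * (X.m * (1 + l0 X.m))))
    (show 0 < QQ n ^ 2 * (X.m * (1 + l0 X.m)) by positivity)
  refine ⟨h1, h2.trans ?_⟩
  rw [integral_indicator measurableSet_Ioc, ← intervalIntegral.integral_of_le hπ,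
    intervalIntegral.integral_mul_const, JJ, real_smul, mul_left_comm, ← ofReal_mul, mul_comm]
  congr 2
  generalize (X.m : ℝ) * (1 + l0 X.m) = M at *
  field_simp

lemma aa_bd {l : ι} (hl : l ∈ X.A) {b : ℝ} (hb : X.Ad b) : ∃ C : ℝ, 0 ≤ C ∧ ∀ η : ℝ, 0 < η →
    ∀ᶠ y : ℝ in atTop, ∀ n, 1 ≤ n → 58 / 100 * QQ n ≤ y →
      Integrable (X.aa l b n y) ∧ ∫ τ, X.aa l b n y τ = X.JJ l b n y ∧ ∀ τ,
      ‖X.aa l b n y τ‖ ≤ GZ (2 * X.F.p + 1) (y - QQ n) * C * (1 + τ ^ 2)⁻¹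
        + GZ (2 * X.F.p + 1) (y - QQ n) * η *
          ((QQ n)⁻¹ * (1 + (QQ n * th X.m (X.ε l) (QQ n) (lm b n y) τ) ^ 2)⁻¹) := by
  obtain ⟨C, k, hC⟩ := X.gg_bd hl hb
  refine ⟨C, k, fun η hη => ?_⟩
  filter_upwards [hC η hη, X.path hb] with y h1 h2 n hn hy
  obtain ⟨h3, h4⟩ := X.aa_int hn ((h2 n hn hy).1 l).1
  refine ⟨h3, h4, fun τ => ?_⟩
  have := GZ_pos (2 * X.F.p + 1) (y - QQ n)
  have := QQ_nonneg n
  by_cases h : th X.m (X.ε l) (QQ n) (lm b n y) τ ∈ Set.Ioc (-π) π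
  · rw [aa, Set.indicator_of_mem h]
    exact (h1 n hn hy τ _ rfl (abs_le.2 ⟨h.1.le, h.2⟩)).trans (le_of_eq (by ring))
  · rw [aa, Set.indicator_of_notMem h, norm_zero]; positivity

theorem JJ_bd {l : ι} (hl : l ∈ X.A) {b : ℝ} (hb : X.Ad b) : ∃ C : ℝ,
    ∀ᶠ y : ℝ in atTop, ∀ n, 1 ≤ n → 58 / 100 * QQ n ≤ y →
      ‖X.JJ l b n y‖ ≤ C * GZ (2 * X.F.p + 1) (y - QQ n) := by
  obtain ⟨C, k, hC⟩ := X.aa_bd hl hb
  refine ⟨C * π + X.m * (1 + l0 X.m) * π, ?_⟩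
  filter_upwards [hC 1 one_pos] with y h1 n hn hy
  obtain ⟨-, h3, h4⟩ := h1 n hn hy
  obtain ⟨h5, h6⟩ := ee_int X.arc.pos (X.ε l) (lm b n y) (QQ_ge hn)
  have h7 := integrable_inv_one_add_sq.const_mul (GZ (2 * X.F.p + 1) (y - QQ n) * C)
  have h8 := h5.const_mul (GZ (2 * X.F.p + 1) (y - QQ n) * 1)
  rw [← h3]
  refine (norm_integral_le_of_norm_le (h7.add h8) (Eventually.of_forall h4)).trans (le_of_eq ?_)
  simp only [Pi.add_apply]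
  rw [integral_add h7 h8, integral_const_mul, integral_const_mul, h6,
    integral_univ_inv_one_add_sq]
  ring

lemma dd_lim {l : ι} (hl : l ∈ X.A) (hb : X.Ad (X.bb l)) (hδ : 0 < X.δ) {μ : ℝ} (ζ τ : ℝ)
    (hμ : ∀ Y d : ℂ, 2 ≤ Y.re → ‖Y - log Y - (sig X.ν - I * τ)‖ ≤ 2 * X.δ →
      ‖d + cexp (-(X.ν : ℂ) * log Y)‖ ≤ X.δ * ‖cexp (-(X.ν : ℂ) * log Y)‖ → ‖d + MM X.ν τ‖ ≤ μ) :
    ∀ᶠ n in atTop, ‖X.dd l (X.bb l) n (QQ n + ζ)
      (th X.m (X.ε l) (QQ n) (lm (X.bb l) n (QQ n + ζ)) τ) - -(X.F.B l * MM X.ν τ)‖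
        ≤ X.F.B l * μ := by
  have hm := X.arc.pos
  have hy := tendsto_atTop_add_const_right atTop ζ QQ_tendsto
  obtain ⟨C₀, h0⟩ := X.pt_mem hb
  obtain ⟨C₁, h1⟩ := X.sv_eq hl (X.bb l)
  set θ := fun n => th X.m (X.ε l) (QQ n) (lm (X.bb l) n (QQ n + ζ)) τ with hθ
  obtain ⟨e, he⟩ := ((ev_n h1 ζ).mono fun n h => h (θ n)).choice
  have hr := (rr_zero hm (X.bb l)).comp hy
  have h2 : Tendsto (fun n => ((QQ n : ℂ) * Real.exp (lm (X.bb l) n (QQ n + ζ))) ^ 2 * e n) atTop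
      (𝓝 0) := by
    refine squeeze_zero_norm' (he.mono fun n h => le_of_eq_of_le ?_ h.1)
      (by simpa using hr.const_mul C₁)
    rw [norm_mul, ← ofReal_mul, ← ofReal_pow, norm_real, Real.norm_of_nonneg (sq_nonneg _)]
  have h3 : Tendsto (fun n => sv X.c X.κ l (X.W (QQ n + ζ)) (X.pt (X.bb l) n (QQ n + ζ) (θ n)))
      atTop (𝓝 (sig X.ν - I * τ)) := by
    refine (((sF_lim hm (X.ε l) (X.a l) τ (lm_lim (X.bb l) ζ) h2).const_add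
      ((X.bb l - X.κ l : ℝ) : ℂ)).congr' (he.mono fun n h => h.2.symm)).trans (le_of_eq ?_)
    congr 1
    rw [bb]; push_cast; ring
  obtain ⟨r', r0, h4⟩ := X.F.main (‖(sig X.ν : ℂ) - I * τ‖ + 1)
  have h5 := hr.const_mul C₀
  rw [mul_zero] at h5
  have hB := X.F.B_pos l
  have hB' : (X.F.B l : ℂ) ≠ 0 := by exact_mod_cast hB.ne'
  have nB : ∀ d w : ℂ, X.F.B l * ‖d / X.F.B l + w‖ = ‖d + X.F.B l * w‖ := fun d w => by
    rw [show d + X.F.B l * w = X.F.B l * (d / X.F.B l + w) by field_simp, norm_mul, norm_real,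
      Real.norm_of_nonneg hB.le]
  filter_upwards [(hy.const_mul_atTop (show 0 < √2 by positivity)).eventually h4,
    hy.eventually X.W_cut, ev_n h0 ζ, h5.eventually (gt_mem_nhds r0),
    h3.norm.eventually (ge_mem_nhds (lt_add_one _)),
    (tendsto_iff_norm_sub_tendsto_zero.1 h3).eventually (ge_mem_nhds hδ)] with n a1 a2 a3 a4 a5 a6
  obtain ⟨Y, y1, y2, y3⟩ := a1 _ a2 _ (a3 (θ n)).1 ((a3 (θ n)).2.1.trans_lt a4) l a5
  have y4 := hμ Y (X.dd l (X.bb l) n (QQ n + ζ) (θ n) / X.F.B l) y1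
    ((norm_sub_le_norm_sub_add_norm_sub _ _ _).trans ((add_le_add y2 a6).trans (by linarith)))
    (le_of_mul_le_mul_left (by rw [nB]; exact y3.trans (le_of_eq (by ring))) hB)
  have y5 := mul_le_mul_of_nonneg_left y4 hB.le
  rwa [nB, ← sub_neg_eq_add] at y5

lemma aa_lim {l : ι} (hl : l ∈ X.A) (hb : X.Ad (X.bb l)) (hδ : 0 < X.δ) {μ η : ℝ} (ζ τ : ℝ)
    (hμ : ∀ Y d : ℂ, 2 ≤ Y.re → ‖Y - log Y - (sig X.ν - I * τ)‖ ≤ 2 * X.δ →
      ‖d + cexp (-(X.ν : ℂ) * log Y)‖ ≤ X.δ * ‖cexp (-(X.ν : ℂ) * log Y)‖ → ‖d + MM X.ν τ‖ ≤ μ)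
    (hη : 0 < η) : ∀ᶠ n in atTop,
      ‖X.aa l (X.bb l) n (QQ n + ζ) τ * cexp (I * (X.ε l * QQ n / 2))
        - -((X.F.B l * (√2 * Real.exp (X.bb l / 2) / X.m) : ℝ) * w1 X.m (X.ε l) ζ) * HH X.ν τ‖
      ≤ X.F.B l * (√2 * Real.exp (X.bb l / 2) / X.m) * ‖w1 X.m (X.ε l) ζ‖ * μ + η := by
  have hm := X.arc.pos
  have hy := tendsto_atTop_add_const_right atTop ζ QQ_tendsto
  have hl' := lm_lim (X.bb l) ζ
  have t0 := small (th_c (m := X.m) (X.ε l) τ hl')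
  have t1 : Tendsto (fun n => th X.m (X.ε l) (QQ n) (lm (X.bb l) n (QQ n + ζ)) τ) atTop (𝓝 0) := by
    simpa [Function.comp_def] using (continuous_re.tendsto 0).comp t0
  have t2 := ((jj_cont (l0 X.m)).tendsto 0).comp t1
  have t3 : Tendsto (fun n => √2 * (QQ n + ζ) / QQ n) atTop (𝓝 √2) := by
    have := ((QQ_tendsto.inv_tendsto_atTop.const_mul ζ).const_add 1).const_mul √2
    simp only [mul_zero, add_zero, mul_one] at this
    refine this.congr' ?_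
    filter_upwards [QQ_tendsto.eventually_gt_atTop 0] with n hn
    rw [Pi.inv_apply]; field_simp
  have t4 := ((kk_lim hm (X.ε l) τ hl').mul t2).mul
    (cT ((t3.mul_const (Real.exp (X.bb l / 2))).div_const (X.m * (1 + l0 X.m))))
  have h3 : (1 + l0 X.m : ℂ) ≠ 0 := by exact_mod_cast (by linarith [(l0_bd hm).1] : 1 + l0 X.m ≠ 0)
  have e : w1 X.m (X.ε l) ζ * cexp (-(I * τ / 2)) * jj (l0 X.m) 0 *
      ((√2 * Real.exp (X.bb l / 2) / (X.m * (1 + l0 X.m)) : ℝ) : ℂ) =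
      (√2 * Real.exp (X.bb l / 2) / X.m : ℝ) * w1 X.m (X.ε l) ζ * cexp (-(I * τ / 2)) := by
    simp only [jj, ofReal_zero, mul_zero, Complex.exp_zero, mul_one]
    push_cast
    field_simp
  rw [← w1, e] at t4
  have n1 : ‖cexp (-(I * τ / 2))‖ = 1 := by
    rw [← norm_eI (-(τ / 2))]; congr 2; push_cast; ring
  filter_upwards [lim_mul (X.dd_lim hl hb hδ ζ τ hμ) t4 hη, t1.eventually (Ioc_mem_nhds
    (neg_lt_zero.2 pi_pos) pi_pos), hy.eventually (vv_ev (X.bb l) one_pos), eventually_ge_atTop 1]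
    with n a1 a2 ⟨a3, a4, _⟩ hn
  rw [aa, Set.indicator_of_mem (Set.mem_Ioc.2 a2), X.gg_eq hl hn (by linarith) (lt_of_lt_of_le (by positivity) a4)]
  rw [norm_mul, norm_mul, n1, norm_real, Real.norm_of_nonneg (by positivity)] at a1
  refine le_of_eq_of_le ?_ (a1.trans (le_of_eq (by ring)))
  congr 1
  simp only [HH, Function.comp]
  push_cast
  ring

theorem JJ_lim {l : ι} (hl : l ∈ X.A) (hb : X.Ad (X.bb l)) (hδ : 0 < X.δ) {mj : ℝ → ℝ}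
    (m1 : Integrable mj) (m2 : ∀ τ, 0 ≤ mj τ) (m3 : Integrable (HH X.ν))
    (hμ : ∀ (τ : ℝ) (Y d : ℂ), 2 ≤ Y.re → ‖Y - log Y - (sig X.ν - I * τ)‖ ≤ 2 * X.δ →
      ‖d + cexp (-(X.ν : ℂ) * log Y)‖ ≤ X.δ * ‖cexp (-(X.ν : ℂ) * log Y)‖ → ‖d + MM X.ν τ‖ ≤ mj τ)
    (ζ : ℝ) {η : ℝ} (hη : 0 < η) : ∀ᶠ n in atTop,
      ‖X.JJ l (X.bb l) n (QQ n + ζ) * cexp (I * (X.ε l * QQ n / 2))
        - -((X.F.B l * (√2 * Real.exp (X.bb l / 2) / X.m) : ℝ) * w1 X.m (X.ε l) ζ) * ∫ τ, HH X.ν τ‖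
      ≤ X.F.B l * (√2 * Real.exp (X.bb l / 2) / X.m) * ‖w1 X.m (X.ε l) ζ‖ * (∫ τ, mj τ) + η := by
  obtain ⟨C, k, hC⟩ := X.aa_bd hl hb
  have hG := GZ_pos (2 * X.F.p + 1) ζ
  have hM := M_ge X.arc.pos
  have hB := X.F.B_pos l
  obtain ⟨η', e0, he⟩ : ∃ η' : ℝ, 0 < η' ∧
      GZ (2 * X.F.p + 1) ζ * η' * (X.m * (1 + l0 X.m) * π) = η / 2 :=
    ⟨η / 2 / (GZ (2 * X.F.p + 1) ζ * (X.m * (1 + l0 X.m) * π)), by positivity, by
      have := pi_pos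
      generalize (X.m : ℝ) * (1 + l0 X.m) = M at *
      field_simp⟩
  have n1 : ∀ n, ‖cexp (I * (X.ε l * QQ n / 2))‖ = 1 := fun n => by
    rw [← norm_eI (X.ε l * QQ n / 2)]; push_cast; rfl
  have key := limsup_dct (ε₁ := η / 2)
    (a := fun n τ => X.aa l (X.bb l) n (QQ n + ζ) τ * cexp (I * (X.ε l * QQ n / 2)))
    (e := fun n τ => GZ (2 * X.F.p + 1) ζ * η' * ((QQ n)⁻¹ *
      (1 + (QQ n * th X.m (X.ε l) (QQ n) (lm (X.bb l) n (QQ n + ζ)) τ) ^ 2)⁻¹))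
    (m3.const_mul _) (integrable_inv_one_add_sq.const_mul (GZ (2 * X.F.p + 1) ζ * C))
    (m1.const_mul _) (by
      filter_upwards [ev_n (hC η' e0) ζ, eventually_ge_atTop 1] with n ⟨a1, _, a3⟩ hn
      obtain ⟨h5, h6⟩ := ee_int X.arc.pos (X.ε l) (lm (X.bb l) n (QQ n + ζ)) (QQ_ge hn)
      have := QQ_nonneg n
      refine ⟨(a1.mul_const _).aestronglyMeasurable, h5.const_mul _, fun τ => by positivity,
        by rw [integral_const_mul, h6, he], fun τ => ?_⟩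
      have := a3 τ
      rw [add_sub_cancel_left] at this
      rwa [norm_mul, n1, mul_one])
    (fun τ => mul_nonneg (by positivity) (m2 τ))
    (fun τ ε hε => X.aa_lim hl hb hδ ζ τ (hμ τ) hε) (half_pos hη)
  filter_upwards [key, ev_n (hC η' e0) ζ] with n ⟨_, a1⟩ ⟨_, a2, _⟩
  rw [integral_mul_const, a2, integral_const_mul, integral_const_mul] at a1
  linarith

end Dat

end Vale.Agent.P218S
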