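import Vale.Agent.P218S.Res

/-! Bounds and asymptotics of the kernel along the contour. -/

namespace Vale.Agent.P218S

open Filter Topology Complex Real

/-- Strength of the retreat of the contour. -/
noncomputable def l0 (m : ℕ) : ℝ := 1 / (6400 * m)

lemma l0_bd {m : ℕ} (hm : 0 < m) : 0 < l0 m ∧ l0 m ≤ 1 / 6400 ∧ m * l0 m = 1 / 6400 := by
  have : (1 : ℝ) ≤ m := by exact_mod_cast hm
  refine ⟨by unfold l0; positivity, ?_, by unfold l0; field_simp⟩
  unfold l0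
  exact one_div_le_one_div_of_le (by norm_num) (by linarith)

/-- Logarithmic variable of the kernel. -/
noncomputable def yy (m : ℕ) (lam θ : ℝ) : ℂ := (2 / m * lam : ℝ) - uu (l0 m) θ

/-- The kernel along the contour. -/
noncomputable def kk (m n : ℕ) (lam θ : ℝ) : ℂ := ker (64 * m * n - n) (2 * n) (cexp (yy m lam θ))

lemma kk_eq {m : ℕ} (hm : 0 < m) (n : ℕ) (lam θ : ℝ) : kk m n lam θ =
    cexp (64 * m * n * yy m lam θ) * ((1 + Complex.cosh (yy m lam θ)) / 2) ^ n := by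
  have h : n ≤ 64 * m * n := Nat.le_mul_of_pos_left n (by omega)
  unfold kk ker
  generalize yy m lam θ = y
  have e : ((1 + cexp y) / 2) ^ 2 = cexp y * ((1 + Complex.cosh y) / 2) := by
    have := Complex.exp_ne_zero y
    rw [Complex.cosh, Complex.exp_neg]; field_simp; ring
  rw [pow_mul, e, mul_pow, ← mul_assoc, ← pow_add, Nat.sub_add_cancel h, ← Complex.exp_nat_mul]
  push_cast; rfl

lemma norm_cosh (y : ℂ) : ‖(1 + Complex.cosh y) / 2‖ = (Real.cosh y.re + Real.cos y.im) / 2 := by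
  have h1 : 1 ≤ Real.cosh y.re := Real.one_le_cosh _
  have h2 := Real.neg_one_le_cos y.im
  have e : (1 + Complex.cosh y) / 2 = (((1 + Real.cosh y.re * Real.cos y.im) / 2 : ℝ) : ℂ)
      + ((Real.sinh y.re * Real.sin y.im / 2 : ℝ) : ℂ) * I := by
    conv_lhs => rw [← re_add_im y, Complex.cosh_add, cosh_mul_I, sinh_mul_I]
    push_cast; ring
  rw [e, norm_add_mul_I, Real.sqrt_eq_iff_mul_self_eq (by positivity) (by linarith)]
  have h3 := Real.cosh_sq y.re
  have h4 := Real.sin_sq_add_cos_sq y.im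
  have h5 : Real.sin y.im ^ 2 = 1 - Real.cos y.im ^ 2 := by linarith
  have h6 : Real.sinh y.re ^ 2 = Real.cosh y.re ^ 2 - 1 := by linarith
  rw [div_pow (_ * _), mul_pow, h5, h6]
  ring

lemma cosh_half (a : ℝ) : (Real.cosh a + 1) / 2 ≤ Real.exp (a ^ 2 / 4) := by
  have h1 := Real.cosh_two_mul (a / 2)
  have h2 := Real.cosh_sq (a / 2)
  have h3 := Real.cosh_le_exp_half_sq (a / 2)
  have h4 := Real.cosh_pos (a / 2)
  rw [show 2 * (a / 2) = a by ring] at h1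
  rw [show a ^ 2 / 4 = (a / 2) ^ 2 / 2 + (a / 2) ^ 2 / 2 by ring, Real.exp_add]
  nlinarith

lemma cosh_cos {a b t : ℝ} (ha : a ^ 2 ≤ 6) (hb : |b| ≤ π) (ht : t ^ 2 ≤ b ^ 2) :
    (Real.cosh a + Real.cos b) / 2 ≤ Real.exp (a ^ 2 / 4 - t ^ 2 / 50) := by
  have h1 := cosh_half a
  have h2 : Real.exp (a ^ 2 / 4) ≤ 5 := by
    have h3 : Real.exp (a ^ 2 / 4) ≤ Real.exp (1 + 1 / 2) := Real.exp_le_exp.2 (by linarith)
    have h4 := Real.exp_one_lt_d9
    have h5 : Real.exp (1 / 2) ≤ 7 / 4 := by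
      refine le_of_sq_le_sq ?_ (by norm_num) |> fun h => h
      rw [← Real.exp_nat_mul]; norm_num; linarith
    rw [Real.exp_add] at h3
    nlinarith [Real.exp_pos (1 / 2)]
  have h6 := Real.cos_le_one_sub_mul_cos_sq hb
  have h7 : 1 / 5 ≤ 2 / π ^ 2 := by
    rw [div_le_div_iff₀ (by norm_num) (by positivity)]
    nlinarith [Real.pi_lt_d2, Real.pi_pos]
  have h8 := Real.add_one_le_exp (-(t ^ 2 / 50))
  have h9 := sq_nonneg t
  have h10 := Real.exp_pos (a ^ 2 / 4)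
  rw [sub_eq_add_neg, Real.exp_add]
  have h11 : Real.cos b ≤ 1 - t ^ 2 / 5 := by nlinarith
  nlinarith

lemma yy_re (m : ℕ) (lam θ : ℝ) : (yy m lam θ).re = 2 / m * lam + l0 m * (1 - Real.cos θ) := by
  simp [yy, uu, mul_comm I, exp_ofReal_mul_I_re]

lemma yy_im (m : ℕ) (lam θ : ℝ) : (yy m lam θ).im = -(θ + l0 m * Real.sin θ) := by
  simp [yy, uu, mul_comm I, exp_ofReal_mul_I_im]

lemma kk_norm {m : ℕ} (hm : 0 < m) (n : ℕ) (lam θ : ℝ) : ‖kk m n lam θ‖ =
    Real.exp (n * (128 * lam + (1 - Real.cos θ) / 100))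
      * ((Real.cosh (yy m lam θ).re + Real.cos (yy m lam θ).im) / 2) ^ n := by
  have h1 : (m : ℝ) ≠ 0 := by exact_mod_cast hm.ne'
  rw [kk_eq hm, norm_mul, norm_pow, norm_cosh, norm_exp]
  congr 2
  have : (64 * m * n : ℂ) = ((64 * m * n : ℝ) : ℂ) := by push_cast; rfl
  rw [this, re_ofReal_mul, yy_re, l0]
  field_simp; ring

lemma yy_sq {m : ℕ} (hm : 0 < m) (lam θ : ℝ) :
    (yy m lam θ).re ^ 2 ≤ 5 * lam ^ 2 + (1 - Real.cos θ) / 1000 := by
  obtain ⟨h1, h2, -⟩ := l0_bd hm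
  have hm1 : (1 : ℝ) ≤ m := by exact_mod_cast hm
  have h3 : (2 / m * lam) ^ 2 ≤ 4 * lam ^ 2 := by
    rw [mul_pow]
    have : (2 / m : ℝ) ≤ 2 := div_le_self (by norm_num) hm1
    have h0 : (0 : ℝ) ≤ 2 / m := by positivity
    gcongr; nlinarith
  have h4 := Real.cos_le_one θ
  have h5 := Real.neg_one_le_cos θ
  have h6 : (l0 m * (1 - Real.cos θ)) ^ 2 ≤ (1 - Real.cos θ) / 5000 := by
    rw [mul_pow]
    have : l0 m ^ 2 ≤ 1 / 10000 := by nlinarith
    nlinarith [mul_le_mul this (show (1 - Real.cos θ) ^ 2 ≤ 2 * (1 - Real.cos θ) by nlinarith)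
      (sq_nonneg _) (by norm_num)]
  rw [yy_re]
  nlinarith [sq_nonneg (2 / m * lam - 4 * (l0 m * (1 - Real.cos θ)))]

lemma kk_le {m : ℕ} (hm : 0 < m) (n : ℕ) (lam θ : ℝ) : ‖kk m n lam θ‖ ≤
    Real.exp (n * (128 * lam + 5 / 4 * lam ^ 2 + (1 - Real.cos θ) * (41 / 4000))) := by
  have h1 := cosh_half (yy m lam θ).re
  have h2 := Real.cos_le_one (yy m lam θ).im
  have h3 := yy_sq hm lam θ
  have h4 := Real.one_le_cosh (yy m lam θ).re
  have h5 := Real.neg_one_le_cos (yy m lam θ).im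
  rw [kk_norm hm]
  calc _ ≤ Real.exp (n * (128 * lam + (1 - Real.cos θ) / 100))
        * Real.exp ((5 * lam ^ 2 + (1 - Real.cos θ) / 1000) / 4) ^ n := by
        gcongr
        · linarith
        · exact le_trans (by linarith) (h1.trans (Real.exp_le_exp.2 (by linarith)))
    _ = _ := by rw [← Real.exp_nat_mul, ← Real.exp_add]; congr 1; ring

lemma kk_le' {m : ℕ} (hm : 0 < m) (n : ℕ) {lam θ : ℝ} (hl : lam ^ 2 ≤ 1) (hθ : |θ| ≤ π) :
    ‖kk m n lam θ‖ ≤ Real.exp (n * (128 * lam + 5 / 4 * lam ^ 2 + (1 - Real.cos θ) * (41 / 4000)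
      - θ ^ 2 / 50)) := by
  obtain ⟨k1, k2, -⟩ := l0_bd hm
  have h3 := yy_sq hm lam θ
  have h4 := Real.one_le_cosh (yy m lam θ).re
  have h5 := Real.neg_one_le_cos (yy m lam θ).im
  have h6 := Real.neg_one_le_cos θ
  have key : ∀ t : ℝ, 0 ≤ t → t ≤ π → 0 ≤ Real.sin t ∧ t + l0 m * Real.sin t ≤ π := fun t a b => by
    have h1 := Real.sin_nonneg_of_nonneg_of_le_pi a b
    have h2 : Real.sin t ≤ π - t := by
      rw [← Real.sin_pi_sub]; exact Real.sin_le (by linarith)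
    exact ⟨h1, by nlinarith⟩
  have h7 : |(yy m lam θ).im| ≤ π ∧ θ ^ 2 ≤ (yy m lam θ).im ^ 2 := by
    rw [yy_im, abs_neg, neg_sq]
    obtain ⟨a, b⟩ := abs_le.1 hθ
    rcases le_total 0 θ with h | h
    · obtain ⟨c, d⟩ := key θ h b
      have := mul_nonneg k1.le c
      exact ⟨abs_le.2 ⟨by linarith, d⟩, by nlinarith⟩
    · obtain ⟨c, d⟩ := key (-θ) (by linarith) (by linarith)
      rw [Real.sin_neg] at c d
      have := mul_nonneg k1.le c
      exact ⟨abs_le.2 ⟨by linarith, by linarith⟩, by nlinarith⟩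
  have h1 := cosh_cos (a := (yy m lam θ).re) (by linarith) h7.1 h7.2
  rw [kk_norm hm]
  calc _ ≤ Real.exp (n * (128 * lam + (1 - Real.cos θ) / 100))
        * Real.exp ((5 * lam ^ 2 + (1 - Real.cos θ) / 1000) / 4 - θ ^ 2 / 50) ^ n := by
        gcongr
        · linarith
        · exact h1.trans (Real.exp_le_exp.2 (by linarith))
    _ = _ := by rw [← Real.exp_nat_mul, ← Real.exp_add]; congr 1; ring

/-- Gaussian bound for the kernel. -/
theorem kk_gauss {m : ℕ} (hm : 0 < m) (n : ℕ) {lam θ : ℝ} (hx : 1 / 2 ≤ Real.exp lam)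
    (hθ : |θ| ≤ π) : ‖kk m n lam θ‖ * Real.exp (64 * n * (1 - Real.exp lam ^ 2)) ≤
      Real.exp (-((QQ n * (Real.exp lam - 1)) ^ 2 / 8) - (QQ n * θ) ^ 2 / 12800) := by
  set x := Real.exp lam with hxd
  have h1 : lam ≤ x - 1 := by linarith [Real.add_one_le_exp lam]
  have h2 : (1 - lam) * x ≤ 1 := by
    have := Real.add_one_le_exp (-lam)
    rw [Real.exp_neg, ← hxd, ← one_div, le_div_iff₀ (by linarith)] at this
    linarith
  have h3 : lam ^ 2 ≤ 4 * (x - 1) ^ 2 := by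
    rcases le_total 0 lam with h | h
    · nlinarith
    · have : -lam ≤ 2 * (1 - x) := by nlinarith
      nlinarith
  have h4 := Real.one_sub_sq_div_two_le_cos (x := θ)
  have h5 : θ ^ 2 ≤ 10 := by
    rw [← sq_abs]; nlinarith [abs_nonneg θ, Real.pi_lt_d2]
  have hn : (0 : ℝ) ≤ n := Nat.cast_nonneg n
  rw [mul_pow, mul_pow, QQ_sq]
  rcases le_total x 2 with h | h
  · have h6 : lam ^ 2 ≤ 1 := by
      have : -1 ≤ lam := by nlinarith
      nlinarith
    refine (mul_le_mul_of_nonneg_right (kk_le' hm n h6 hθ) (Real.exp_pos _).le).trans ?_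
    rw [← Real.exp_add]
    refine Real.exp_le_exp.2 ?_
    have : 128 * lam + 5 / 4 * lam ^ 2 + (1 - Real.cos θ) * (41 / 4000) - θ ^ 2 / 50
        + 64 * (1 - x ^ 2) ≤ -(16 * (x - 1) ^ 2) - θ ^ 2 / 100 := by nlinarith
    nlinarith [mul_le_mul_of_nonneg_left this hn]
  · refine (mul_le_mul_of_nonneg_right (kk_le hm n lam θ) (Real.exp_pos _).le).trans ?_
    rw [← Real.exp_add]
    refine Real.exp_le_exp.2 ?_
    have : 128 * lam + 5 / 4 * lam ^ 2 + (1 - Real.cos θ) * (41 / 4000)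
        + 64 * (1 - x ^ 2) ≤ -(16 * (x - 1) ^ 2) - θ ^ 2 / 100 := by nlinarith
    nlinarith [mul_le_mul_of_nonneg_left this hn]

/-- Bound at the initial height. -/
theorem kk_start {m : ℕ} (hm : 0 < m) (n : ℕ) {lam : ℝ} (θ : ℝ) (hx : 1 / 2 ≤ Real.exp lam)
    (hx' : Real.exp lam ^ 2 ≤ 34 / 100) : ‖kk m n lam θ‖ ≤ Real.exp (-(66 * n)) := by
  have h2 : -1 ≤ lam := by
    have := Real.add_one_le_exp (-lam)
    rw [Real.exp_neg, ← one_div, le_div_iff₀ (by linarith)] at this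
    nlinarith
  have h3 : 2 * lam ≤ -(107 / 100) := by
    rw [← Real.exp_le_exp, show 2 * lam = (2 : ℕ) * lam by norm_num, Real.exp_nat_mul]
    refine hx'.trans ?_
    rw [show -(107 / 100 : ℝ) = -1 + -(7 / 100) by norm_num, Real.exp_add]
    have := Real.exp_neg_one_gt_d9
    have h4 := Real.add_one_le_exp (-(7 / 100))
    nlinarith
  have h6 := Real.neg_one_le_cos θ
  refine (kk_le hm n lam θ).trans (Real.exp_le_exp.2 ?_)
  have : 128 * lam + 5 / 4 * lam ^ 2 + (1 - Real.cos θ) * (41 / 4000) ≤ -66 := by nlinarith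
  nlinarith [mul_le_mul_of_nonneg_left this (Nat.cast_nonneg n : (0 : ℝ) ≤ n)]

end Vale.Agent.P218S
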