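import Vale.Agent.P218S.Ker

/-! Limits in the saddle region. -/

namespace Vale.Agent.P218S

open Filter Topology Complex Real

/-- Angle as a function of the rescaled variable. -/
noncomputable def th (m : ℕ) (ε Q lam τ : ℝ) : ℝ :=
  ε * Real.exp (-lam) / (Q * (m * (1 + l0 m))) + τ / (Q ^ 2 * (m * (1 + l0 m)))

/-- Limit angle. -/
noncomputable def tb (m : ℕ) (ε : ℝ) : ℝ := ε / (m * (1 + l0 m))

lemma uu_eq (l θ : ℝ) : uu l θ = I * (1 + l) * θ - l * θ ^ 2 * E2 (I * θ) := by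
  rw [uu, E2_eq (I * θ), mul_pow, I_sq]; ring

lemma uu_le {l θ : ℝ} (h0 : 0 ≤ l) (h1 : l ≤ 1) : ‖uu l θ‖ ≤ 2 * |θ| := by
  have h2 : ‖1 - cexp (I * θ)‖ ≤ |θ| := by
    rw [norm_sub_rev]; exact Real.norm_exp_I_mul_ofReal_sub_one_le
  refine (norm_sub_le _ _).trans ?_
  rw [norm_mul, norm_mul, norm_I, norm_real, norm_real, Real.norm_eq_abs, Real.norm_eq_abs,
    abs_of_nonneg h0]
  nlinarith [norm_nonneg (1 - cexp (I * θ))]

lemma cT {α : Type*} {l : Filter α} {f : α → ℝ} {a : ℝ} (h : Tendsto f l (𝓝 a)) :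
    Tendsto (fun n => (f n : ℂ)) l (𝓝 a) := (continuous_ofReal.tendsto a).comp h

lemma small {f : ℕ → ℂ} {a : ℂ} (h : Tendsto (fun n => (QQ n : ℂ) * f n) atTop (𝓝 a)) :
    Tendsto f atTop (𝓝 0) := by
  have h1 := h.mul (cT QQ_tendsto.inv_tendsto_atTop)
  simp only [ofReal_zero, mul_zero] at h1
  refine h1.congr' ?_
  filter_upwards [QQ_tendsto.eventually_gt_atTop 0] with n hn
  have : (QQ n : ℂ) ≠ 0 := by exact_mod_cast hn.ne'
  simp only [Pi.inv_apply, ofReal_inv]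
  field_simp

section
variable {m : ℕ} (hm : 0 < m) (ε τ : ℝ) {lam : ℕ → ℝ} {ζ : ℝ}
  (hl : Tendsto (fun n => QQ n * lam n) atTop (𝓝 ζ))
include hm hl

omit hm in
lemma lam_c : Tendsto (fun n => (QQ n : ℂ) * (lam n : ℂ)) atTop (𝓝 ζ) := by
  simpa using cT hl

omit hm in
lemma lam_0 : Tendsto lam atTop (𝓝 0) := by
  simpa [Function.comp_def] using (continuous_re.tendsto 0).comp (small (lam_c hl))

omit hm in
lemma th_c : Tendsto (fun n => (QQ n : ℂ) * (th m ε (QQ n) (lam n) τ : ℝ)) atTop (𝓝 (tb m ε)) := by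
  have h1 : Tendsto (fun n => Real.exp (-lam n)) atTop (𝓝 1) := by
    simpa [Function.comp_def] using (Real.continuous_exp.tendsto _).comp (lam_0 hl).neg
  have h2 := ((h1.const_mul ε).div_const (m * (1 + l0 m))).add
    ((QQ_tendsto.inv_tendsto_atTop.const_mul τ).div_const (m * (1 + l0 m)))
  simp only [mul_one, mul_zero, zero_div, add_zero] at h2
  refine (cT h2).congr' ?_
  filter_upwards [QQ_tendsto.eventually_gt_atTop 0] with n hn
  rw [← ofReal_mul]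
  congr 1
  rw [th, Pi.inv_apply]
  generalize (m : ℝ) * (1 + l0 m) = d
  rw [← div_div, ← div_div]
  field_simp

lemma uu_c : Tendsto (fun n => (QQ n : ℂ) * uu (l0 m) (th m ε (QQ n) (lam n) τ)) atTop
    (𝓝 (I * ε / m)) := by
  have h1 := th_c (m := m) ε τ hl
  have h0 := small h1
  have h2 := (h1.const_mul (I * (1 + l0 m))).sub (((h1.mul h0).const_mul (l0 m : ℂ)).mul
    (E2_tendsto (by simpa using h0.const_mul I)))
  have h3 : (1 + l0 m : ℂ) ≠ 0 := by exact_mod_cast (by linarith [(l0_bd hm).1] : 1 + l0 m ≠ 0)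
  convert h2 using 2
  · rw [uu_eq]; ring
  · rw [tb]; push_cast; field_simp; ring

theorem kk_lim : Tendsto (fun n => kk m n (lam n) (th m ε (QQ n) (lam n) τ)
      * cexp (64 * n * (1 - Real.exp (lam n) ^ 2)) * cexp (I * (ε * QQ n / 2))) atTop
    (𝓝 (cexp (-ζ ^ 2 + I * ε * ζ / 2 + m * l0 m * tb m ε ^ 2 / 4
      + (2 / m * ζ - I * ε / m) ^ 2 / 512) * cexp (-(I * τ / 2)))) := by
  have a1 := lam_c hl
  have a0 := small a1
  have b1 := th_c (m := m) ε τ hl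
  have b0 := small b1
  have c1 := uu_c hm ε τ hl
  set θ : ℕ → ℝ := fun n => th m ε (QQ n) (lam n) τ with hθ
  have y1 : Tendsto (fun n => (QQ n : ℂ) * yy m (lam n) (θ n)) atTop
      (𝓝 (2 / m * ζ - I * ε / m)) := by
    refine ((a1.const_mul (2 / m : ℂ)).sub c1).congr fun n => ?_
    rw [yy]; push_cast; ring
  have y0 := small y1
  have hQ : ∀ n : ℕ, (QQ n : ℂ) ^ 2 = 128 * n := fun n => by exact_mod_cast QQ_sq n
  have g1 : Tendsto (fun n : ℕ => ((1 + Complex.cosh (yy m (lam n) (θ n))) / 2) ^ n) atTop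
      (𝓝 (cexp ((2 / m * ζ - I * ε / m) ^ 2 / 512))) := by
    have h1 := ((y1.pow 2).mul ((E2_tendsto y0).add (E2_tendsto (by simpa using y0.neg)))).div_const
      512
    have h2 := Complex.tendsto_one_add_pow_exp_of_tendsto (g := fun n =>
      yy m (lam n) (θ n) ^ 2 * (E2 (yy m (lam n) (θ n)) + E2 (-yy m (lam n) (θ n))) / 4)
      (h1.congr fun n => by rw [mul_pow, hQ]; ring)
    convert h2 using 3
    · rw [Complex.cosh, E2_eq (yy _ _ _), E2_eq (-yy _ _ _)]; ring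
    · ring
  have g2 := ((((a1.pow 2).mul (E2_tendsto (by simpa using a0.const_mul 2))).const_mul (-2)).sub
    ((a1.neg.add ((a1.mul a0).mul (E2_tendsto (by simpa using a0.neg)))).const_mul (I * ε / 2))).add
    (((b1.pow 2).mul (E2_tendsto (by simpa using b0.const_mul I))).const_mul (m * l0 m / 2 : ℂ))
  have g3 := ((Complex.continuous_exp.tendsto _).comp (g2.sub_const (I * τ / 2))).mul g1
  have h3 : (1 + l0 m : ℂ) ≠ 0 := by exact_mod_cast (by linarith [(l0_bd hm).1] : 1 + l0 m ≠ 0)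
  have h4 : (m : ℂ) ≠ 0 := by exact_mod_cast hm.ne'
  refine (g3.congr' ?_).trans (le_of_eq ?_)
  · filter_upwards [QQ_tendsto.eventually_gt_atTop 0] with n hn
    have h5 : (QQ n : ℂ) ≠ 0 := by exact_mod_cast hn.ne'
    have h6 : (n : ℂ) = (QQ n : ℂ) ^ 2 / 128 := by rw [hQ]; ring
    have e1 : ((Real.exp (lam n) : ℝ) : ℂ) ^ 2 = 1 + 2 * lam n + (2 * lam n) ^ 2 * E2 (2 * lam n) := by
      rw [← E2_eq, ofReal_exp, ← Complex.exp_nat_mul]; norm_num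
    have e2 : (QQ n : ℂ) ^ 2 * (m * (1 + l0 m)) * θ n
        = ε * QQ n * (1 + -lam n + (-lam n) ^ 2 * E2 (-lam n)) + τ := by
      rw [← E2_eq]; simp only [hθ, th]; push_cast; field_simp
    rw [kk_eq hm, Function.comp, mul_right_comm _ (_ ^ n), mul_right_comm _ (_ ^ n),
      ← Complex.exp_add, ← Complex.exp_add, e1]
    congr 2
    rw [yy, uu_eq]
    push_cast
    rw [h6]
    field_simp
    linear_combination (128 * I) * e2
  · rw [← Complex.exp_add, ← Complex.exp_add]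
    congr 2
    ring

end

/-- The variable `s` along the contour, up to a real constant. -/
noncomputable def sF (m : ℕ) (ε a Q lam : ℝ) (u E : ℂ) : ℂ :=
  ((Q : ℂ) * Real.exp lam) ^ 2 * (cexp (-(m * u)) *
    (1 + I * ε * ((Q : ℂ) * Real.exp lam)⁻¹ * cexp (m / 2 * u)
      + a * ((Q : ℂ) * Real.exp lam)⁻¹ ^ 2 * cexp (m * u) + E) - 1)

lemma sF_eq {m : ℕ} (hm : 0 < m) (ε a τ : ℝ) {Q : ℝ} (hQ : 0 < Q) (lam : ℝ) (E : ℂ) {θ : ℝ}
    (hθ : θ = th m ε Q lam τ) {u : ℂ} (hu : u = uu (l0 m) θ) :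
    sF m ε a Q lam u E + I * Real.exp lam ^ 2 * τ =
      (Q * Real.exp lam * (m * u)) ^ 2 * E2 (-(m * u))
      + m * l0 m * (Q * Real.exp lam * θ) ^ 2 * E2 (I * θ)
      + I * ε * (Q * Real.exp lam * (cexp (-(m / 2 * u)) - 1)) + a
      + cexp (-(m * u)) * ((Q * Real.exp lam) ^ 2 * E) := by
  have h3 : (1 + l0 m : ℂ) ≠ 0 := by exact_mod_cast (by linarith [(l0_bd hm).1] : 1 + l0 m ≠ 0)
  have h4 : (m : ℂ) ≠ 0 := by exact_mod_cast hm.ne'
  have h5 : (Q : ℂ) ≠ 0 := by exact_mod_cast hQ.ne'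
  have h6 : ((Real.exp lam : ℝ) : ℂ) ≠ 0 := by exact_mod_cast (Real.exp_pos lam).ne'
  have e2 : (Q : ℂ) ^ 2 * (m * (1 + l0 m)) * θ * Real.exp lam = ε * Q + τ * Real.exp lam := by
    rw [hθ, th, Real.exp_neg]; push_cast at h6 ⊢; field_simp
  have e3 : cexp (-(m * u)) * cexp (m / 2 * u) = cexp (-(m / 2 * u)) := by
    rw [← Complex.exp_add]; congr 1; ring
  have e4 : cexp (-(m * u)) * cexp (m * u) = 1 := by rw [← Complex.exp_add]; simp
  have e5 := E2_eq (-(m * u))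
  have e6 := uu_eq (l0 m) θ
  rw [← hu] at e6
  rw [sF]
  generalize ((Real.exp lam : ℝ) : ℂ) = x at *
  generalize cexp (-(m / 2 * u)) = A at *
  generalize cexp (m / 2 * u) = B at *
  field_simp
  linear_combination (I * ε * Q * x) * e3 + a * e4 + (Q * x) ^ 2 * e5
    - (Q * x) ^ 2 * m * e6 - I * x * e2

theorem sF_lim {m : ℕ} (hm : 0 < m) (ε a τ : ℝ) {lam : ℕ → ℝ} {ζ : ℝ}
    (hl : Tendsto (fun n => QQ n * lam n) atTop (𝓝 ζ)) {E : ℕ → ℂ}
    (hE : Tendsto (fun n => ((QQ n : ℂ) * Real.exp (lam n)) ^ 2 * E n) atTop (𝓝 0)) :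
    Tendsto (fun n => sF m ε a (QQ n) (lam n) (uu (l0 m) (th m ε (QQ n) (lam n) τ)) (E n)) atTop
      (𝓝 (((m * l0 m * tb m ε ^ 2 / 2 + a : ℝ) : ℂ) - I * τ)) := by
  have b1 := th_c (m := m) ε τ hl
  have b0 := small b1
  have c1 := uu_c hm ε τ hl
  have c0 := small c1
  have x1 : Tendsto (fun n => ((Real.exp (lam n) : ℝ) : ℂ)) atTop (𝓝 1) := by
    simpa using cT ((Real.continuous_exp.tendsto _).comp (lam_0 hl))
  have d0 := (c0.const_mul (m : ℂ)).neg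
  have d1 := (c0.const_mul (m / 2 : ℂ)).neg
  simp only [mul_zero, neg_zero] at d0 d1
  have g := (((((((c1.mul x1).const_mul (m : ℂ)).pow 2).mul (E2_tendsto d0)).add
    ((((b1.mul x1).pow 2).mul (E2_tendsto (by simpa using b0.const_mul I))).const_mul
      (m * l0 m : ℂ))).add ((((c1.mul x1).const_mul (-(m / 2) : ℂ)).mul
        ((d1.mul (E2_tendsto d1)).const_add 1)).const_mul (I * ε))).add_const (a : ℂ)).add
    (((Complex.continuous_exp.tendsto _).comp d0).mul hE)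
  have h4 : (m : ℂ) ≠ 0 := by exact_mod_cast hm.ne'
  refine ((g.sub ((x1.pow 2).const_mul (I * τ))).congr' ?_).trans (le_of_eq ?_)
  · filter_upwards [QQ_tendsto.eventually_gt_atTop 0] with n hn
    rw [eq_sub_of_add_eq (sF_eq hm ε a τ hn (lam n) (E n) rfl rfl), E2_eq (-(m / 2 * _))]
    simp only [Function.comp]
    ring
  · congr 1
    push_cast
    field_simp
    linear_combination (-(m : ℂ) ^ 0 * ε ^ 2) * (0 : ℂ) * I_sq

lemma sF_bd1 {m : ℕ} (hm : 0 < m) (ε a : ℝ) {Q lam τ θ : ℝ} {E : ℂ} (hQ : 1 ≤ Q)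
    (hθ : |θ| ≤ π) (hth : θ = th m ε Q lam τ) (hE : (Q * Real.exp lam) ^ 2 * ‖E‖ ≤ 1) :
    ‖sF m ε a Q lam (uu (l0 m) θ) E + I * Real.exp lam ^ 2 * τ‖ ≤
      (4 * m ^ 2 * Real.exp (8 * m) + Real.exp (8 * m) + |ε| * m * Real.exp (8 * m) + |a|
        + Real.exp (8 * m)) * (1 + (Q * Real.exp lam * |θ|) ^ 2) := by
  obtain ⟨k1, k2, k3⟩ := l0_bd hm
  have hm1 : (1 : ℝ) ≤ m := by exact_mod_cast hm
  rw [sF_eq hm ε a τ (by linarith : 0 < Q) lam E hth rfl]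
  have hu1 : ‖uu (l0 m) θ‖ ≤ 2 * |θ| := uu_le k1.le (by linarith)
  have hx := Real.exp_pos lam
  generalize uu (l0 m) θ = u at *
  generalize Real.exp lam = x at *
  have he1 : ∀ y, y ≤ 8 * (m : ℝ) → Real.exp y ≤ Real.exp (8 * m) := fun y h => Real.exp_le_exp.2 h
  have he0 := Real.exp_pos (8 * m)
  generalize Real.exp (8 * m) = e at *
  have hθ4 : |θ| ≤ 4 := hθ.trans Real.pi_le_four
  have ht0 := abs_nonneg θ
  have hmu : ‖(m : ℂ) * u‖ ≤ m * (2 * |θ|) := by rw [norm_mul, Complex.norm_natCast]; gcongr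
  have hmu2 : ‖-((m : ℂ) * u)‖ ≤ 8 * m := by rw [norm_neg]; nlinarith
  have hmu3 : ‖-((m : ℂ) / 2 * u)‖ ≤ m * |θ| := by
    rw [norm_neg, norm_mul, norm_div, Complex.norm_natCast]; norm_num; nlinarith
  have hQx : 0 < Q * x := by positivity
  have nQ : ‖(Q : ℂ) * (x : ℝ)‖ = Q * x := by
    rw [← ofReal_mul, norm_real, Real.norm_of_nonneg hQx.le]
  have t1 : ‖((Q : ℂ) * (x : ℝ) * (m * u)) ^ 2 * E2 (-(m * u))‖
      ≤ 4 * m ^ 2 * e * (Q * x * |θ|) ^ 2 := by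
    rw [norm_mul, norm_pow, norm_mul, nQ]
    calc _ ≤ (Q * x * (m * (2 * |θ|))) ^ 2 * e := by
          gcongr; exact (E2_le _).trans (he1 _ hmu2)
      _ = _ := by ring
  have t2 : ‖(m : ℂ) * l0 m * ((Q : ℂ) * (x : ℝ) * θ) ^ 2 * E2 (I * θ)‖
      ≤ e * (Q * x * |θ|) ^ 2 := by
    have h7 : ‖(m : ℂ) * l0 m‖ ≤ 1 := by
      rw [← ofReal_natCast, ← ofReal_mul, k3, norm_real]; norm_num
    rw [norm_mul, norm_mul, norm_pow, norm_mul _ (θ : ℂ), nQ, norm_real, Real.norm_eq_abs]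
    calc _ ≤ 1 * (Q * x * |θ|) ^ 2 * e := by
          gcongr
          refine (E2_le _).trans (he1 _ ?_)
          rw [norm_mul, norm_I, norm_real, Real.norm_eq_abs]; linarith
      _ = _ := by ring
  have t3 : ‖I * ε * ((Q : ℂ) * (x : ℝ) * (cexp (-(m / 2 * u)) - 1))‖
      ≤ |ε| * m * e * (Q * x * |θ|) := by
    rw [norm_mul, norm_mul, norm_mul _ (_ - 1), nQ, norm_I, one_mul, norm_real, Real.norm_eq_abs]
    calc _ ≤ |ε| * (Q * x * (m * |θ| * e)) := by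
          gcongr
          refine (exp_sub_le _).trans ?_
          gcongr
          exact he1 _ (by nlinarith)
      _ = _ := by ring
  have t5 : ‖cexp (-(m * u)) * (((Q : ℂ) * (x : ℝ)) ^ 2 * E)‖ ≤ e := by
    rw [norm_mul, norm_mul, norm_pow, nQ]
    calc _ ≤ e * 1 := by
          gcongr; exact (norm_exp_le_exp_norm _).trans (he1 _ hmu2)
      _ = _ := mul_one e
  have t6 : ‖(a : ℂ)‖ = |a| := by simp
  have hw0 : 0 ≤ Q * x * |θ| := by positivity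
  refine (norm_add_le_of_le (norm_add_le_of_le (norm_add_le_of_le (norm_add_le_of_le t1 t2) t3)
    t6.le) t5).trans ?_
  generalize Q * x * |θ| = w at *
  have t8 : |ε| * m * e * w ≤ |ε| * m * e * (1 + w ^ 2) := by
    gcongr; nlinarith [sq_nonneg (w - 1)]
  have : 0 ≤ (e + |a|) * w ^ 2 + 4 * m ^ 2 * e + e := by positivity
  linarith

lemma alg1 {C x y s t : ℝ} (hC : 0 < C) (hx : 1 / 2 ≤ x) (hy : 0 ≤ y) (hs : 1 ≤ s) (ht : 0 ≤ t)
    (h : x ^ 2 * t ≤ s + C * (1 + (x * y) ^ 2)) :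
    (s ^ 2)⁻¹ ≤ (1 + (4 + 4 * C) ^ 2) * (2 + y) ^ 4 * (1 + t ^ 2)⁻¹ := by
  have h7 : t ≤ (4 + 4 * C) * s * (2 + y) ^ 2 := by
    have h8 : x ^ 2 * t ≤ x ^ 2 * (4 * s + 4 * C * (1 + y ^ 2)) := by
      have : 1 ≤ 4 * x ^ 2 := by nlinarith
      have h9 : s ≤ 4 * x ^ 2 * s := by nlinarith
      have h10 : C ≤ 4 * x ^ 2 * C := by nlinarith
      have h11 : 0 ≤ C * (x * y) ^ 2 := by positivity
      nlinarith
    have h9 := le_of_mul_le_mul_left h8 (by positivity)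
    have h10 : 1 + y ^ 2 ≤ s * (2 + y) ^ 2 := by nlinarith
    have h11 : s ≤ s * (2 + y) ^ 2 := by nlinarith
    nlinarith
  have h8 : 1 ≤ s * (2 + y) ^ 2 := by nlinarith
  rw [← div_eq_mul_inv, le_div_iff₀ (by positivity), inv_mul_le_iff₀ (by positivity)]
  have h9 := pow_le_pow_left₀ ht h7 2
  nlinarith

lemma alg2 {C D F Q x y s t : ℝ} (hC : 0 < C) (hD : 0 ≤ D) (hF : 0 ≤ F) (hQ : 1 ≤ Q) (hx : 0 ≤ x)
    (hy : 0 ≤ y) (h5 : s ≤ x ^ 2 * t + C * (1 + (x * y) ^ 2)) (h6 : x * t ≤ Q * (D * (x * y) + F)) :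
    s ≤ (C + D + F) * Q * (1 + x) ^ 2 * (2 + y) ^ 2 := by
  have h7 : x ^ 2 * t ≤ (D + F) * (Q * (1 + x) ^ 2 * (2 + y) ^ 2) := by
    have h8 : x * (D * (x * y) + F) ≤ (D + F) * ((1 + x) ^ 2 * (2 + y) ^ 2) := by
      have a1 : x * (x * y) ≤ (1 + x) ^ 2 * (2 + y) ^ 2 := by
        rw [← mul_assoc, ← sq]; gcongr <;> nlinarith
      have a2 : x ≤ (1 + x) ^ 2 * (2 + y) ^ 2 := by
        have : 1 ≤ (2 + y) ^ 2 := by nlinarith
        nlinarith [sq_nonneg x]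
      nlinarith
    calc x ^ 2 * t = x * (x * t) := by ring
      _ ≤ x * (Q * (D * (x * y) + F)) := by gcongr
      _ = Q * (x * (D * (x * y) + F)) := by ring
      _ ≤ Q * ((D + F) * ((1 + x) ^ 2 * (2 + y) ^ 2)) := by gcongr
      _ = _ := by ring
  have h8 : 1 + (x * y) ^ 2 ≤ Q * (1 + x) ^ 2 * (2 + y) ^ 2 := by
    have a1 : 1 + (x * y) ^ 2 ≤ (1 + x) ^ 2 * (2 + y) ^ 2 := by
      rw [← mul_pow]; nlinarith [mul_nonneg hx hy]
    nlinarith [sq_nonneg ((1 + x) * (2 + y))]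
  nlinarith

theorem sF_bd {m : ℕ} (hm : 0 < m) (ε a b : ℝ) : ∃ C : ℝ, 0 < C ∧ ∀ (Q lam τ θ : ℝ) (E s : ℂ),
    1 ≤ Q → 1 / 2 ≤ Real.exp lam → |θ| ≤ π → θ = th m ε Q lam τ →
    (Q * Real.exp lam) ^ 2 * ‖E‖ ≤ 1 → s = b + sF m ε a Q lam (uu (l0 m) θ) E → 1 ≤ ‖s‖ →
    (‖s‖ ^ 2)⁻¹ ≤ C * (2 + |Q * θ|) ^ 4 * (1 + τ ^ 2)⁻¹ ∧
      ‖s‖ ≤ C * Q * (1 + Real.exp lam) ^ 2 * (2 + |Q * θ|) ^ 2 := by
  obtain ⟨k1, k2, k3⟩ := l0_bd hm
  have hm1 : (1 : ℝ) ≤ m := by exact_mod_cast hm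
  obtain ⟨C₀, hC0, hC⟩ : ∃ C₀ : ℝ, 0 < C₀ ∧ C₀ = 4 * m ^ 2 * Real.exp (8 * m) + Real.exp (8 * m)
    + |ε| * m * Real.exp (8 * m) + |a| + Real.exp (8 * m) := ⟨_, by positivity, rfl⟩
  have hb := abs_nonneg b
  refine ⟨1 + (4 + 4 * (C₀ + |b|)) ^ 2 + (C₀ + |b| + 2 * m + |ε|), by positivity,
    fun Q lam τ θ E s hQ hx hθ hth hE hs h1 => ?_⟩
  have key := sF_bd1 hm ε a hQ hθ hth hE
  rw [← hC] at key
  have e2 : Real.exp lam * τ = Q * ((m * (1 + l0 m)) * (Q * Real.exp lam * θ) - ε) := by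
    rw [hth, th, Real.exp_neg]; field_simp; ring
  generalize sF m ε a Q lam (uu (l0 m) θ) E = S at *
  generalize Real.exp lam = x at *
  have hw2 : Q * x * |θ| = x * |Q * θ| := by
    rw [abs_mul, abs_of_pos (show 0 < Q by linarith)]; ring
  have h2 : ‖s + I * (x : ℝ) ^ 2 * τ‖ ≤ (C₀ + |b|) * (1 + (x * |Q * θ|) ^ 2) := by
    rw [hs, add_assoc, ← hw2]
    refine (norm_add_le_of_le (by simp : ‖(b : ℂ)‖ ≤ |b|) key).trans ?_
    nlinarith [mul_nonneg hb (sq_nonneg (Q * x * |θ|))]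
  have h3 : ‖I * ((x : ℝ) : ℂ) ^ 2 * τ‖ = x ^ 2 * |τ| := by
    simp [abs_of_pos (show 0 < x by linarith)]
  have h4 : x ^ 2 * |τ| ≤ ‖s‖ + (C₀ + |b|) * (1 + (x * |Q * θ|) ^ 2) := by
    have := norm_sub_le (s + I * (x : ℝ) ^ 2 * τ) s
    rw [add_sub_cancel_left, h3] at this; linarith
  have h5 : ‖s‖ ≤ x ^ 2 * |τ| + (C₀ + |b|) * (1 + (x * |Q * θ|) ^ 2) := by
    have := norm_sub_le (s + I * (x : ℝ) ^ 2 * τ) (I * (x : ℝ) ^ 2 * τ)
    rw [add_sub_cancel_right, h3] at this; linarith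
  have h6 : x * |τ| ≤ Q * (2 * m * (x * |Q * θ|) + |ε|) := by
    rw [← hw2]
    nth_rw 1 [← abs_of_pos (show 0 < x by linarith)]
    rw [← abs_mul, e2, abs_mul, abs_of_pos (show 0 < Q by linarith)]
    gcongr
    refine (abs_sub _ _).trans ?_
    rw [abs_mul, abs_mul (Q * x), abs_of_pos (show 0 < Q * x by positivity),
      abs_of_pos (show 0 < m * (1 + l0 m) by positivity)]
    have : m * (1 + l0 m) ≤ 2 * m := by nlinarith
    gcongr
  have hy := abs_nonneg (Q * θ)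
  constructor
  · refine (alg1 (by positivity) hx hy h1 (abs_nonneg τ) h4).trans ?_
    rw [sq_abs]
    exact mul_le_mul_of_nonneg_right (mul_le_mul_of_nonneg_right
      (le_add_of_nonneg_right (by positivity)) (by positivity)) (by positivity)
  · refine (alg2 (by positivity) (by positivity) (abs_nonneg ε) hQ (by linarith) hy h5 h6).trans ?_
    exact mul_le_mul_of_nonneg_right (mul_le_mul_of_nonneg_right (mul_le_mul_of_nonneg_right
      (le_add_of_nonneg_left (by positivity)) (by positivity)) (by positivity)) (by positivity)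

end Vale.Agent.P218S
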