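import Vale.Agent.P218S.Inner

/-! Inactive ends, boundary terms and the derivative along the path. -/

namespace Vale.Agent.P218S

open Filter Topology MeasureTheory Complex Real

variable {E : Type*} [NormedAddCommGroup E] [NormedSpace ℂ E] {ι : Type*} [Fintype ι]

lemma abs_two_pi : |π - -π| = 2 * π := by rw [abs_of_pos (by linarith [pi_pos])]; ring

lemma alg4 {Q y D K j e₁ e₃ W h η : ℝ} {p : ℕ} (hD : 0 ≤ D) (hQ : 0 ≤ Q) (hy : 58 / 100 * Q ≤ y) (h4 : 4 ≤ y)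
    (hK : 0 ≤ K) (hj : 0 ≤ j) (h1 : 0 < e₁) (h3 : 0 < e₃) (hW : W = √2 * y + h) (h0 : 0 ≤ h)
    (hh : h * y = 2 * (p + 4 : ℕ) * Real.log y) (d1 : D ≤ (√2 * y) ^ p * Real.exp (-W ^ 2 / 4))
    (c3 : K ≤ Real.exp 1 * e₁) (j1 : j ≤ 2)
    (hη : 2 ^ (p + 3) * Real.exp 1 * e₃ * 2 * (2 * π) * y⁻¹ ≤ η) :
    Real.exp ((√2 * y) ^ 2 / 4) * (√2 * y) ^ 2 * e₃ * Q * (D * (K * j)) * (2 * π) ≤ η * e₁ := by
  obtain ⟨s1, s2⟩ := sq2_bd
  have hy0 : 0 < y := by linarith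
  have l0 := Real.log_nonneg (show 1 ≤ y by linarith)
  have d2 : Real.exp ((√2 * y) ^ 2 / 4) * Real.exp (-W ^ 2 / 4) ≤ (y ^ (p + 4))⁻¹ := by
    rw [← Real.exp_add, ← Real.exp_log (show 0 < y ^ (p + 4) by positivity), ← Real.exp_neg,
      Real.log_pow, hW]
    refine Real.exp_le_exp.2 ?_
    have : 1 * (h * y) ≤ √2 * (h * y) := by gcongr; linarith
    nlinarith [sq_nonneg h]
  have z : √2 * y ≤ 2 * y := by gcongr; linarith
  have := pi_pos
  calc _ ≤ Real.exp ((√2 * y) ^ 2 / 4) * (2 * y) ^ 2 * e₃ * (2 * y) *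
        ((2 * y) ^ p * Real.exp (-W ^ 2 / 4) * (Real.exp 1 * e₁ * 2)) * (2 * π) := by
        gcongr
        · linarith
        · exact d1.trans (by gcongr)
    _ = (2 * y) ^ (p + 3) * Real.exp 1 * e₃ * 2 * (2 * π) * e₁ *
        (Real.exp ((√2 * y) ^ 2 / 4) * Real.exp (-W ^ 2 / 4)) := by ring
    _ ≤ (2 * y) ^ (p + 3) * Real.exp 1 * e₃ * 2 * (2 * π) * e₁ * (y ^ (p + 4))⁻¹ := by gcongr
    _ = 2 ^ (p + 3) * Real.exp 1 * e₃ * 2 * (2 * π) * y⁻¹ * e₁ := by field_simp; ring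
    _ ≤ _ := by gcongr

namespace Dat

variable (X : Dat E ι)

lemma hol₀ : ∀ᶠ y : ℝ in atTop,
    DifferentiableOn ℂ (X.F.f (X.W y)) (Dom X.c X.κ X.ν X.F.r (X.W y)) ∧
      ∀ x ∈ Dom X.c X.κ X.ν X.F.r (X.W y), ‖X.F.f (X.W y) x‖ ≤ Real.exp (√2 * y) ∧
      ∀ j, ‖X.F.D j (X.W y) x‖ ≤ (√2 * y) ^ X.F.p * Real.exp (-(X.W y j) ^ 2 / 4) := by
  filter_upwards [(tendsto_id.const_mul_atTop (show 0 < √2 by positivity)).eventually X.F.hol,
    X.W_cut] with y h1 h2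
  exact ⟨(h1 _ h2).1, fun x hx => ⟨((h1 _ h2).2 x hx).1, ((h1 _ h2).2 x hx).2.2⟩⟩

theorem JJ_off {l : ι} (hl : l ∉ X.A) {b : ℝ} (hb : X.Ad b) {η : ℝ} (hη : 0 < η) :
    ∀ᶠ y : ℝ in atTop, ∀ n, 1 ≤ n → 58 / 100 * QQ n ≤ y →
      ‖X.JJ l b n y‖ ≤ η * GZ (2 * X.F.p + 1) (y - QQ n) := by
  obtain ⟨C₀, h0⟩ := X.pt_mem hb
  have h1 := tendsto_inv_atTop_zero.const_mul
    (2 ^ (X.F.p + 3) * Real.exp 1 * Real.exp (b / 2) * 2 * (2 * π))
  rw [mul_zero] at h1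
  filter_upwards [h0, X.hol₀, vv_ev b one_pos, hh_ev (X.F.p + 4), h1.eventually (ge_mem_nhds hη)]
    with y h0 ⟨_, h2⟩ ⟨b1, b2, b3⟩ ⟨c1, _⟩ h3 n hn hy
  have hQ := QQ_nonneg n
  have key : ‖X.JJ l b n y‖ ≤ η * Real.exp (-(1 / 16 * (y - QQ n) ^ 2)) / (2 * π) * |π - -π| := by
    rw [JJ, ← intervalIntegral.integral_const_mul]
    refine intervalIntegral.norm_integral_le_of_norm_le_const fun θ hθ => ?_
    rw [Set.uIoc_of_le (by linarith [pi_pos])] at hθ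
    obtain ⟨-, -, k3⟩ := K_bd X.arc.pos hn hy b2 b3 (abs_le.2 ⟨hθ.1.le, hθ.2⟩)
    rw [le_div_iff₀ (by positivity), norm_mul, norm_real, Real.norm_of_nonneg (by positivity),
      nrm_eq hn (by linarith) (lt_of_lt_of_le (by positivity) b2), gg, norm_mul, norm_mul]
    refine le_of_eq_of_le (by ring) (alg4 (h := hh (X.F.p + 4) y) (norm_nonneg _) hQ hy b1 (by positivity)
      (norm_nonneg _) (Real.exp_pos _) (Real.exp_pos _) (by simp [W, WW, hl]) c1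
      (by rw [hh]; field_simp) ((h2 _ (h0 n hn hy θ).1).2 l) (k3.trans (mul_le_of_le_one_right
        (by positivity) (Real.exp_le_one_iff.2 (neg_nonpos.2 (by positivity)))))
      (jj_le X.arc.pos θ) h3)
  rw [abs_two_pi, div_mul_cancel₀ _ (by positivity)] at key
  refine key.trans (mul_le_mul_of_nonneg_left (le_mul_of_one_le_left (Real.exp_pos _).le
    (one_le_pow₀ (by linarith [abs_nonneg (y - QQ n)]))) hη.le)

theorem start {b : ℝ} (hb : X.Ad b) : Tendsto (fun n : ℕ =>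
    ((Real.exp (64 * n) * QQ n : ℝ) : ℂ) * X.Phi n (X.W (58 / 100 * QQ n))) atTop (𝓝 0) := by
  have hy := QQ_tendsto.const_mul_atTop (show (0 : ℝ) < 58 / 100 by norm_num)
  have h1 := ((Real.tendsto_pow_mul_exp_neg_atTop_nhds_zero 1).comp QQ_tendsto).const_mul (4 * π)
  rw [mul_zero] at h1
  refine squeeze_zero_norm' ?_ h1
  filter_upwards [hy.eventually (hb _ X.F.r_pos (X.F.p + 4)), hy.eventually X.hol₀,
    hy.eventually (vv_ev b one_pos), eventually_ge_atTop 1, QQ_tendsto.eventually_ge_atTop 400]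
    with n h2 ⟨h3, h4⟩ ⟨b1, b2, b3⟩ hn hQ
  have hv : 0 < vv b (58 / 100 * QQ n) := lt_of_lt_of_le (by positivity) b2
  have t2 := (h2 _ (ok_of X.arc.pos hn le_rfl b2) (X.W (58 / 100 * QQ n)) fun l => by
    simp only [W, sub_self, abs_zero]; positivity).2
  have hd := XX_diff X.γ (32 * X.m * n + n) X.geo.diff
  have ha : (rr X.m (vv b (58 / 100 * QQ n)) : ℂ) * X.ω ≠ 0 := mul_ne_zero
    (by exact_mod_cast (rr_pos _ _).ne') (norm_pos_iff.1 (by rw [X.geo.om]; norm_num))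
  have k1 := (K_bd X.arc.pos hn le_rfl b2 b3 (θ := 0) (by simp [pi_pos.le])).1
  have k2 : Real.exp (lm b n (58 / 100 * QQ n)) ^ 2 ≤ 34 / 100 := by
    have k3 : Real.exp (lm b n (58 / 100 * QQ n)) ≤ 583 / 1000 :=
      le_of_mul_le_mul_left (by rw [exp_lm hn hv]; linarith) (show 0 < QQ n by linarith)
    nlinarith
  have key : ‖X.Phi n (X.W (58 / 100 * QQ n))‖
      ≤ Real.exp (QQ n) * (Real.exp (-(66 * n)) * 2) * |π - -π| := by
    rw [Phi, Lam_eq ((Dom_open _ _ _ _ _).preimage hd.continuous) ha (fun z hz => (t2 z hz).1) _ _ _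
      (h3.fun_comp hd.differentiableOn fun _ h => h)]
    refine intervalIntegral.norm_integral_le_of_norm_le_const fun θ _ => ?_
    have t3 := (h4 _ (t2 _ (norm_eI θ).le).1).1
    rw [sg_exp] at t3
    rw [wt_eq X.m hn hv X.geo.om, norm_mul, norm_mul]
    gcongr
    · exact t3.trans (Real.exp_le_exp.2 (by nlinarith [sq2_bd.2]))
    · exact kk_start X.arc.pos n θ k1 k2
    · exact jj_le X.arc.pos θ
  rw [abs_two_pi] at key
  rw [norm_mul, norm_real, Real.norm_of_nonneg (by positivity)]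
  have k4 : Real.exp (64 * n) * Real.exp (QQ n) * Real.exp (-(66 * n)) ≤ Real.exp (-QQ n) := by
    rw [← Real.exp_add, ← Real.exp_add]
    exact Real.exp_le_exp.2 (by nlinarith [QQ_sq n])
  have := pi_pos
  calc _ ≤ Real.exp (64 * n) * QQ n * (Real.exp (QQ n) * (Real.exp (-(66 * n)) * 2) * (2 * π)) := by
        gcongr
    _ = 4 * π * (QQ n * (Real.exp (64 * n) * Real.exp (QQ n) * Real.exp (-(66 * n)))) := by ring
    _ ≤ _ := by simp only [Function.comp, pow_one]; gcongr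

theorem fin (hS : Stat X.F.f X.γ) {n : ℕ} (hn : 1 ≤ n) :
    Tendsto (fun y => X.Phi n (X.W y)) atTop (𝓝 0) := by
  have hm := X.arc.pos
  have hq := X.geo.diff
  have hN : n < 64 * X.m * n := by nlinarith
  obtain ⟨C, k, hC⟩ := Lam_comp (u := fun ξ => cexp (X.q ξ))
    (Differentiable.analyticAt (by fun_prop) 0) (rr X.m (QQ n ^ 2) * X.ω)
    (Nat.sub_pos_of_lt hN) (2 * n)
  refine Metric.tendsto_nhds.2 fun η hη => ?_
  obtain ⟨ε, e0, -, e1⟩ := (ev_small C (half_pos hη)).exists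
  have h1 : ∀ᶠ Z : ℝ in atTop, ∀ i ∈ Finset.Icc 1 (2 * (32 * X.m * n + n) + 1),
      ∀ W ∈ (Cut Z : Set (ι → ℝ)),
        ‖iteratedDeriv i (fun t => X.F.f W (P218S.arc X.γ (32 * X.m * n + n) t)) 0‖ ≤ ε :=
    (eventually_all_finset _).2 fun i hi =>
      hS _ i (Finset.mem_Icc.1 hi).1 (Finset.mem_Icc.1 hi).2 ε e0
  filter_upwards [(tendsto_id.const_mul_atTop (show 0 < √2 by positivity)).eventually h1,
    X.W_cut, X.hol₀] with y h2 h3 ⟨h4, _⟩
  have hd := arc_diff X.γ (32 * X.m * n + n)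
  have h0 : P218S.arc X.γ (32 * X.m * n + n) 0 ∈ Dom X.c X.κ X.ν X.F.r (X.W y) := by
    have : P218S.arc X.γ (32 * X.m * n + n) 0 = 0 := by
      rw [X.arc.arc_eq]
      exact Finset.sum_eq_zero fun i hi => by
        rw [zero_pow (by have := (Finset.mem_Ico.1 hi).1; omega), zero_smul]
    rw [this]
    exact ⟨by simpa using X.F.r_pos, fun l => by simp; norm_num⟩
  have h5 := hC (fun t => X.F.f (X.W y) (P218S.arc X.γ (32 * X.m * n + n) t)) ε
    ((h4.comp hd.differentiableOn fun _ h => h).analyticAt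
      (((Dom_open _ _ _ _ _).preimage hd.continuous).mem_nhds h0))
    fun i a b => h2 i (Finset.mem_Icc.2 ⟨a, by
      have : 64 * X.m * n = 2 * (32 * X.m * n) := by ring
      omega⟩) _ h3
  rw [dist_zero_right]
  exact h5.trans_lt (by linarith)

theorem deriv_eq {b : ℝ} (hb : X.Ad b) {bs : ι → ℝ} (hs : ∀ l, X.Ad (bs l)) :
    ∀ᶠ y : ℝ in atTop, ∀ n, 1 ≤ n → 58 / 100 * QQ n ≤ y →
      HasDerivAt (fun s => ((Real.exp (64 * n) * QQ n : ℝ) : ℂ) * X.Phi n (X.W s))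
        (∑ l, Wd X.A (X.F.p + 4) y l * X.JJ l (bs l) n y) y := by
  filter_upwards [X.path hb, eventually_all.2 fun l => X.path (hs l)] with y h1 h2 n hn hy
  refine ((h1 n hn hy).2.const_mul _).congr_deriv ?_
  rw [Finset.mul_sum]
  refine Finset.sum_congr rfl fun l _ => ?_
  rw [JJ, ((h1 n hn hy).1 l).2.unique ((h2 l n hn hy).1 l).2]
  ring

end Dat

end Vale.Agent.P218S
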