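import Vale.Agent.P218S.Lim
import Vale.Agent.P218S.Geo2

/-! Parameters of the contour and of the path of cut heights. -/

namespace Vale.Agent.P218S

open Filter Topology Complex Real

/-- Level of the contour. -/
noncomputable def vv (b y : ℝ) : ℝ := tipv b (√2 * y)

/-- Radius of the contour. -/
noncomputable def rr (m : ℕ) (v : ℝ) : ℝ := Real.exp (-(Real.log v / m))

/-- Logarithmic distance to the saddle. -/
noncomputable def lm (b : ℝ) (n : ℕ) (y : ℝ) : ℝ := Real.log (√(vv b y) / QQ n)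

/-- Extra height of the inactive ends. -/
noncomputable def hh (k : ℕ) (y : ℝ) : ℝ := 2 * k * (Real.log y / y)

/-- Its derivative. -/
noncomputable def hd (k : ℕ) (y : ℝ) : ℝ := 2 * k * ((1 - Real.log y) / y ^ 2)

lemma sq2 : √2 ^ 2 = 2 := Real.sq_sqrt (by norm_num)

lemma sq2_bd : 7 / 5 ≤ √2 ∧ √2 ≤ 3 / 2 :=
  ⟨Real.le_sqrt_of_sq_le (by norm_num), Real.sqrt_le_iff.2 (by norm_num)⟩

lemma vv_eq (b y : ℝ) : vv b y = y ^ 2 + 2 * Real.log (2 * y ^ 2) + b := by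
  rw [vv, tipv, mul_pow, sq2]; ring

lemma log_div : Tendsto (fun y : ℝ => Real.log y / y) atTop (𝓝 0) := by
  simpa using Real.tendsto_pow_log_div_mul_add_atTop 1 0 1 one_ne_zero

lemma vv_ev (b : ℝ) {η : ℝ} (hη : 0 < η) :
    ∀ᶠ y : ℝ in atTop, 4 ≤ y ∧ y ^ 2 ≤ vv b y ∧ √(vv b y) ≤ y + η := by
  have h1 := (log_div.const_mul 4).add (tendsto_inv_atTop_zero.const_mul (2 * Real.log 2 + b))
  simp only [mul_zero, add_zero] at h1
  filter_upwards [eventually_ge_atTop 4, h1.eventually (ge_mem_nhds hη),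
    Real.tendsto_log_atTop.eventually_ge_atTop (|b| / 4)] with y h2 h3 h4
  have e : vv b y = y ^ 2 + (4 * Real.log y + (2 * Real.log 2 + b)) := by
    rw [vv_eq, Real.log_mul two_ne_zero (by positivity), Real.log_pow]; push_cast; ring
  have h5 : 4 * Real.log y + (2 * Real.log 2 + b) ≤ η * y := by
    rw [← div_le_iff₀ (by linarith)]
    refine le_of_eq_of_le ?_ h3
    field_simp
  have h6 := Real.log_pos one_lt_two
  refine ⟨h2, by rw [e]; linarith [neg_abs_le b], Real.sqrt_le_iff.2 ⟨by linarith, ?_⟩⟩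
  rw [e]; nlinarith

lemma rr_pos (m : ℕ) (v : ℝ) : 0 < rr m v := Real.exp_pos _

lemma rr_pow {m : ℕ} (hm : 0 < m) {v : ℝ} (hv : 0 < v) : v * rr m v ^ m = 1 := by
  have : (m : ℝ) ≠ 0 := by exact_mod_cast hm.ne'
  rw [rr, ← Real.exp_nat_mul, show m * -(Real.log v / m) = -Real.log v by field_simp,
    Real.exp_neg, Real.exp_log hv, mul_inv_cancel₀ hv.ne']

lemma rr_log {m : ℕ} (hm : 0 < m) (b : ℝ) :
    Tendsto (fun y => rr m (vv b y) * (1 + Real.log y)) atTop (𝓝 0) := by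
  have hm' : (0 : ℝ) < m := by exact_mod_cast hm
  have h1 := (Real.tendsto_pow_mul_exp_neg_atTop_nhds_zero 1).comp
    (Real.tendsto_log_atTop.atTop_div_const hm')
  have h2 := h1.const_mul (2 * m : ℝ)
  rw [mul_zero] at h2
  refine squeeze_zero' ?_ ?_ h2
  · filter_upwards [eventually_ge_atTop 1] with y hy
    have := Real.log_nonneg hy
    have := rr_pos m (vv b y)
    positivity
  · filter_upwards [vv_ev b one_pos, Real.tendsto_log_atTop.eventually_ge_atTop 1]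
      with y ⟨h3, h4, _⟩ h5
    have h6 : Real.log y ≤ Real.log (vv b y) := Real.log_le_log (by linarith) (by nlinarith)
    have h7 : rr m (vv b y) ≤ Real.exp (-(Real.log y / m)) :=
      Real.exp_le_exp.2 (neg_le_neg (by gcongr))
    calc _ ≤ Real.exp (-(Real.log y / m)) * (2 * Real.log y) := by gcongr; linarith
      _ = _ := by simp only [Function.comp]; field_simp

lemma rr_zero {m : ℕ} (hm : 0 < m) (b : ℝ) : Tendsto (fun y => rr m (vv b y)) atTop (𝓝 0) := by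
  refine squeeze_zero' (Eventually.of_forall fun y => (rr_pos _ _).le) ?_ (rr_log hm b)
  filter_upwards [eventually_ge_atTop 1] with y hy
  exact le_mul_of_one_le_right (rr_pos _ _).le (by linarith [Real.log_nonneg hy])

lemma rr_tend {m : ℕ} (hm : 0 < m) (b : ℝ) :
    Tendsto (fun y => rr m (vv b y)) atTop (𝓝[>] 0) :=
  tendsto_nhdsWithin_iff.2 ⟨rr_zero hm b, Eventually.of_forall fun _ => rr_pos _ _⟩

lemma QQ_ge {n : ℕ} (hn : 1 ≤ n) : 1 ≤ QQ n := by
  have : (1 : ℝ) ≤ n := by exact_mod_cast hn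
  exact Real.le_sqrt_of_sq_le (by linarith)

lemma exp_lm {b y : ℝ} {n : ℕ} (hn : 1 ≤ n) (hv : 0 < vv b y) :
    QQ n * Real.exp (lm b n y) = √(vv b y) := by
  have := QQ_ge hn
  rw [lm, Real.exp_log (by positivity)]; field_simp

lemma wt_eq (m : ℕ) {b y : ℝ} {n : ℕ} (hn : 1 ≤ n) (hv : 0 < vv b y) {ω : ℂ}
    (hω : ‖ω‖ = 1) (θ : ℝ) :
    wt (rr m (QQ n ^ 2) * ω) (64 * m * n - n) (2 * n) (l0 m) (rr m (vv b y) * ω) θ
      = kk m n (lm b n y) θ * jj (l0 m) θ := by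
  have h1 := QQ_ge hn
  have h2 : ω ≠ 0 := norm_pos_iff.1 (by rw [hω]; norm_num)
  have h3 : rr m (QQ n ^ 2) = rr m (vv b y) * Real.exp (2 / m * lm b n y) := by
    rw [rr, rr, ← Real.exp_add, lm, Real.log_div (by positivity) (by positivity),
      Real.log_sqrt hv.le, Real.log_pow]
    congr 1; push_cast; ring
  have h4 : ((rr m (vv b y) : ℝ) : ℂ) ≠ 0 := by exact_mod_cast (rr_pos _ _).ne'
  have h5 := Complex.exp_ne_zero (uu (l0 m) θ)
  rw [wt, kk, yy, Complex.exp_sub, h3, ← ofReal_exp]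
  congr 2
  push_cast
  field_simp

lemma ok_of {m : ℕ} (hm : 0 < m) {n : ℕ} (hn : 1 ≤ n) {y v : ℝ} (hy : 58 / 100 * QQ n ≤ y)
    (hv : y ^ 2 ≤ v) : OK m (32 * m * n + n) (rr m v) := by
  have h1 := QQ_ge hn
  have h2 := QQ_sq n
  have hm1 : (1 : ℝ) ≤ m := by exact_mod_cast hm
  have hn0 : (0 : ℝ) ≤ n := Nat.cast_nonneg n
  have h3 : 43 * n ≤ v := by nlinarith
  have h4 : 0 < v := by nlinarith
  refine ⟨by nlinarith, le_of_mul_le_mul_left ?_ h4⟩
  rw [mul_left_comm, rr_pow hm h4]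
  push_cast
  nlinarith

lemma hh_ev (k : ℕ) : ∀ᶠ y : ℝ in atTop, 0 ≤ hh k y ∧ hh k y ≤ 1 / 2 ∧ |hd k y| ≤ 1 ∧
    HasDerivAt (hh k) (hd k y) y := by
  have h1 := log_div.const_mul (2 * k : ℝ)
  have h2 := tendsto_inv_atTop_zero.const_mul (2 * k : ℝ)
  rw [mul_zero] at h1 h2
  filter_upwards [eventually_ge_atTop 1, h1.eventually (ge_mem_nhds one_half_pos),
    h2.eventually (ge_mem_nhds one_half_pos)] with y h3 h4 h5
  have h6 := Real.log_nonneg h3
  refine ⟨by unfold hh; positivity, h4, ?_, ?_⟩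
  · have e : hd k y = (2 * k * y⁻¹ - 2 * k * (Real.log y / y)) * y⁻¹ := by
      rw [hd]; field_simp
    have h7 : 0 ≤ 2 * k * y⁻¹ := by positivity
    have h8 : 0 ≤ 2 * k * (Real.log y / y) := by positivity
    rw [e, abs_mul, abs_of_nonneg (show 0 ≤ y⁻¹ by positivity)]
    exact mul_le_one₀ (abs_le.2 ⟨by linarith, by linarith⟩) (by positivity) (inv_le_one_of_one_le₀ h3)
  · have h7 : y ≠ 0 := by positivity
    refine (((Real.hasDerivAt_log h7).div (hasDerivAt_id y) h7).const_mul (2 * k : ℝ)).congr_deriv ?_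
    rw [hd]; simp only [id]; field_simp

lemma tip_diff (κ : ℝ) {y h W : ℝ} (hy : 4 ≤ y) (h0 : 0 ≤ h) (h1 : h ≤ 1 / 2)
    (hW : |W - (√2 * y + h)| ≤ y⁻¹) : |tipv κ W - tipv κ (√2 * y)| ≤ 2 * (h * y) + 8 ∧
      W ∈ Set.Icc (√2 * y - 1 / 4) (√2 * y - 1 / 4 + 1) := by
  obtain ⟨s1, s2⟩ := sq2_bd
  have h2 : y⁻¹ ≤ 1 / 4 := by rw [one_div]; exact inv_anti₀ (by norm_num) hy
  have h3 : y⁻¹ * y = 1 := inv_mul_cancel₀ (by positivity)
  obtain ⟨a, b⟩ := abs_le.1 hW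
  refine ⟨?_, by linarith, by linarith⟩
  have hZ1 : 7 / 5 * y ≤ √2 * y := by gcongr
  have hZ2 : √2 * y ≤ 3 / 2 * y := by gcongr
  generalize √2 * y = Z at *
  have hW0 : 0 < W := by linarith
  have hZ0 : 0 < Z := by linarith
  have e : tipv κ W - tipv κ Z = (W - Z) * Z + (W - Z) ^ 2 / 2 + 4 * Real.log (W / Z) := by
    rw [tipv, tipv, Real.log_pow, Real.log_pow, Real.log_div hW0.ne' hZ0.ne']; push_cast; ring
  have l1 : Real.log (W / Z) ≤ 1 := by
    refine (Real.log_le_sub_one_of_pos (by positivity)).trans ?_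
    rw [sub_le_iff_le_add, div_le_iff₀ hZ0]; linarith
  have l2 : -1 ≤ Real.log (W / Z) := by
    refine le_trans ?_ (Real.one_sub_inv_le_log_of_pos (by positivity))
    rw [inv_div, le_sub_comm, div_le_iff₀ hW0]; linarith
  have hy0 : 0 ≤ y⁻¹ := by positivity
  have p1 : (W - Z) * Z ≤ (h + y⁻¹) * (3 / 2 * y) := by gcongr; linarith
  have p2 : (Z - W) * Z ≤ y⁻¹ * (3 / 2 * y) := by gcongr; linarith
  have p3 : (W - Z) ^ 2 ≤ 1 := by nlinarith
  have p4 : 0 ≤ h * y := by positivity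
  rw [e, abs_le]
  constructor <;> nlinarith [sq_nonneg (W - Z)]

lemma ev_nhds {P : ℝ → Prop} (h : ∀ᶠ y in atTop, P y) : ∀ᶠ y in atTop, ∀ᶠ y' in 𝓝 y, P y' := by
  obtain ⟨a, ha⟩ := eventually_atTop.1 h
  filter_upwards [eventually_gt_atTop a] with y hy
  filter_upwards [lt_mem_nhds hy] with y' h' using ha y' h'.le

lemma lm_lim (b ζ : ℝ) : Tendsto (fun n => QQ n * lm b n (QQ n + ζ)) atTop (𝓝 ζ) := by
  have hy := tendsto_atTop_add_const_right atTop ζ QQ_tendsto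
  have h1 : Tendsto (fun n => √(vv b (QQ n + ζ)) - QQ n) atTop (𝓝 ζ) := by
    refine Metric.tendsto_nhds.2 fun η hη => ?_
    filter_upwards [hy.eventually (vv_ev b (half_pos hη))] with n ⟨a1, a2, a3⟩
    have := Real.le_sqrt_of_sq_le a2
    rw [Real.dist_eq, abs_lt]; constructor <;> linarith
  have h2 : Tendsto (fun n => QQ n / √(vv b (QQ n + ζ))) atTop (𝓝 1) := by
    have := ((h1.mul QQ_tendsto.inv_tendsto_atTop).const_add 1).inv₀ (by norm_num)
    simp only [mul_zero, add_zero, inv_one] at this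
    refine this.congr' ?_
    filter_upwards [QQ_tendsto.eventually_gt_atTop 0] with n hn
    rw [Pi.inv_apply, ← inv_div]; congr 1; field_simp; ring
  refine tendsto_of_tendsto_of_tendsto_of_le_of_le' (by simpa using h1.mul h2) h1 ?_ ?_ <;>
    filter_upwards [hy.eventually (vv_ev b one_pos), QQ_tendsto.eventually_gt_atTop 0]
      with n ⟨a1, a2, _⟩ hn <;>
    have h3 : 0 < √(vv b (QQ n + ζ)) := Real.sqrt_pos.2 (by nlinarith)
  · refine le_of_eq_of_le ?_ (mul_le_mul_of_nonneg_left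
      (Real.one_sub_inv_le_log_of_pos (by positivity)) hn.le)
    field_simp
  · refine (mul_le_mul_of_nonneg_left (Real.log_le_sub_one_of_pos (by positivity)) hn.le).trans
      (le_of_eq ?_)
    field_simp

lemma phases' {ι : Type*} [Fintype ι] (β : ι → ℝ) {δ : ℝ} (hδ : 0 < δ) :
    ∃ᶠ n in atTop, ∀ j, ‖cexp (I * (β j * QQ n : ℝ)) - 1‖ ≤ δ := by
  rw [frequently_atTop]
  intro a
  obtain ⟨B, hB⟩ : ∃ B : ℝ, ∀ j, |β j| ≤ B := (Finite.bddAbove_range fun j => |β j|).imp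
    fun B h j => h ⟨j, rfl⟩
  obtain ⟨N, hN⟩ := exists_nat_ge (max (128 * (a + 1 : ℝ)) (256 * |B| / δ))
  obtain ⟨s, hs, h⟩ := recur β (half_pos hδ) N
  have hs1 : 128 * (a + 1 : ℝ) ≤ s := (le_max_left _ _).trans (hN.trans (by exact_mod_cast hs))
  have hs2 : 256 * |B| / δ ≤ s := (le_max_right _ _).trans (hN.trans (by exact_mod_cast hs))
  rw [div_le_iff₀ hδ] at hs2
  have ha : (0 : ℝ) ≤ a := Nat.cast_nonneg a
  have hs0 : (128 : ℝ) ≤ s := by linarith
  have hd1 : ((s ^ 2 / 128 : ℕ) : ℝ) * 128 ≤ (s : ℝ) ^ 2 := by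
    exact_mod_cast Nat.div_mul_le_self (s ^ 2) 128
  have hd2 : (s : ℝ) ^ 2 < ((s ^ 2 / 128 : ℕ) : ℝ) * 128 + 128 := by
    have := Nat.lt_div_mul_add (a := s ^ 2) (b := 128) (by norm_num)
    exact_mod_cast this
  refine ⟨s ^ 2 / 128, ?_, fun j => ?_⟩
  · have : (a : ℝ) ≤ ((s ^ 2 / 128 : ℕ) : ℝ) := by nlinarith
    exact_mod_cast this
  · set Q := QQ (s ^ 2 / 128) with hQ
    have hQ2 : Q ^ 2 = 128 * ((s ^ 2 / 128 : ℕ) : ℝ) := QQ_sq _
    have hQ0 : 0 ≤ Q := QQ_nonneg _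
    have h1 : Q ≤ s := by nlinarith
    have h2 : (s - Q) * s ≤ 128 := by nlinarith
    have h3 : |β j * (Q - s)| ≤ δ / 2 := by
      rw [abs_mul, abs_sub_comm, abs_of_nonneg (by linarith : (0 : ℝ) ≤ s - Q)]
      have h4 : |β j| ≤ |B| := (hB j).trans (le_abs_self B)
      have h5 : |β j| * (s - Q) * s ≤ δ / 2 * s := by
        have := abs_nonneg (β j)
        nlinarith [mul_le_mul_of_nonneg_left h2 (abs_nonneg (β j))]
      exact le_of_mul_le_mul_right h5 (by linarith)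
    have e : cexp (I * (β j * Q : ℝ)) - 1 = cexp (I * (β j * (Q - s) : ℝ))
        * (cexp (I * (β j * s : ℝ)) - 1) + (cexp (I * (β j * (Q - s) : ℝ)) - 1) := by
      rw [mul_sub (cexp _), ← Complex.exp_add]
      have : I * ((β j * (Q - s) : ℝ) : ℂ) + I * ((β j * s : ℝ) : ℂ) = I * (β j * Q : ℝ) := by
        push_cast; ring
      rw [this]; ring
    rw [e]
    have h7 : ‖cexp (I * (β j * (Q - s) : ℝ)) - 1‖ ≤ δ / 2 :=
      (Real.norm_exp_I_mul_ofReal_sub_one_le).trans (by simpa using h3)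
    calc _ ≤ _ := norm_add_le _ _
      _ ≤ δ / 2 + δ / 2 := by rw [norm_mul, norm_eI, one_mul]; exact add_le_add (h j).le h7
      _ = δ := by ring

end Vale.Agent.P218S
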