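import Vale.Agent.P218S.Par

/-! The functional along the path of cut heights. -/

namespace Vale.Agent.P218S

open Filter Topology MeasureTheory Complex Real

variable {E : Type*} [NormedAddCommGroup E] [NormedSpace ℂ E] {ι : Type*} [Fintype ι]

open Classical in
/-- The path of cut heights. -/
noncomputable def WW (A : Finset ι) (k : ℕ) (y : ℝ) (l : ι) : ℝ :=
  √2 * y + if l ∈ A then 0 else hh k y

open Classical in
/-- Its velocity. -/
noncomputable def Wd (A : Finset ι) (k : ℕ) (y : ℝ) (l : ι) : ℝ :=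
  √2 + if l ∈ A then 0 else hd k y

/-- The contour of level `b` lies in the domains of the members close to the path. -/
def Adm (c : ι → E →L[ℂ] ℂ) (κ : ι → ℝ) (m : ℕ) (γ : ℕ → E) (q : ℂ → ℂ) (ω : ℂ) (A : Finset ι)
    (ν b : ℝ) : Prop :=
  ∀ ρ : ℝ, 0 < ρ → ∀ k : ℕ, ∀ᶠ y : ℝ in atTop, ∀ n, OK m n (rr m (vv b y)) →
    ∀ W : ι → ℝ, (∀ l, |W l - WW A k y l| ≤ y⁻¹) → W ∈ Cut (√2 * y - 1 / 4) ∧ ∀ z : ℂ, ‖z‖ ≤ 1 →
      XX γ n q (sg (l0 m) (rr m (vv b y) * ω) z) ∈ Dom c κ ν ρ W ∧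
      ∀ l ∈ A, ‖c l (XX γ n q (sg (l0 m) (rr m (vv b y) * ω) z))‖
        * (tipv (κ l) (W l) + 3 * ν / 2) < 1

lemma Geo.dom {c : ι → E →L[ℂ] ℂ} {m : ℕ} {γ : ℕ → E} {q : ℂ → ℂ} {ω : ℂ} {A : Finset ι}
    {ε a : ι → ℝ} (h : Geo c m γ q ω A ε a) (hm : 0 < m) (κ : ι → ℝ) :
    ∃ K : ℝ, ∀ ν b : ℝ, 0 ≤ ν → K + 3 * ν / 2 ≤ b → Adm c κ m γ q ω A ν b := by
  obtain ⟨C₀, h0⟩ := h.g0
  choose! C h1 using h.g1
  choose! d hd h2 using h.g2
  obtain ⟨K, hK⟩ : ∃ K : ℝ, ∀ l, |C l| + κ l + 9 ≤ K :=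
    (Finite.bddAbove_range fun l => |C l| + κ l + 9).imp fun B h j => h ⟨j, rfl⟩
  refine ⟨K, fun ν b hν hb ρ hρ k => ?_⟩
  have ht := rr_tend hm b
  have e1 : ∀ᶠ y : ℝ in atTop, ∀ l, l ∉ A →
      (4 * k + 8 + |b - κ l - 3 * ν / 2|) * (rr m (vv b y) * (1 + Real.log y)) ≤ d l := by
    refine eventually_all.2 fun l => ?_
    by_cases hl : l ∈ A
    · simp [hl]
    · have := (rr_log hm b).const_mul (4 * k + 8 + |b - κ l - 3 * ν / 2|)
      rw [mul_zero] at this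
      filter_upwards [this.eventually (ge_mem_nhds (hd l hl))] with y hy _ using hy
  filter_upwards [ht.eventually h0, ht.eventually (ev_small C₀ (half_pos hρ)),
    (eventually_all_finset A).2 fun l hl => ht.eventually (h1 l hl),
    eventually_all.2 fun l => eventually_imp_distrib_left.2 fun hl => ht.eventually (h2 l hl),
    e1, vv_ev b one_pos, eventually_all.2 fun l => vv_ev (κ l) one_pos, hh_ev k]
    with y a0 ⟨r0, r1, r2⟩ a1 a2 a3 ⟨b1, b2, _⟩ b3 ⟨c1, c2, _⟩ n hn W hW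
  have hv : 0 < vv b y := by nlinarith
  have hp := rr_pow hm hv
  have e2 : ∀ l, tipv (κ l) (√2 * y) = vv b y - b + κ l := fun l => by rw [vv, tipv, tipv]; ring
  have t1 : ∀ l ∈ A, |tipv (κ l) (W l) - tipv (κ l) (√2 * y)| ≤ 2 * (0 * y) + 8 ∧
      W l ∈ Set.Icc (√2 * y - 1 / 4) (√2 * y - 1 / 4 + 1) := fun l hl =>
    tip_diff _ b1 le_rfl (by norm_num) (by simpa [WW, hl] using hW l)
  have t2 : ∀ l, l ∉ A → |tipv (κ l) (W l) - tipv (κ l) (√2 * y)| ≤ 2 * (hh k y * y) + 8 ∧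
      W l ∈ Set.Icc (√2 * y - 1 / 4) (√2 * y - 1 / 4 + 1) := fun l hl =>
    tip_diff _ b1 c1 c2 (by simpa [WW, hl] using hW l)
  refine ⟨fun l => (em (l ∈ A)).elim (fun hl => (t1 l hl).2) fun hl => (t2 l hl).2, fun z hz => ?_⟩
  have key : ∀ l ∈ A, 0 < tipv (κ l) (W l) + 3 * ν / 2 ∧
      ‖c l (XX γ n q (sg (l0 m) (rr m (vv b y) * ω) z))‖ * (tipv (κ l) (W l) + 3 * ν / 2) < 1 := by
    intro l hl
    obtain ⟨u1, u2⟩ := abs_le.1 (t1 l hl).1
    have u3 : y ^ 2 ≤ tipv (κ l) (√2 * y) := (b3 l).2.1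
    have u4 : 0 < tipv (κ l) (W l) + 3 * ν / 2 := by nlinarith
    have u5 : tipv (κ l) (W l) + 3 * ν / 2 ≤ vv b y - (|C l| + 1) := by linarith [hK l, e2 l]
    have u6 : 0 < rr m (vv b y) ^ m := by positivity
    have u7 := a1 l hl n hn z hz
    have u8 := abs_nonneg (C l)
    generalize rr m (vv b y) ^ m = p at *
    refine ⟨u4, lt_of_le_of_lt (mul_le_mul (u7.trans (show _ ≤ p * (1 + |C l| * p) by
      gcongr; exact le_abs_self _)) u5 u4.le (by positivity)) ?_⟩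
    have : p * (1 + |C l| * p) * (vv b y - (|C l| + 1))
        = (1 + |C l| * p) * (vv b y * p - (|C l| + 1) * p) := by ring
    rw [this, hp]
    nlinarith [mul_nonneg u8 u6.le, mul_nonneg (mul_nonneg u8 u6.le) u6.le]
  refine ⟨⟨(a0 n hn z hz).trans_lt (by linarith), fun l => ?_⟩, fun l hl => (key l hl).2⟩
  by_cases hl : l ∈ A
  · refine (norm_sub_le _ _).trans_lt ?_
    rw [norm_mul, norm_real, Real.norm_of_nonneg (key l hl).1.le,
      show ‖(1 / 4 : ℂ)‖ = 1 / 4 by simp]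
    linarith [(key l hl).2]
  · refine a2 l hl n hn z hz _ ?_
    have u1 := Real.log_nonneg (show 1 ≤ y by linarith)
    have u2 : hh k y * y = 2 * k * Real.log y := by rw [hh]; field_simp
    have u3 : |tipv (κ l) (W l) + 3 * ν / 2 - vv b y|
        ≤ (4 * k + 8 + |b - κ l - 3 * ν / 2|) * (1 + Real.log y) := by
      have u4 := (t2 l hl).1
      rw [u2, e2] at u4
      have u5 := abs_sub (tipv (κ l) (W l) - (vv b y - b + κ l)) (b - κ l - 3 * ν / 2)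
      rw [show tipv (κ l) (W l) - (vv b y - b + κ l) - (b - κ l - 3 * ν / 2)
        = tipv (κ l) (W l) + 3 * ν / 2 - vv b y by ring] at u5
      have u6 : (0 : ℝ) ≤ k := Nat.cast_nonneg k
      nlinarith [mul_nonneg (abs_nonneg (b - κ l - 3 * ν / 2)) u1]
    have u7 : rr m (vv b y) ^ m = rr m (vv b y) * rr m (vv b y) ^ (m - 1) := by
      rw [← pow_succ', Nat.sub_add_cancel hm]
    rw [← hp, ← sub_mul, abs_mul, abs_of_pos (show 0 < rr m (vv b y) ^ m by positivity), u7,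
      ← mul_assoc]
    refine mul_le_mul_of_nonneg_right (le_trans ?_ (a3 l hl)) (by positivity)
    nlinarith [mul_le_mul_of_nonneg_right u3 r0.le]

lemma Dom_open (c : ι → E →L[ℂ] ℂ) (κ : ι → ℝ) (ν r : ℝ) (W : ι → ℝ) :
    IsOpen (Dom c κ ν r W) := by
  rw [Dom, Set.ofPred_and, Set.ofPred_forall]
  exact (isOpen_lt continuous_norm continuous_const).inter
    (isOpen_iInter_of_finite fun l => isOpen_lt (by fun_prop) continuous_const)

lemma arc_diff (γ : ℕ → E) (n : ℕ) : Differentiable ℂ (arc γ n) := by unfold arc; fun_prop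

lemma XX_diff (γ : ℕ → E) (n : ℕ) {q : ℂ → ℂ} (hq : Differentiable ℂ q) :
    Differentiable ℂ (XX γ n q) := (arc_diff γ n).comp (by fun_prop)

/-- All the data. -/
structure Dat (E : Type*) [NormedAddCommGroup E] [NormedSpace ℂ E] (ι : Type*) [Fintype ι] where
  c : ι → E →L[ℂ] ℂ
  κ : ι → ℝ
  m : ℕ
  γ : ℕ → E
  q : ℂ → ℂ
  ω : ℂ
  A : Finset ι
  ε : ι → ℝ
  a : ι → ℝ
  ν : ℝ
  δ : ℝ
  F : Fam c κ ν δ
  arc : Arc c m γ
  geo : Geo c m γ q ω A ε a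
  hν : 1 ≤ ν

namespace Dat

variable (X : Dat E ι)

/-- The path. -/
noncomputable def W (y : ℝ) : ι → ℝ := WW X.A (X.F.p + 4) y

/-- Point of the contour. -/
noncomputable def pt (b : ℝ) (n : ℕ) (y θ : ℝ) : E :=
  XX X.γ (32 * X.m * n + n) X.q (rr X.m (vv b y) * X.ω * cexp (uu (l0 X.m) θ))

/-- The functional. -/
noncomputable def Phi (n : ℕ) (W : ι → ℝ) : ℂ :=
  Lam (rr X.m (QQ n ^ 2) * X.ω) (64 * X.m * n - n) (2 * n)
    fun ξ => X.F.f W (XX X.γ (32 * X.m * n + n) X.q ξ)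

/-- Contribution of one end. -/
noncomputable def gg (l : ι) (b : ℝ) (n : ℕ) (y θ : ℝ) : ℂ :=
  X.F.D l (X.W y) (X.pt b n y θ) * (kk X.m n (lm b n y) θ * jj (l0 X.m) θ)

/-- Admissible level. -/
def Ad (b : ℝ) : Prop := Adm X.c X.κ X.m X.γ X.q X.ω X.A X.ν b

lemma hol' : ∀ᶠ y : ℝ in atTop, ∀ W ∈ (Cut (√2 * y - 1 / 4) : Set (ι → ℝ)),
    DifferentiableOn ℂ (X.F.f W) (Dom X.c X.κ X.ν X.F.r W) ∧ ∀ x ∈ Dom X.c X.κ X.ν X.F.r W,
      ‖X.F.f W x‖ ≤ Real.exp (√2 * y - 1 / 4) ∧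
      HasFDerivAt (fun W' => X.F.f W' x)
        (∑ j, (ContinuousLinearMap.proj j : (ι → ℝ) →L[ℝ] ℝ).smulRight (X.F.D j W x)) W ∧
      ∀ j, ‖X.F.D j W x‖ ≤ (√2 * y - 1 / 4) ^ X.F.p * Real.exp (-(W j) ^ 2 / 4) :=
  (tendsto_atTop_add_const_right _ (-(1 / 4)) (tendsto_id.const_mul_atTop
    (by positivity))).eventually X.F.hol

lemma dir {b : ℝ} (hb : X.Ad b) : ∀ᶠ y : ℝ in atTop, ∀ n, 1 ≤ n → 58 / 100 * QQ n ≤ y →
    ∀ (w w' : ℝ → ι → ℝ) (s₀ : ℝ), w s₀ = X.W y →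
      (∀ᶠ s in 𝓝 s₀, HasDerivAt w (w' s) s ∧ ∀ j, |w' s j| ≤ 3) →
      AEStronglyMeasurable (fun θ => ∑ j, (w' s₀ j : ℂ) * X.F.D j (X.W y) (X.pt b n y θ)) volume ∧
      HasDerivAt (fun s => X.Phi n (w s)) (∫ θ in (-π)..π, (∑ j, (w' s₀ j : ℂ) *
        X.F.D j (X.W y) (X.pt b n y θ)) * (kk X.m n (lm b n y) θ * jj (l0 X.m) θ)) s₀ := by
  filter_upwards [hb _ X.F.r_pos (X.F.p + 4), X.hol', vv_ev b one_pos]
    with y h1 h2 ⟨b1, b2, _⟩ n hn hy w w' s₀ hw h3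
  have hv : 0 < vv b y := by nlinarith
  have h4 : ∀ᶠ s in 𝓝 s₀, ∀ l, |w s l - X.W y l| ≤ y⁻¹ := by
    have := h3.self_of_nhds.1.continuousAt.eventually
      (Metric.closedBall_mem_nhds (w s₀) (show 0 < y⁻¹ by positivity))
    filter_upwards [this] with s hs l
    rw [← hw]
    exact (dist_le_pi_dist _ _ l).trans hs
  have hd := XX_diff X.γ (32 * X.m * n + n) X.geo.diff
  have ha : (rr X.m (vv b y) : ℂ) * X.ω ≠ 0 := mul_ne_zero (by exact_mod_cast (rr_pos _ _).ne')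
    (norm_pos_iff.1 (by rw [X.geo.om]; norm_num))
  have key := Lam_deriv (G := fun s ξ => X.F.f (w s) (XX X.γ (32 * X.m * n + n) X.q ξ))
    (G' := fun s ξ => ∑ j, (w' s j : ℂ) * X.F.D j (w s) (XX X.γ (32 * X.m * n + n) X.q ξ))
    (S := fun s => XX X.γ (32 * X.m * n + n) X.q ⁻¹' Dom X.c X.κ X.ν X.F.r (w s))
    (B := ∑ _j : ι, 3 * |√2 * y - 1 / 4| ^ X.F.p) (l := l0 X.m) (h3.and h4) ha
    (rr X.m (QQ n ^ 2) * X.ω) (64 * X.m * n - n) (2 * n) fun s ⟨⟨s1, s2⟩, s3⟩ => by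
      obtain ⟨t1, t2⟩ := h1 _ (ok_of X.arc.pos hn hy b2) (w s) s3
      obtain ⟨t3, t4⟩ := h2 _ t1
      refine ⟨(Dom_open _ _ _ _ _).preimage hd.continuous, fun z hz => (t2 z hz).1,
        t3.comp hd.differentiableOn fun _ h => h, fun θ => ?_⟩
      obtain ⟨-, t5, t6⟩ := t4 _ (t2 _ (norm_eI θ).le).1
      rw [sg_exp] at t5 t6
      refine ⟨(t5.comp_hasDerivAt s s1).congr_deriv (by simp), (norm_sum_le _ _).trans
        (Finset.sum_le_sum fun j _ => ?_)⟩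
      rw [norm_mul, norm_real]
      refine mul_le_mul (s2 j) ((t6 j).trans ?_) (norm_nonneg _) (by norm_num)
      rw [← abs_pow]
      exact (mul_le_mul (le_abs_self _) (Real.exp_le_one_iff.2 (by nlinarith [sq_nonneg (w s j)]))
        (Real.exp_pos _).le (abs_nonneg _)).trans (mul_one _).le
  simp only [hw, wt_eq X.m hn hv X.geo.om] at key
  exact key

lemma kj_cont (m n : ℕ) (lam : ℝ) : Continuous fun θ => kk m n lam θ * jj (l0 m) θ := by
  have := uu_cont (l0 m)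
  have := jj_cont (l0 m)
  unfold kk ker yy
  fun_prop

open Classical in
theorem path {b : ℝ} (hb : X.Ad b) : ∀ᶠ y : ℝ in atTop, ∀ n, 1 ≤ n → 58 / 100 * QQ n ≤ y →
    (∀ l, IntervalIntegrable (X.gg l b n y) volume (-π) π ∧
      HasDerivAt (fun s : ℝ => X.Phi n (X.W y + s • Pi.single l 1))
        (∫ θ in (-π)..π, X.gg l b n y θ) 0) ∧
    HasDerivAt (fun s => X.Phi n (X.W s))
      (∑ l, Wd X.A (X.F.p + 4) y l * ∫ θ in (-π)..π, X.gg l b n y θ) y := by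
  filter_upwards [X.dir hb, hb _ X.F.r_pos (X.F.p + 4), X.hol', vv_ev b one_pos,
    ev_nhds (hh_ev (X.F.p + 4))] with y h0 h1 h2 ⟨b1, b2, _⟩ h3 n hn hy
  obtain ⟨t1, t2⟩ := h1 _ (ok_of X.arc.pos hn hy b2) (X.W y) fun l => by
    simp only [W, sub_self, abs_zero]; positivity
  have key : ∀ l, IntervalIntegrable (X.gg l b n y) volume (-π) π ∧
      HasDerivAt (fun s : ℝ => X.Phi n (X.W y + s • Pi.single l 1))
        (∫ θ in (-π)..π, X.gg l b n y θ) 0 := fun l => by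
    obtain ⟨u1, u2⟩ := h0 n hn hy (fun s => X.W y + s • Pi.single l 1) (fun _ => Pi.single l 1) 0
      (by simp) (Eventually.of_forall fun s => ⟨by
        simpa using ((hasDerivAt_id s).smul_const (Pi.single l (1 : ℝ) : ι → ℝ)).const_add (X.W y),
        fun j => by by_cases h : j = l <;> simp [h]⟩)
    have e : ∀ θ, ∑ j, ((Pi.single l (1 : ℝ) : ι → ℝ) j : ℂ) * X.F.D j (X.W y) (X.pt b n y θ)
        = X.F.D l (X.W y) (X.pt b n y θ) := fun θ => by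
      rw [Finset.sum_eq_single l (fun j _ h => by simp [h]) (by simp)]; simp
    simp only [e] at u1 u2
    refine ⟨IntervalIntegrable.mul_continuousOn ?_ (kj_cont _ _ _).continuousOn, u2⟩
    refine (intervalIntegrable_const (c := (√2 * y - 1 / 4) ^ X.F.p
      * Real.exp (-(X.W y l) ^ 2 / 4))).mono_fun' u1.restrict (Eventually.of_forall fun θ => ?_)
    have := (((h2 _ t1).2 _ (t2 _ (norm_eI θ).le).1).2.2 l)
    rwa [sg_exp] at this
  refine ⟨key, ((h0 n hn hy X.W (Wd X.A (X.F.p + 4)) y rfl ?_).2).congr_deriv ?_⟩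
  · filter_upwards [h3] with s ⟨_, _, s1, s2⟩
    have s3 : HasDerivAt (fun y => √2 * y) √2 s := by simpa using (hasDerivAt_id s).const_mul √2
    obtain ⟨s4, s5⟩ := sq2_bd
    obtain ⟨s6, s7⟩ := abs_le.1 s1
    refine ⟨hasDerivAt_pi.2 fun l => ?_, fun l => ?_⟩ <;> by_cases hl : l ∈ X.A <;>
      simp only [W, WW, Wd, hl, if_true, if_false, add_zero]
    · exact s3
    · exact s3.add s2
    · exact abs_le.2 ⟨by linarith, by linarith⟩
    · exact abs_le.2 ⟨by linarith, by linarith⟩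
  · simp only [Finset.sum_mul, mul_assoc, ← intervalIntegral.integral_const_mul]
    exact intervalIntegral.integral_finsetSum fun l _ => (key l).1.const_mul _

end Dat

end Vale.Agent.P218S
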