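import Vale.Agent.P218S.Ana

/-! The coefficient functional and its contour integral representation. -/

namespace Vale.Agent.P218S

open Filter Topology MeasureTheory Complex Real

/-- Taylor coefficient. -/
noncomputable def cf (M : ℕ) (h : ℂ → ℂ) : ℂ := iteratedDeriv M h 0 / M.factorial

/-- Logarithm of the normalised contour. -/
noncomputable def uu (l θ : ℝ) : ℂ := I * θ - l * (1 - cexp (I * θ))

/-- Jacobian factor. -/
noncomputable def jj (l θ : ℝ) : ℂ := 1 + l * cexp (I * θ)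

/-- The disc bounded by the contour. -/
noncomputable def sg (l : ℝ) (a z : ℂ) : ℂ := a * (z * cexp (-(l * (1 - z))))

lemma sg_exp (l : ℝ) (a : ℂ) (θ : ℝ) : sg l a (cexp (I * θ)) = a * cexp (uu l θ) := by
  rw [sg, uu, ← Complex.exp_add, sub_eq_add_neg (I * θ)]

lemma norm_eI (θ : ℝ) : ‖cexp (I * θ)‖ = 1 := by rw [mul_comm, norm_exp_ofReal_mul_I]

lemma uu_cont (l : ℝ) : Continuous (uu l) := by unfold uu; fun_prop

lemma jj_cont (l : ℝ) : Continuous (jj l) := by unfold jj; fun_prop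

lemma uu_deriv (l θ : ℝ) : HasDerivAt (uu l) (I * jj l θ) θ := by
  have h1 : HasDerivAt (fun θ : ℝ => I * (θ : ℂ)) (I * 1) θ :=
    (Complex.ofRealCLM.hasDerivAt (x := θ)).const_mul I
  have h2 := h1.sub (((hasDerivAt_const θ (1 : ℂ)).sub h1.cexp).const_mul (l : ℂ))
  exact (show HasDerivAt (uu l) _ θ from h2).congr_deriv (by rw [jj]; ring)

lemma cf_succ {h : ℂ → ℂ} (hh : AnalyticAt ℂ (dslope h 0) 0) (M : ℕ) :
    cf (M + 1) h = cf M (dslope h 0) := by
  have e : h = fun z => h 0 + z * dslope h 0 z := by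
    funext z
    have := sub_smul_dslope h 0 z
    rw [sub_zero, smul_eq_mul] at this
    rw [this]; ring
  unfold cf
  conv_lhs => rw [e]
  rw [iteratedDeriv_const_add (Nat.succ_pos M), iteratedDeriv_fun_mul (by fun_prop) hh.contDiffAt,
    Finset.sum_eq_single 1]
  · have : (M.factorial : ℂ) ≠ 0 := by exact_mod_cast M.factorial_ne_zero
    have h2 : ((M : ℂ) + 1) ≠ 0 := by exact_mod_cast M.succ_ne_zero
    simp [Nat.factorial_succ]
    field_simp
  · intro b _ hb
    simp [iteratedDeriv_fun_id_zero, hb]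
  · simp

lemma sg_diff (l : ℝ) (a : ℂ) : Differentiable ℂ (sg l a) := by unfold sg; fun_prop

lemma cont_comp {S : Set ℂ} {l : ℝ} {a : ℂ} (hm : ∀ z, ‖z‖ ≤ 1 → sg l a z ∈ S) {h : ℂ → ℂ}
    (hh : DifferentiableOn ℂ h S) : Continuous fun θ : ℝ => h (a * cexp (uu l θ)) :=
  hh.continuousOn.comp_continuous (continuous_const.mul (uu_cont l).cexp) fun θ => by
    rw [← sg_exp]; exact hm _ (norm_eI θ).le

theorem res {S : Set ℂ} (hS : IsOpen S) {l : ℝ} {a : ℂ} (ha : a ≠ 0)
    (hm : ∀ z, ‖z‖ ≤ 1 → sg l a z ∈ S) (M : ℕ) {h : ℂ → ℂ} (hh : DifferentiableOn ℂ h S) :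
    ∫ θ in (-π)..π, h (a * cexp (uu l θ)) * jj l θ / (a * cexp (uu l θ)) ^ M
      = 2 * π * cf M h := by
  have h0 : (0 : ℂ) ∈ S := by simpa [sg] using hm 0 (by simp)
  induction M generalizing h with
  | zero =>
    have hG : DifferentiableOn ℂ (fun z => h (sg l a z) * (1 + l * z)) (Metric.closedBall 0 1) :=
      (hh.comp (sg_diff l a).differentiableOn fun z hz => hm z (by simpa using hz)).mul
        (by fun_prop)
    have h1 := hG.circleIntegral_one_div_sub_center_pow_smul one_pos 0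
    have hp : Function.Periodic (fun θ : ℝ => h (sg l a (cexp (I * θ))) * jj l θ) (2 * π) := by
      intro θ
      have : cexp (I * ((θ + 2 * π : ℝ) : ℂ)) = cexp (I * θ) := by
        push_cast
        rw [mul_add, Complex.exp_add, mul_comm I (2 * π), exp_two_pi_mul_I, mul_one]
      simp only [jj, this]
    have h2 := hp.intervalIntegral_add_eq (-π) 0
    rw [show -π + 2 * π = π by ring, zero_add] at h2
    simp only [pow_zero, div_one, ← sg_exp, h2]
    simp only [circleIntegral, deriv_circleMap, circleMap, smul_eq_mul] at h1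
    have h3 : ∀ θ : ℝ, (0 + (1 : ℝ) * cexp (θ * I)) * I * (1 / (0 + (1 : ℝ) * cexp (θ * I) - 0)
        ^ (0 + 1) * (h (sg l a (0 + (1 : ℝ) * cexp (θ * I))) *
          (1 + l * (0 + (1 : ℝ) * cexp (θ * I))))) = I * (h (sg l a (cexp (I * θ))) * jj l θ) := by
      intro θ
      have := Complex.exp_ne_zero (θ * I)
      simp only [jj, mul_comm I (θ : ℂ), ofReal_one, one_mul, zero_add, sub_zero, pow_one]
      field_simp
    simp only [h3, intervalIntegral.integral_const_mul] at h1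
    apply mul_left_cancel₀ I_ne_zero
    rw [h1]
    simp [cf, sg]
    ring
  | succ M ih =>
    have hd : DifferentiableOn ℂ (dslope h 0) S := (differentiableOn_dslope (hS.mem_nhds h0)).2 hh
    rw [cf_succ (hd.analyticAt (hS.mem_nhds h0)), ← ih hd]
    have hne : ∀ θ, a * cexp (uu l θ) ≠ 0 := fun θ => mul_ne_zero ha (Complex.exp_ne_zero _)
    have hc : Continuous fun θ : ℝ => a * cexp (uu l θ) := continuous_const.mul (uu_cont l).cexp
    have e : ∀ θ, h (a * cexp (uu l θ)) * jj l θ / (a * cexp (uu l θ)) ^ (M + 1)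
        = dslope h 0 (a * cexp (uu l θ)) * jj l θ / (a * cexp (uu l θ)) ^ M
          + h 0 * (jj l θ / (a * cexp (uu l θ)) ^ (M + 1)) := fun θ => by
      have := sub_smul_dslope h 0 (a * cexp (uu l θ))
      rw [sub_zero, smul_eq_mul, eq_sub_iff_add_eq] at this
      have h2 := hne θ
      rw [← this]
      generalize a * cexp (uu l θ) = w at *
      field_simp
      ring
    have c2 : Continuous fun θ => jj l θ / (a * cexp (uu l θ)) ^ (M + 1) :=
      (jj_cont l).div (hc.pow _) fun θ => pow_ne_zero _ (hne θ)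
    simp only [e]
    have c1 : Continuous fun θ =>
        dslope h 0 (a * cexp (uu l θ)) * jj l θ / (a * cexp (uu l θ)) ^ M :=
      ((cont_comp hm hd).mul (jj_cont l)).div (hc.pow _) fun θ => pow_ne_zero _ (hne θ)
    have c3 : Continuous fun θ => h 0 * (jj l θ / (a * cexp (uu l θ)) ^ (M + 1)) :=
      continuous_const.mul c2
    rw [intervalIntegral.integral_add (c1.intervalIntegrable _ _) (c3.intervalIntegrable _ _),
      intervalIntegral.integral_const_mul]
    have hM : ((M : ℂ) + 1) ≠ 0 := by exact_mod_cast M.succ_ne_zero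
    have hF : ∀ θ : ℝ, HasDerivAt (fun θ => I / ((M + 1) * a ^ (M + 1))
        * cexp (-((M + 1) * uu l θ))) (jj l θ / (a * cexp (uu l θ)) ^ (M + 1)) θ := fun θ => by
      refine ((((uu_deriv l θ).const_mul ((M : ℂ) + 1)).neg.cexp).const_mul
        (I / ((M + 1) * a ^ (M + 1)))).congr_deriv ?_
      have h3 : cexp (uu l θ) ^ (M + 1) = cexp ((M + 1) * uu l θ) := by
        rw [← Complex.exp_nat_mul]; push_cast; rfl
      have h4 := Complex.exp_ne_zero ((M + 1) * uu l θ)
      simp only [Pi.neg_apply, mul_pow, h3, Complex.exp_neg]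
      field_simp
      simp
    rw [intervalIntegral.integral_eq_sub_of_hasDerivAt (fun θ _ => hF θ)
      (c2.intervalIntegrable _ _)]
    have h5 : uu l π = uu l (-π) + 2 * π * I := by
      simp only [uu, ofReal_neg, mul_neg, Complex.exp_neg, mul_comm I (π : ℂ), exp_pi_mul_I]
      ring
    have h6 : cexp (-((M + 1) * uu l π)) = cexp (-((M + 1) * uu l (-π))) := by
      rw [h5, mul_add, neg_add, Complex.exp_add, Complex.exp_neg (_ * (2 * π * I))]
      have := exp_nat_mul_two_pi_mul_I (M + 1)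
      push_cast at this
      rw [this]; simp
    rw [h6]; simp

/-- The kernel. -/
noncomputable def ker (N L : ℕ) (w : ℂ) : ℂ := w ^ N * ((1 + w) / 2) ^ L

/-- The functional. -/
noncomputable def Lam (t : ℂ) (N L : ℕ) (F : ℂ → ℂ) : ℂ :=
  2 * π * cf (N + L) fun ξ => F ξ * (t ^ N * ((ξ + t) / 2) ^ L)

/-- Weight along the contour. -/
noncomputable def wt (t : ℂ) (N L : ℕ) (l : ℝ) (a : ℂ) (θ : ℝ) : ℂ :=
  ker N L (t / (a * cexp (uu l θ))) * jj l θ

lemma wt_cont (t : ℂ) (N L : ℕ) (l : ℝ) {a : ℂ} (ha : a ≠ 0) : Continuous (wt t N L l a) := by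
  have hc : Continuous fun θ : ℝ => t / (a * cexp (uu l θ)) :=
    continuous_const.div (continuous_const.mul (uu_cont l).cexp)
      fun θ => mul_ne_zero ha (Complex.exp_ne_zero _)
  unfold wt ker
  exact ((hc.pow _).mul (((continuous_const.add hc).div_const _).pow _)).mul (jj_cont l)

theorem Lam_eq {S : Set ℂ} (hS : IsOpen S) {l : ℝ} {a : ℂ} (ha : a ≠ 0)
    (hm : ∀ z, ‖z‖ ≤ 1 → sg l a z ∈ S) (t : ℂ) (N L : ℕ) {F : ℂ → ℂ}
    (hF : DifferentiableOn ℂ F S) :
    Lam t N L F = ∫ θ in (-π)..π, F (a * cexp (uu l θ)) * wt t N L l a θ := by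
  rw [Lam, ← res hS ha hm (N + L) (hF.fun_mul (by fun_prop))]
  refine intervalIntegral.integral_congr fun θ _ => ?_
  have h2 : a * cexp (uu l θ) ≠ 0 := mul_ne_zero ha (Complex.exp_ne_zero _)
  simp only [wt, ker]
  generalize a * cexp (uu l θ) = w at *
  rw [show (1 + t / w) / 2 = (w + t) / 2 / w by field_simp, div_pow _ w, div_pow _ w, pow_add]
  field_simp

theorem Lam_deriv {G G' : ℝ → ℂ → ℂ} {s₀ B : ℝ} {U : Set ℝ} (hU : U ∈ 𝓝 s₀) {S : ℝ → Set ℂ}
    {l : ℝ} {a : ℂ} (ha : a ≠ 0) (t : ℂ) (N L : ℕ)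
    (h : ∀ s ∈ U, IsOpen (S s) ∧ (∀ z, ‖z‖ ≤ 1 → sg l a z ∈ S s) ∧
      DifferentiableOn ℂ (G s) (S s) ∧ ∀ θ : ℝ,
        HasDerivAt (fun s => G s (a * cexp (uu l θ))) (G' s (a * cexp (uu l θ))) s ∧
        ‖G' s (a * cexp (uu l θ))‖ ≤ B) :
    AEStronglyMeasurable (fun θ => G' s₀ (a * cexp (uu l θ))) volume ∧
    HasDerivAt (fun s => Lam t N L (G s))
      (∫ θ in (-π)..π, G' s₀ (a * cexp (uu l θ)) * wt t N L l a θ) s₀ := by
  classical
  have h₀ := mem_of_mem_nhds hU
  have hc : ∀ s ∈ U, Continuous fun θ : ℝ => G s (a * cexp (uu l θ)) := fun s hs =>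
    cont_comp (h s hs).2.1 (h s hs).2.2.1
  have hw := wt_cont t N L l ha
  have hm : AEStronglyMeasurable (fun θ => G' s₀ (a * cexp (uu l θ))) volume := by
    refine aestronglyMeasurable_of_tendsto_ae (𝓝[≠] s₀) (f := fun s θ => if s ∈ U then
      (s - s₀)⁻¹ • (G s (a * cexp (uu l θ)) - G s₀ (a * cexp (uu l θ))) else 0) (fun s => ?_)
      (Eventually.of_forall fun θ => ?_)
    · by_cases hs : s ∈ U
      · simp only [hs, if_true]
        exact (((hc s hs).sub (hc s₀ h₀)).const_smul (s - s₀)⁻¹).aestronglyMeasurable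
      · simp only [hs, if_false]
        exact aestronglyMeasurable_const
    · refine (hasDerivAt_iff_tendsto_slope.1 ((h s₀ h₀).2.2.2 θ).1).congr' ?_
      filter_upwards [nhdsWithin_le_nhds hU] with s hs
      simp [hs, slope]
  refine ⟨hm, ?_⟩
  have key := intervalIntegral.hasDerivAt_integral_of_dominated_loc_of_deriv_le (μ := volume)
    (a := -π) (b := π) (F := fun s θ => G s (a * cexp (uu l θ)) * wt t N L l a θ)
    (F' := fun s θ => G' s (a * cexp (uu l θ)) * wt t N L l a θ)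
    (bound := fun θ => B * ‖wt t N L l a θ‖) hU
    (by filter_upwards [hU] with s hs using ((hc s hs).mul hw).aestronglyMeasurable)
    (((hc s₀ h₀).mul hw).intervalIntegrable _ _)
    (hm.mul hw.aestronglyMeasurable).restrict
    (Eventually.of_forall fun θ _ s hs => by
      rw [norm_mul]; exact mul_le_mul_of_nonneg_right ((h s hs).2.2.2 θ).2 (norm_nonneg _))
    ((continuous_const.mul hw.norm).intervalIntegrable _ _)
    (Eventually.of_forall fun θ _ s hs => ((h s hs).2.2.2 θ).1.mul_const _)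
  refine key.2.congr_of_eventuallyEq ?_
  filter_upwards [hU] with s hs using Lam_eq (h s hs).1 ha (h s hs).2.1 t N L (h s hs).2.2.1

lemma iter_zero {M k : ℕ} (hk : M < k) {G : ℂ → ℂ} (hG : AnalyticAt ℂ G 0) :
    iteratedDeriv M (fun z => z ^ k * G z) 0 = 0 :=
  (natCast_le_analyticOrderAt_iff_iteratedDeriv_eq_zero (n := k) (by fun_prop)).1
    ((natCast_le_analyticOrderAt (by fun_prop)).2 ⟨G, hG, by simp⟩) M hk

/-- The functional only sees the Taylor coefficients `1, .., N + L`. -/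
theorem Lam_comp {u : ℂ → ℂ} (hu : AnalyticAt ℂ u 0) (t : ℂ) {N : ℕ} (hN : 0 < N) (L : ℕ) :
    ∃ C : ℝ, 0 ≤ C ∧ ∀ (F : ℂ → ℂ) (ε : ℝ), AnalyticAt ℂ F 0 →
      (∀ i, 1 ≤ i → i ≤ N + L → ‖iteratedDeriv i F 0‖ ≤ ε) →
      ‖Lam t N L fun ξ => F (ξ * u ξ)‖ ≤ C * ε := by
  set H : ℂ → ℂ := fun ξ => t ^ N * ((ξ + t) / 2) ^ L with hH
  have hHa : AnalyticAt ℂ H 0 := by rw [hH]; fun_prop
  set b : ℕ → ℂ := fun i => iteratedDeriv (N + L) (fun ξ => (ξ * u ξ) ^ i / i.factorial * H ξ) 0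
    with hb
  have hb0 : b 0 = 0 := by
    have e : (fun ξ => (ξ * u ξ) ^ 0 / (Nat.factorial 0 : ℂ) * H ξ)
        = fun ξ => (t ^ N / 2 ^ L) * (fun z => z ^ L) (ξ + t) := by
      funext ξ; simp only [hH, div_pow]; simp; ring
    simp only [hb]
    rw [e, iteratedDeriv_const_mul_field, iteratedDeriv_comp_add_const (N + L) (fun z => z ^ L) t]
    simp [Nat.descFactorial_eq_zero_iff_lt.2 (show L < N + L by omega)]
  refine ⟨2 * π / (N + L).factorial * ∑ i ∈ Finset.range (N + L + 1), ‖b i‖, by positivity,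
    fun F ε hF h => ?_⟩
  obtain ⟨G, hG, hFG⟩ := hF.exists_eventuallyEq_sum_add_pow_mul (N + L + 1)
  have hτ : AnalyticAt ℂ (fun ξ => ξ * u ξ) 0 := by fun_prop
  have ht : Tendsto (fun ξ => ξ * u ξ) (𝓝 0) (𝓝 0) := by simpa using hτ.continuousAt.tendsto
  have hG' : AnalyticAt ℂ (fun ξ => G (ξ * u ξ)) 0 := AnalyticAt.fun_comp (by simpa using hG) hτ
  have hR : AnalyticAt ℂ (fun ξ => u ξ ^ (N + L + 1) * G (ξ * u ξ) * H ξ) 0 :=
    ((hu.pow _).mul hG').mul hHa
  have e : (fun ξ => F (ξ * u ξ) * H ξ) =ᶠ[𝓝 0] fun ξ =>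
      (∑ i ∈ Finset.range (N + L + 1), iteratedDeriv i F 0 * ((ξ * u ξ) ^ i / i.factorial * H ξ))
        + ξ ^ (N + L + 1) * (u ξ ^ (N + L + 1) * G (ξ * u ξ) * H ξ) := by
    filter_upwards [ht.eventually hFG] with ξ hξ
    rw [hξ, add_mul, Finset.sum_mul]
    simp only [smul_eq_mul]
    congr 1
    · exact Finset.sum_congr rfl fun i _ => by ring
    · ring
  have e2 : iteratedDeriv (N + L) (fun ξ => F (ξ * u ξ) * H ξ) 0
      = ∑ i ∈ Finset.range (N + L + 1), iteratedDeriv i F 0 * b i := by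
    rw [e.iteratedDeriv_eq, iteratedDeriv_fun_add, iter_zero (Nat.lt_succ_self _) hR,
      add_zero, iteratedDeriv_fun_sum]
    · exact Finset.sum_congr rfl fun i _ => iteratedDeriv_const_mul_field _ _
    · intro i _
      exact AnalyticAt.contDiffAt (by fun_prop)
    · exact AnalyticAt.contDiffAt (Finset.analyticAt_fun_sum _ fun i _ => by fun_prop)
    · exact AnalyticAt.contDiffAt ((analyticAt_id.pow _).mul hR)
  have hε : 0 ≤ ε := (norm_nonneg _).trans (h 1 le_rfl (by omega))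
  have h3 : ‖∑ i ∈ Finset.range (N + L + 1), iteratedDeriv i F 0 * b i‖
      ≤ (∑ i ∈ Finset.range (N + L + 1), ‖b i‖) * ε := by
    rw [Finset.sum_mul]
    refine (norm_sum_le _ _).trans (Finset.sum_le_sum fun i hi => ?_)
    rcases Nat.eq_zero_or_pos i with rfl | hi0
    · simp [hb0]
    · rw [norm_mul, mul_comm]
      exact mul_le_mul_of_nonneg_left (h i hi0 (by simpa [Nat.lt_succ_iff] using hi))
        (norm_nonneg _)
  rw [Lam, cf]
  erw [e2]
  rw [norm_mul, norm_div, Complex.norm_natCast]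
  have h4 : ‖(2 * π : ℂ)‖ = 2 * π := by simp [abs_of_pos pi_pos]
  rw [h4]
  calc _ ≤ 2 * π * ((∑ i ∈ Finset.range (N + L + 1), ‖b i‖) * ε / (N + L).factorial) := by gcongr
    _ = _ := by ring

end Vale.Agent.P218S
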