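import Vale.Agent.P218S.Defs
import Vale.Agent.P218S.Ker

/-! Elementary estimates for the arc and for the disc bounded by the contour. -/

namespace Vale.Agent.P218S

open Filter Topology Complex Real

variable {E : Type*} [NormedAddCommGroup E] [NormedSpace ℂ E] {ι : Type*}

lemma fact_le {i : ℕ} (hi : 1 ≤ i) : (i.factorial : ℝ) ≤ 3 * i * (3 / 8 * i) ^ i := by
  obtain ⟨k, rfl⟩ : ∃ k, i = k + 1 := ⟨i - 1, by omega⟩
  have h := Stirling.stirlingSeq'_antitone (Nat.zero_le k)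
  simp only [Function.comp, Nat.succ_eq_add_one, zero_add, Stirling.stirlingSeq_one] at h
  have h1 : (1 : ℝ) ≤ (k + 1 : ℕ) := by exact_mod_cast hi
  have he := Real.exp_one_gt_d9
  have he' := Real.exp_one_lt_d9
  rw [Stirling.stirlingSeq] at h
  generalize ((k + 1 : ℕ) : ℝ) = y at *
  rw [div_le_iff₀ (by positivity), Real.sqrt_mul (by norm_num), ← mul_assoc, ← mul_assoc,
    div_mul_cancel₀ _ (by positivity)] at h
  refine h.trans ?_
  have h2 : √y ≤ y := by rw [Real.sqrt_le_left (by linarith)]; nlinarith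
  have h3 : y / Real.exp 1 ≤ 3 / 8 * y := by rw [div_le_iff₀ (by positivity)]; nlinarith
  gcongr
  linarith

lemma Arc.tail {c : ι → E →L[ℂ] ℂ} {m : ℕ} {γ : ℕ → E} (h : Arc c m γ) {k : ℕ} (hk : 1 ≤ k) :
    ∃ C : ℝ, 0 ≤ C ∧ ∀ (n : ℕ) (t : ℂ), n * ‖t‖ ^ m ≤ 4 / 5 * m →
      ‖∑ i ∈ Finset.Ico k (n + 1), t ^ i • γ i‖ ≤ C * ‖t‖ ^ k := by
  obtain ⟨C, hC⟩ := h.gev
  have hm : (1 : ℝ) ≤ m := by exact_mod_cast h.pos
  have hC0 : 0 ≤ C := by simpa [h.zero, h.pos.ne'] using hC 0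
  set θ : ℝ := 1 + -(1 / (4 * m)) with hθ
  have h4 : 1 / (4 * (m : ℝ)) ≤ 1 / 4 := one_div_le_one_div_of_le (by norm_num) (by linarith)
  have h5 : 0 < 1 / (4 * (m : ℝ)) := by positivity
  have hθ0 : 0 < θ := by linarith
  have hθ1 : θ < 1 := by linarith
  have hθm : 3 / 4 ≤ θ ^ m := by
    refine le_trans (le_of_eq ?_) (one_add_mul_le_pow (by linarith) m)
    field_simp; norm_num
  have hs : Summable fun i : ℕ => (i : ℝ) ^ (k + 1) * θ ^ i :=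
    summable_pow_mul_geometric_of_norm_lt_one (k + 1) (by rwa [Real.norm_of_nonneg hθ0.le])
  set D := 1 + 3 * C with hD
  refine ⟨D / θ ^ k * ∑' i : ℕ, (i : ℝ) ^ (k + 1) * θ ^ i,
    mul_nonneg (by positivity) (tsum_nonneg fun i => by positivity), fun n t ht => ?_⟩
  have key : ∀ i ∈ Finset.Ico k (n + 1),
      ‖t ^ i • γ i‖ ≤ D / θ ^ k * ((i : ℝ) ^ (k + 1) * θ ^ i) * ‖t‖ ^ k := fun i hi => by
    obtain ⟨h1, h2⟩ := Finset.mem_Ico.1 hi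
    obtain ⟨j, rfl⟩ := Nat.exists_eq_add_of_le h1
    have hi1 : (1 : ℝ) ≤ (k + j : ℕ) := by exact_mod_cast (by omega : 1 ≤ k + j)
    have hin : ((k + j : ℕ) : ℝ) ≤ n := by exact_mod_cast (by omega : k + j ≤ n)
    have h3 := (hC (k + j)).trans (mul_le_mul_of_nonneg_left (fact_le (by omega)) (by positivity))
    generalize ((k + j : ℕ) : ℝ) = y at *
    have h6 : 5 / 2 / m * (3 / 8 * y) * ‖t‖ ^ m ≤ θ ^ m := by
      have : y * ‖t‖ ^ m ≤ 4 / 5 * m := le_trans (by gcongr) ht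
      refine le_trans ?_ hθm
      rw [div_mul_eq_mul_div, div_mul_eq_mul_div, div_le_iff₀ (by linarith)]
      linarith
    have h7 : 5 / 2 / m * (3 / 8 * y) ≤ y := by
      rw [div_mul_eq_mul_div, div_le_iff₀ (by linarith)]; nlinarith
    have h8 : ‖γ (k + j)‖ * ‖t‖ ^ j ≤ D * y ^ (k + 1) * θ ^ j := by
      refine le_of_pow_le_pow_left₀ h.pos.ne' (by positivity) ?_
      have h9 : D * y ^ (k + 1) ≤ (D * y ^ (k + 1)) ^ m :=
        le_self_pow₀ (one_le_mul_of_one_le_of_one_le (by linarith) (one_le_pow₀ hi1)) h.pos.ne'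
      calc (‖γ (k + j)‖ * ‖t‖ ^ j) ^ m = ‖γ (k + j)‖ ^ m * (‖t‖ ^ m) ^ j := by ring
        _ ≤ C * (5 / 2 / m) ^ (k + j) * (3 * y * (3 / 8 * y) ^ (k + j)) * (‖t‖ ^ m) ^ j := by gcongr
        _ = 3 * C * y * (5 / 2 / m * (3 / 8 * y)) ^ k
            * (5 / 2 / m * (3 / 8 * y) * ‖t‖ ^ m) ^ j := by
            simp only [mul_pow, pow_add]; ring
        _ ≤ D * y * y ^ k * (θ ^ m) ^ j := by gcongr; linarith
        _ = D * y ^ (k + 1) * (θ ^ j) ^ m := by ring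
        _ ≤ (D * y ^ (k + 1)) ^ m * (θ ^ j) ^ m := by gcongr
        _ = _ := by rw [← mul_pow]
    rw [norm_smul, norm_pow]
    calc ‖t‖ ^ (k + j) * ‖γ (k + j)‖ = ‖γ (k + j)‖ * ‖t‖ ^ j * ‖t‖ ^ k := by ring
      _ ≤ D * y ^ (k + 1) * θ ^ j * ‖t‖ ^ k := by gcongr
      _ = _ := by field_simp; ring
  refine (norm_sum_le_of_le _ key).trans ?_
  rw [← Finset.sum_mul, ← Finset.mul_sum]
  gcongr
  exact hs.sum_le_tsum _ fun i _ => by positivity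

/-- The normalised `c` component of the arc. -/
noncomputable def bl (L : E →L[ℂ] ℂ) (m : ℕ) (γ : ℕ → E) (t : ℂ) : ℂ :=
  ∑ i ∈ Finset.range (m + 1), t ^ i * L (γ (m + i))

lemma bl_diff (L : E →L[ℂ] ℂ) (m : ℕ) (γ : ℕ → E) : Differentiable ℂ (bl L m γ) := by
  unfold bl; fun_prop

lemma bl_zero (L : E →L[ℂ] ℂ) (m : ℕ) (γ : ℕ → E) : bl L m γ 0 = L (γ m) := by
  simp [bl, Finset.sum_range_succ']

lemma Arc.c_eq {c : ι → E →L[ℂ] ℂ} {m : ℕ} {γ : ℕ → E} (h : Arc c m γ) (l : ι) {n : ℕ}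
    (hn : 2 * m ≤ n) (t : ℂ) : c l (arc γ n t) = t ^ m * bl (c l) m γ t
      + c l (∑ i ∈ Finset.Ico (2 * m + 1) (n + 1), t ^ i • γ i) := by
  rw [arc, ← Finset.sum_range_add_sum_Ico _ (show 2 * m + 1 ≤ n + 1 by omega), map_add,
    show 2 * m + 1 = m + (m + 1) by ring, Finset.sum_range_add, map_add, map_sum, map_sum,
    Finset.sum_eq_zero fun i hi => by simp [h.low l i (Finset.mem_range.1 hi)], zero_add, bl,
    Finset.mul_sum]
  congr 1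
  exact Finset.sum_congr rfl fun i _ => by simp [pow_add, mul_assoc]

lemma Arc.arc_eq {c : ι → E →L[ℂ] ℂ} {m : ℕ} {γ : ℕ → E} (h : Arc c m γ) (n : ℕ) (t : ℂ) :
    arc γ n t = ∑ i ∈ Finset.Ico 1 (n + 1), t ^ i • γ i := by
  rw [arc, ← Finset.sum_range_add_sum_Ico _ (show 1 ≤ n + 1 by omega)]
  simp [h.zero]

lemma omega_ex {m : ℕ} (hm : 0 < m) {α : ℂ} (h : α = 1 ∨ α = -1) : ∃ ω : ℂ, ‖ω‖ = 1 ∧
    ω ^ m = -α ∧ (∀ i, i < m → (ω ^ i).re = 0 → 2 * i = m) ∧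
    (2 * (m / 2) = m → (ω ^ (m / 2)).re = 0 → ω ^ (m / 2) = I) := by
  rcases h with rfl | rfl
  · have hm' : (0 : ℝ) < m := by exact_mod_cast hm
    have e : ∀ i : ℕ, cexp ((π / m : ℝ) * I) ^ i = cexp ((i * π / m : ℝ) * I) := fun i => by
      rw [← Complex.exp_nat_mul]; congr 1; push_cast; ring
    refine ⟨cexp ((π / m : ℝ) * I), norm_exp_ofReal_mul_I _, ?_, fun i hi h => ?_, fun h _ => ?_⟩
    · rw [e, mul_div_cancel_left₀ _ hm'.ne', exp_pi_mul_I]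
    · rw [e, exp_ofReal_mul_I_re, ← Real.cos_pi_div_two] at h
      have hi' : (i : ℝ) ≤ m := by exact_mod_cast hi.le
      have h1 := Real.injOn_cos ⟨by positivity, by
        rw [div_le_iff₀ hm']; nlinarith [Real.pi_pos]⟩
        ⟨by positivity, by linarith [Real.pi_pos]⟩ h
      have h2 : (2 * i : ℝ) = m := by
        field_simp at h1; linarith
      exact_mod_cast h2
    · have h2 : (m : ℝ) = 2 * ((m / 2 : ℕ) : ℝ) := by exact_mod_cast h.symm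
      have h3 : ((m / 2 : ℕ) : ℝ) * π / m = π / 2 := by
        rw [div_eq_iff hm'.ne']; linear_combination (-π / 2) * h2
      rw [e, h3]; push_cast; exact exp_pi_div_two_mul_I
  · exact ⟨1, by simp, by simp, by simp, by simp⟩

lemma pow_diff {a b : ℂ} {r D : ℝ} (ha : ‖a‖ ≤ r) (hb : ‖b‖ ≤ r) (h : ‖a - b‖ ≤ r * D) (k : ℕ) :
    ‖a ^ k - b ^ k‖ ≤ k * r ^ k * D := by
  have hr : 0 ≤ r := (norm_nonneg _).trans ha
  induction k with
  | zero => simp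
  | succ k ih =>
    have e : a ^ (k + 1) - b ^ (k + 1) = a * (a ^ k - b ^ k) + b ^ k * (a - b) := by ring
    rw [e]
    calc _ ≤ ‖a‖ * ‖a ^ k - b ^ k‖ + ‖b‖ ^ k * ‖a - b‖ :=
          norm_add_le_of_le (norm_mul_le _ _) (by rw [norm_mul, norm_pow])
      _ ≤ r * (k * r ^ k * D) + r ^ k * (r * D) := by gcongr
      _ = _ := by push_cast; ring

lemma sg_bd {m : ℕ} (hm : 0 < m) {z : ℂ} (hz : ‖z‖ ≤ 1) :
    ‖sg (l0 m) 1 z‖ ≤ 1 ∧ ‖sg (l0 m) 1 z‖ ^ m ≤ Real.exp (-(‖1 - z‖ ^ 2 / 12800)) ∧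
      ‖sg (l0 m) 1 z - 1‖ ≤ 2 * ‖1 - z‖ ∧ ‖1 - z‖ ≤ 2 := by
  obtain ⟨k1, k2, k3⟩ := l0_bd hm
  have h1 : ‖1 - z‖ ^ 2 ≤ 2 * (1 - z.re) := by
    have h2 : ‖z‖ ^ 2 ≤ 1 := by nlinarith [norm_nonneg z]
    rw [Complex.sq_norm, normSq_apply] at h2 ⊢
    simp only [sub_re, one_re, sub_im, one_im]
    nlinarith
  have h2 : ‖cexp (-(l0 m * (1 - z)))‖ = Real.exp (-(l0 m * (1 - z.re))) := by
    rw [norm_exp]; simp
  have h3 : Real.exp (-(l0 m * (1 - z.re))) ≤ 1 :=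
    Real.exp_le_one_iff.2 (by nlinarith [sq_nonneg ‖1 - z‖])
  have h4 : ‖sg (l0 m) 1 z‖ ≤ Real.exp (-(l0 m * (1 - z.re))) := by
    rw [sg, one_mul, norm_mul, h2]
    exact mul_le_of_le_one_left (Real.exp_pos _).le hz
  have h5 : ‖1 - z‖ ≤ 2 := (norm_sub_le _ _).trans (by simp; linarith)
  refine ⟨h4.trans h3, (pow_le_pow_left₀ (norm_nonneg _) h4 m).trans ?_, ?_, h5⟩
  · rw [← Real.exp_nat_mul]
    refine Real.exp_le_exp.2 ?_
    rw [mul_neg, ← mul_assoc, k3]; linarith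
  · have e : sg (l0 m) 1 z - 1 = -((1 - z) * cexp (-(l0 m * (1 - z))))
        + (cexp (-(l0 m * (1 - z))) - 1) := by rw [sg]; ring
    have h6 : ‖-((l0 m : ℂ) * (1 - z))‖ = l0 m * ‖1 - z‖ := by simp [abs_of_pos k1]
    have h7 := Complex.norm_exp_sub_one_le (x := -(l0 m * (1 - z))) (by rw [h6]; nlinarith)
    rw [e]
    refine (norm_add_le_of_le (le_refl _) h7).trans ?_
    rw [norm_neg, norm_mul, h2, h6]
    nlinarith [norm_nonneg (1 - z)]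

lemma other_end {m : ℕ} (hm : 0 < m) {a : ℂ} (ha : ‖a‖ ≤ 1) (ha' : a ≠ -1) : ∃ δ : ℝ, 0 < δ ∧
    ∀ z : ℂ, ‖z‖ ≤ 1 → ‖a * sg (l0 m) 1 z ^ m - 1 / 4‖ ≤ 5 / 4 - δ := by
  have hc : Continuous fun z => ‖a * sg (l0 m) 1 z ^ m - 1 / 4‖ := by
    have := (sg_diff (l0 m) 1).continuous
    fun_prop
  obtain ⟨z, hz, h⟩ := (isCompact_closedBall (0 : ℂ) 1).exists_isMaxOn ⟨0, by simp⟩ hc.continuousOn
  refine ⟨5 / 4 - ‖a * sg (l0 m) 1 z ^ m - 1 / 4‖, ?_, fun w hw => by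
    simpa using h (show w ∈ Metric.closedBall 0 1 by simpa using hw)⟩
  rw [sub_pos]
  by_cases h1 : z = 1
  · have h2 : -1 < a.re := by
      by_contra h3
      have h4 : ‖a‖ ^ 2 ≤ 1 := by nlinarith [norm_nonneg a]
      rw [Complex.sq_norm, normSq_apply] at h4
      exact ha' (Complex.ext (by simp; nlinarith [mul_self_nonneg a.im])
        (by simp; nlinarith [mul_self_nonneg a.im]))
    have h4 : ‖a‖ ^ 2 ≤ 1 := by nlinarith [norm_nonneg a]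
    refine lt_of_pow_lt_pow_left₀ 2 (by norm_num) ?_
    rw [Complex.sq_norm, normSq_apply] at h4 ⊢
    simp [h1, sg]
    nlinarith
  · have h2 := (sg_bd hm (show ‖z‖ ≤ 1 by simpa using hz)).2.1
    have h3 : 0 < ‖1 - z‖ := norm_pos_iff.2 (sub_ne_zero.2 (Ne.symm h1))
    have h4 : Real.exp (-(‖1 - z‖ ^ 2 / 12800)) < 1 := Real.exp_lt_one_iff.2 (by
      have : 0 < ‖1 - z‖ ^ 2 / 12800 := by positivity
      linarith)
    refine (norm_sub_le _ _).trans_lt ?_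
    rw [norm_mul, norm_pow]
    have h5 : ‖(1 / 4 : ℂ)‖ = 1 / 4 := by simp
    nlinarith [mul_le_of_le_one_left (pow_nonneg (norm_nonneg (sg (l0 m) 1 z)) m) ha]

lemma dom_real {B p y e d X : ℝ} (hB : 0 ≤ B) (hy : 0 ≤ y) (hy' : 8 * B * y ≤ 1)
    (hp : |p| ≤ B * y) (he : 0 ≤ e) (he' : e ≤ B * y) (hd : 0 ≤ d) (hd' : d ≤ 2)
    (hX : p - B * y * d - e ≤ X) : 1 / 2 ≤ 1 + X ∧
      Real.exp (-(d ^ 2 / 12800)) * ((1 + X)⁻¹ + e) ≤ 1 - p + (6432 * (B * y) ^ 2 + 2 * e) := by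
  have hw : 0 ≤ B * y := mul_nonneg hB hy
  rw [mul_assoc] at hy'
  generalize B * y = w at *
  obtain ⟨p1, p2⟩ := abs_le.1 hp
  have h1 : -(4 * w) ≤ p - w * d - e := by nlinarith
  have h2 : p - w * d - e ≤ 4 * w := by nlinarith
  refine ⟨by linarith, ?_⟩
  have h3 : (1 + X)⁻¹ ≤ 1 - (p - w * d - e) + 32 * w ^ 2 := by
    generalize p - w * d - e = x at *
    refine (inv_anti₀ (by linarith) (show 1 + x ≤ 1 + X by linarith)).trans ?_
    rw [inv_le_iff_one_le_mul₀ (by linarith)]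
    have : x ^ 2 ≤ 16 * w ^ 2 := by nlinarith
    nlinarith
  have h4 := Real.add_one_le_exp (d ^ 2 / 12800)
  have h5 : w * d ≤ d ^ 2 / 25600 + 6400 * w ^ 2 := by nlinarith [sq_nonneg (d / 160 - 80 * w)]
  rw [Real.exp_neg, inv_mul_le_iff₀ (Real.exp_pos _)]
  have h6 : 1 / 2 ≤ 1 - p + (6432 * w ^ 2 + 2 * e) := by nlinarith
  nlinarith [sq_nonneg d,
    mul_le_mul_of_nonneg_right h4 (by linarith : 0 ≤ 1 - p + (6432 * w ^ 2 + 2 * e))]

end Vale.Agent.P218S
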